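import Vale.Agent.P372.Code

/-!
One-way reconciliation and privacy amplification for a product family with flagged errors.
-/

namespace Vale.P372

open Matrix Finset
open scoped BigOperators ComplexOrder

variable {ι : Type} [Fintype ι] [DecidableEq ι] {r s : ℕ}
variable {J E : Type} [Fintype J] [Fintype E] [DecidableEq E]

/-- Eve's state of key values and syndrome, after hashing and decoding. -/
noncomputable def codeState (L : Matrix (Fin r ⊕ Fin s) ι (ZMod 2)) (T : Finset (ι → ZMod 2))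
    (Φ : (ι → ZMod 2) → (ι → ZMod 2) → Matrix J E ℂ)
    (z : Fin s → ZMod 2) (k k' : Fin r → ZMod 2) : Matrix E E ℂ :=
  ∑ x ∈ univ.filter (fun x => L *ᵥ x = Sum.elim k z),
    ∑ e : ι → ZMod 2, if (L *ᵥ decode L T z (x + e)) ∘ Sum.inl = k' then gam (Φ x e) else 0

/-- The marginal state of Eve and the syndrome. -/
noncomputable def codeMarginal (L : Matrix (Fin r ⊕ Fin s) ι (ZMod 2))
    (Φ : (ι → ZMod 2) → (ι → ZMod 2) → Matrix J E ℂ) (z : Fin s → ZMod 2) : Matrix E E ℂ :=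
  ∑ k : Fin r → ZMod 2, ∑ x ∈ univ.filter (fun x => L *ᵥ x = Sum.elim k z), ∑ e, gam (Φ x e)

/-- The rows of the different errors stacked. -/
def stack (f : (ι → ZMod 2) → Matrix J E ℂ) : Matrix ((ι → ZMod 2) × J) E ℂ :=
  fun p e => f p.1 p.2 e

lemma ip_stack (f g : (ι → ZMod 2) → Matrix J E ℂ) :
    ip (stack f) (stack g) = ∑ a, ip (f a) (g a) := by
  simp [ip, stack, Fintype.sum_prod_type]

lemma gam_stack (f : (ι → ZMod 2) → Matrix J E ℂ) : gam (stack f) = ∑ a, gam (f a) := by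
  ext x y
  simp [gam_apply, stack, Fintype.sum_prod_type, Matrix.sum_apply]

lemma sum_elim_fibre {α : Type*} [AddCommMonoid α] (f : (Fin r ⊕ Fin s → ZMod 2) → α) :
    ∑ z : Fin s → ZMod 2, ∑ k : Fin r → ZMod 2, f (Sum.elim k z) = ∑ c, f c := by
  rw [sum_comm, ← Fintype.sum_prod_type' fun k z => f (Sum.elim k z)]
  exact Equiv.sum_comp (Equiv.sumArrowEquivProdArrow _ _ _).symm f

/-- The key is close to uniform and independent of Eve and of the syndrome. -/
theorem code_secure (L : Matrix (Fin r ⊕ Fin s) ι (ZMod 2)) (Tp Tq : Finset (ι → ZMod 2))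
    (Φ : (ι → ZMod 2) → (ι → ZMod 2) → Matrix J E ℂ) (η κ : ℝ) (q : ZMod 2 → ℝ)
    (hη0 : 0 ≤ η) (hη1 : η ≤ 1) (hκ : 0 ≤ κ)
    (hn : ∀ x e, nsq (Φ x e) = κ * prodw q e)
    (hG : ∀ x y, ∑ e, ip (Φ x e) (Φ y e) = ((κ * prodw (ovl η) (x + y) : ℝ) : ℂ)) :
    ∑ z : Fin s → ZMod 2, ∑ k : Fin r → ZMod 2, ∑ k' : Fin r → ZMod 2,
        traceNorm (codeState L Tq Φ z k k' -
          if k = k' then ((2 : ℂ) ^ r)⁻¹ • codeMarginal L Φ z else 0) ≤
      2 ^ Fintype.card ι * κ * (4 * √(∑ a ∈ (goodPhase L Tp)ᶜ, prodw (phaseW η) a) +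
        2 * ∑ a ∈ (goodBit L Tq)ᶜ, prodw q a) := by
  obtain ⟨Γ, hΓ⟩ := coset_privacy L (fun x => stack (Φ x)) η κ hη0 hη1 hκ
    (fun x y => by rw [ip_stack, hG]) (goodPhase L Tp)
    (fun a ha v hv hb => (mem_filter.1 ha).2 v hv (mem_filter.1 hb).1)
  simp only [gam_stack] at hΓ
  set X := √(∑ a ∈ (goodPhase L Tp)ᶜ, prodw (phaseW η) a) with hX
  set A : (Fin r → ZMod 2) → (Fin s → ZMod 2) → Matrix E E ℂ := fun k z =>
    ∑ x ∈ univ.filter (fun x => L *ᵥ x = Sum.elim k z), ∑ e, gam (Φ x e) with hA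
  set d : (Fin r → ZMod 2) → (Fin s → ZMod 2) → ℝ := fun k z => traceNorm (A k z - Γ) with hd
  have hdsum : ∑ z, ∑ k, d k z ≤ 2 * (2 ^ Fintype.card ι * κ) * X :=
    le_trans (le_of_eq (sum_elim_fibre fun c =>
      traceNorm (∑ x ∈ univ.filter (fun x => L *ᵥ x = c), ∑ e, gam (Φ x e) - Γ))) hΓ
  set F : (ι → ZMod 2) → (ι → ZMod 2) → ℝ :=
    fun x e => if e ∈ goodBit L Tq then 0 else 2 * nsq (Φ x e) with hF
  have hM : ∀ z, codeMarginal L Φ z = ∑ k, A k z := fun z => rfl
  have hpart : ∀ z k, ∑ k', traceNorm (codeState L Tq Φ z k k' -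
        if k = k' then ((2 : ℂ) ^ r)⁻¹ • codeMarginal L Φ z else 0) ≤
      (∑ x ∈ univ.filter (fun x => L *ᵥ x = Sum.elim k z), ∑ e, F x e) +
        (d k z + ((2 : ℝ) ^ r)⁻¹ * ∑ k'', d k'' z) := by
    intro z k
    have hsplit : ∀ k', codeState L Tq Φ z k k' -
          (if k = k' then ((2 : ℂ) ^ r)⁻¹ • codeMarginal L Φ z else 0) =
        (∑ x ∈ univ.filter (fun x => L *ᵥ x = Sum.elim k z), ∑ e,
          ((if (L *ᵥ decode L Tq z (x + e)) ∘ Sum.inl = k' then gam (Φ x e) else 0) -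
            if k = k' then gam (Φ x e) else 0)) +
          if k = k' then A k z - ((2 : ℂ) ^ r)⁻¹ • codeMarginal L Φ z else 0 := by
      intro k'
      by_cases h : k = k'
      · subst h; simp [codeState, hA, sum_sub_distrib]
      · simp [codeState, if_neg h]
    simp only [hsplit]
    refine (sum_le_sum fun k' _ => traceNorm_add_le _ _).trans ?_
    rw [sum_add_distrib]
    refine add_le_add ?_ ?_
    · refine (sum_le_sum fun k' _ => (traceNorm_sum_le _ _).trans
        (sum_le_sum fun x _ => traceNorm_sum_le _ _)).trans ?_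
      rw [sum_comm]
      refine sum_le_sum fun x hx => ?_
      rw [sum_comm]
      refine sum_le_sum fun e _ => ?_
      have hLx := (mem_filter.1 hx).2
      by_cases he : e ∈ goodBit L Tq
      · have hz : (L *ᵥ x) ∘ Sum.inr = z := by rw [hLx]; rfl
        have hk : (L *ᵥ decode L Tq z (x + e)) ∘ Sum.inl = k := by
          rw [← hz, decode_eq L Tq x e he, hLx]; rfl
        simp [hF, he, hk, traceNorm_zero]
      · have hb : ∀ k', traceNorm
            ((if (L *ᵥ decode L Tq z (x + e)) ∘ Sum.inl = k' then gam (Φ x e) else 0) -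
              if k = k' then gam (Φ x e) else 0) ≤
            (if (L *ᵥ decode L Tq z (x + e)) ∘ Sum.inl = k' then nsq (Φ x e) else 0) +
              if k = k' then nsq (Φ x e) else 0 := by
          intro k'
          refine (traceNorm_sub_le _ _).trans (add_le_add ?_ ?_) <;>
            split <;> simp [traceNorm_gam_le, traceNorm_zero]
        refine (sum_le_sum fun k' _ => hb k').trans (le_of_eq ?_)
        simp [hF, he, sum_add_distrib, two_mul]
    · have h0 : ∀ k', traceNorm (if k = k' then A k z - ((2 : ℂ) ^ r)⁻¹ • codeMarginal L Φ z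
          else 0) = if k = k' then traceNorm (A k z - ((2 : ℂ) ^ r)⁻¹ • codeMarginal L Φ z)
            else 0 := by
        intro k'; split <;> simp [traceNorm_zero]
      simp only [h0, sum_ite_eq, mem_univ, if_true]
      have hcard : (Fintype.card (Fin r → ZMod 2) : ℂ) = (2 : ℂ) ^ r := by simp
      have e : A k z - ((2 : ℂ) ^ r)⁻¹ • codeMarginal L Φ z =
          (A k z - Γ) - ((2 : ℂ) ^ r)⁻¹ • ∑ k'', (A k'' z - Γ) := by
        rw [hM, sum_sub_distrib, sum_const, card_univ, ← Nat.cast_smul_eq_nsmul ℂ, hcard, smul_sub,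
          smul_smul, inv_mul_cancel₀ (by norm_num), one_smul]
        abel
      rw [e]
      refine (traceNorm_sub_le _ _).trans (add_le_add le_rfl ?_)
      rw [traceNorm_smul, norm_inv, norm_pow, Complex.norm_ofNat]
      exact mul_le_mul_of_nonneg_left (traceNorm_sum_le _ _) (by positivity)
  refine (sum_le_sum fun z _ => sum_le_sum fun k _ => hpart z k).trans ?_
  simp only [sum_add_distrib]
  have h1 : ∑ z : Fin s → ZMod 2, ∑ k : Fin r → ZMod 2,
      ∑ x ∈ univ.filter (fun x => L *ᵥ x = Sum.elim k z), ∑ e, F x e =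
      2 ^ Fintype.card ι * κ * (2 * ∑ a ∈ (goodBit L Tq)ᶜ, prodw q a) := by
    rw [sum_elim_fibre fun c => ∑ x ∈ univ.filter (fun x => L *ᵥ x = c), ∑ e, F x e,
      sum_fiberwise univ (fun x => L *ᵥ x) fun x => ∑ e, F x e]
    have : ∀ x, ∑ e, F x e = 2 * κ * ∑ a ∈ (goodBit L Tq)ᶜ, prodw q a := by
      intro x
      simp only [hF, hn]
      rw [sum_ite, sum_const_zero, zero_add, mul_sum, filter_not]
      exact sum_congr (by ext; simp) fun a _ => by ring
    simp only [this, sum_const, card_univ, Fintype.card_fun, ZMod.card, nsmul_eq_mul]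
    push_cast; ring
  have h2 : ∑ z : Fin s → ZMod 2, ∑ _k : Fin r → ZMod 2, ((2 : ℝ) ^ r)⁻¹ * ∑ k'', d k'' z =
      ∑ z, ∑ k, d k z := by
    refine sum_congr rfl fun z _ => ?_
    simp [← mul_assoc]
  rw [h1, h2]
  linarith

lemma codeMarginal_posSemidef (L : Matrix (Fin r ⊕ Fin s) ι (ZMod 2))
    (Φ : (ι → ZMod 2) → (ι → ZMod 2) → Matrix J E ℂ) (z : Fin s → ZMod 2) :
    (codeMarginal L Φ z).PosSemidef :=
  posSemidef_sum _ fun _ _ => posSemidef_sum _ fun _ _ => posSemidef_sum _ fun _ _ =>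
    gam_posSemidef _

lemma codeMarginal_trace_sum (L : Matrix (Fin r ⊕ Fin s) ι (ZMod 2))
    (Φ : (ι → ZMod 2) → (ι → ZMod 2) → Matrix J E ℂ) :
    ∑ z, (codeMarginal L Φ z).trace = ∑ x, ∑ e, (nsq (Φ x e) : ℂ) := by
  simp only [codeMarginal, Matrix.trace_sum, gam_trace]
  rw [sum_elim_fibre fun c => ∑ x ∈ univ.filter (fun x => L *ᵥ x = c), ∑ e, (nsq (Φ x e) : ℂ),
    sum_fiberwise univ (fun x => L *ᵥ x) fun x => ∑ e, (nsq (Φ x e) : ℂ)]

end Vale.P372
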