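import Vale.Agent.P372.Setup
import Vale.Agent.P372.Core

/-!
Repetition blocks: classification of outcomes and the product vectors of the accepted blocks.
-/

namespace Vale.P372

open Matrix Finset
open scoped BigOperators

/-- The copies of one block. -/
abbrev Q (m : ℕ) : Type := Fin m × ZMod 2

/-- Classification of the outcomes in a block: the balanced pattern, its complement, or discard. -/
def cls {m : ℕ} (s : Q m → Out) : Option (ZMod 2) :=
  if ∀ q : Q m, s q = some q.2 then some 0
  else if ∀ q : Q m, s q = some (q.2 + 1) then some 1 else none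

lemma zmod2_cases (a : ZMod 2) : a = 0 ∨ a = 1 := by revert a; decide

lemma zmod2_add_self (a : ZMod 2) : a + a = 0 := by revert a; decide

lemma zmod2_add_cancel (a b : ZMod 2) : a + b + b = a := by
  rw [add_assoc, zmod2_add_self, add_zero]

lemma cls_eq_some {m : ℕ} (hm : 0 < m) (s : Q m → Out) (x : ZMod 2) :
    cls s = some x ↔ ∀ q : Q m, s q = some (q.2 + x) := by
  have hex : ¬ ((∀ q : Q m, s q = some q.2) ∧ ∀ q : Q m, s q = some (q.2 + 1)) := by
    rintro ⟨h0, h1⟩
    have h := (h0 (⟨0, hm⟩, 0)).symm.trans (h1 (⟨0, hm⟩, 0))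
    simp at h
  unfold cls
  by_cases h0 : ∀ q : Q m, s q = some q.2
  · rw [if_pos h0]
    rcases zmod2_cases x with rfl | rfl
    · simpa using h0
    · simp only [Option.some.injEq, zero_ne_one, false_iff]
      exact fun h1 => hex ⟨h0, h1⟩
  · rw [if_neg h0]
    rcases zmod2_cases x with rfl | rfl
    · simp only [add_zero]
      refine iff_of_false ?_ h0
      split_ifs <;> simp
    · by_cases h1 : ∀ q : Q m, s q = some (q.2 + 1)
      · rw [if_pos h1]; exact iff_of_true rfl h1
      · rw [if_neg h1]; exact iff_of_false (by simp) h1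

/-- Adding a bit to an outcome. -/
def addO (c : ZMod 2) (o : Out) : Out := o.map (· + c)

lemma addO_addO (c : ZMod 2) (o : Out) : addO c (addO c o) = o := by
  cases o <;> simp [addO, zmod2_add_cancel]

lemma addO_zero (o : Out) : addO 0 o = o := by cases o <;> simp [addO]

lemma cls_addO {m : ℕ} (hm : 0 < m) (s : Q m → Out) (c : ZMod 2) :
    cls (fun q => addO c (s q)) = addO c (cls s) := by
  rcases hs : cls s with _ | x
  · rcases hs' : cls (fun q => addO c (s q)) with _ | y
    · rfl
    · exfalso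
      rw [cls_eq_some hm] at hs'
      have : cls s = some (y + c) := by
        rw [cls_eq_some hm]
        intro q
        have := congrArg (addO c) (hs' q)
        rw [addO_addO] at this
        rw [this]; simp [addO, add_assoc]
      simp [hs] at this
  · rw [cls_eq_some hm] at hs
    rw [show addO c (some x) = some (x + c) from rfl, cls_eq_some hm]
    intro q
    rw [hs q]; simp [addO, add_assoc]

section Regroup

variable {n m N rem : ℕ} (e : Fin n ≃ (Fin N × Q m) ⊕ Fin rem)

/-- The outcomes of one block. -/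
def blk {X : Type} (s : Fin n → X) (j : Fin N) : Q m → X := fun q => s (e.symm (Sum.inl (j, q)))

lemma prod_regroup {R : Type} [CommMonoid R] (h : Fin n → R) :
    ∏ i, h i = (∏ j : Fin N, ∏ q : Q m, h (e.symm (Sum.inl (j, q)))) *
      ∏ r, h (e.symm (Sum.inr r)) := by
  rw [← Equiv.prod_comp e.symm, Fintype.prod_sum_type, Fintype.prod_prod_type]

lemma sum_regroup {X : Type} [Fintype X] [DecidableEq X] {R : Type} [CommSemiring R]
    (F : Fin N → (Q m → X) → R) (g : Fin rem → X → R) :
    ∑ t : Fin n → X, (∏ j, F j (blk e t j)) * ∏ r, g r (t (e.symm (Sum.inr r))) =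
      (∏ j, ∑ u, F j u) * ∏ r, ∑ x, g r x := by
  let E : (Fin n → X) ≃ (Fin N → Q m → X) × (Fin rem → X) :=
    ((e.arrowCongr (Equiv.refl X)).trans (Equiv.sumArrowEquivProdArrow _ _ _)).trans
      ((Equiv.curry _ _ _).prodCongr (Equiv.refl _))
  calc ∑ t : Fin n → X, (∏ j, F j (blk e t j)) * ∏ r, g r (t (e.symm (Sum.inr r)))
      = ∑ t : Fin n → X, (fun p : (Fin N → Q m → X) × (Fin rem → X) =>
          (∏ j, F j (p.1 j)) * ∏ r, g r (p.2 r)) (E t) := rfl
    _ = ∑ p : (Fin N → Q m → X) × (Fin rem → X), (∏ j, F j (p.1 j)) * ∏ r, g r (p.2 r) :=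
        Equiv.sum_comp E fun p : (Fin N → Q m → X) × (Fin rem → X) =>
          (∏ j, F j (p.1 j)) * ∏ r, g r (p.2 r)
    _ = _ := by
        rw [Fintype.sum_prod_type, Fintype.prod_sum, Fintype.prod_sum, sum_mul]
        simp only [mul_sum]

/-- Weight of a string of pairs of outcomes. -/
def W (p : Out → Out → ℝ) {ι : Type} [Fintype ι] (t : ι → Out × Out) : ℝ :=
  ∏ i, p (t i).1 (t i).2

/-- Consistency of a block with the two announced acceptance flags. -/
def BlockCond (a b : Bool) (u : Q m → Out × Out) : Prop :=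
  (cls fun q => (u q).1).isSome = a ∧ (a && (cls fun q => (u q).2).isSome) = b

instance (a b : Bool) (u : Q m → Out × Out) : Decidable (BlockCond a b u) :=
  inferInstanceAs (Decidable (_ ∧ _))

/-- Consistency of a string with the announced flags. -/
def Cond (m1 m2 : Fin N → Bool) (t : Fin n → Out × Out) : Prop :=
  ∀ j, BlockCond (m1 j) (m2 j) (blk e t j)

instance (m1 m2 : Fin N → Bool) (t : Fin n → Out × Out) : Decidable (Cond e m1 m2 t) :=
  inferInstanceAs (Decidable (∀ _, _))

/-- The accepted blocks. -/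
abbrev Sub (m2 : Fin N → Bool) : Type := {j : Fin N // m2 j = true}

/-- Alice's bits on the accepted blocks. -/
def bits (s : Fin n → Out) (m2 : Fin N → Bool) : Sub m2 → ZMod 2 :=
  fun j => (cls (blk e s j.1)).getD 0

/-- The bits and the error pattern of a string of pairs. -/
def cell (m2 : Fin N → Bool) (t : Fin n → Out × Out) : (Sub m2 → ZMod 2) × (Sub m2 → ZMod 2) :=
  (bits e (fun i => (t i).1) m2,
    bits e (fun i => (t i).1) m2 + bits e (fun i => (t i).2) m2)

/-- The strings with given bits and error pattern. -/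
def cellSet (m1 m2 : Fin N → Bool) (x a : Sub m2 → ZMod 2) : Finset (Fin n → Out × Out) :=
  univ.filter fun t => Cond e m1 m2 t ∧ cell e m2 t = (x, a)

/-- The bit added at each copy. -/
def shift (m2 : Fin N → Bool) (x : Sub m2 → ZMod 2) (i : Fin n) : ZMod 2 :=
  Sum.elim (fun p => if h : m2 p.1 = true then x ⟨p.1, h⟩ else 0) (fun _ => 0) (e i)

/-- Flipping the accepted blocks. -/
def flipT (m2 : Fin N → Bool) (x : Sub m2 → ZMod 2) (t : Fin n → Out × Out) :
    Fin n → Out × Out :=
  fun i => (addO (shift e m2 x i) (t i).1, addO (shift e m2 x i) (t i).2)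

lemma flipT_flipT (m2 : Fin N → Bool) (x : Sub m2 → ZMod 2) (t : Fin n → Out × Out) :
    flipT e m2 x (flipT e m2 x t) = t := by
  funext i; simp [flipT, addO_addO]

lemma mem_cellSet_flip (hm : 0 < m) (m1 m2 : Fin N → Bool) (x y a : Sub m2 → ZMod 2)
    (t : Fin n → Out × Out) (ht : t ∈ cellSet e m1 m2 y a) :
    flipT e m2 x t ∈ cellSet e m1 m2 (y + x) a := by
  simp only [cellSet, mem_filter, mem_univ, true_and, cell, Prod.mk.injEq] at ht ⊢
  obtain ⟨hc, hy, ha⟩ := ht
  set c : Fin N → ZMod 2 := fun j => if h : m2 j = true then x ⟨j, h⟩ else 0 with hcdef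
  have hblk1 : ∀ j, blk e (fun i => (flipT e m2 x t i).1) j =
      fun q => addO (c j) (blk e (fun i => (t i).1) j q) := by
    intro j; funext q; simp [blk, flipT, shift, hcdef]
  have hblk2 : ∀ j, blk e (fun i => (flipT e m2 x t i).2) j =
      fun q => addO (c j) (blk e (fun i => (t i).2) j q) := by
    intro j; funext q; simp [blk, flipT, shift, hcdef]
  have hsome : ∀ j, m2 j = true → (cls (blk e (fun i => (t i).1) j)).isSome = true ∧
      (cls (blk e (fun i => (t i).2) j)).isSome = true := by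
    intro j hj
    obtain ⟨h1, h2⟩ := hc j
    rw [hj] at h2
    rw [Bool.and_eq_true] at h2
    exact ⟨h1.trans h2.1, h2.2⟩
  refine ⟨fun j => ?_, ?_, ?_⟩
  · obtain ⟨h1, h2⟩ := hc j
    refine ⟨?_, ?_⟩
    · rw [show (fun q => (blk e (flipT e m2 x t) j q).1) = _ from hblk1 j, cls_addO hm]
      simp only [addO, Option.isSome_map]
      exact h1
    · rw [show (fun q => (blk e (flipT e m2 x t) j q).2) = _ from hblk2 j, cls_addO hm]
      simp only [addO, Option.isSome_map]
      exact h2
  all_goals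
    funext j
    obtain ⟨ga, gb⟩ := hsome j.1 j.2
    obtain ⟨va, hva⟩ := Option.isSome_iff_exists.1 ga
    obtain ⟨vb, hvb⟩ := Option.isSome_iff_exists.1 gb
    have hc' : c j.1 = x j := by simp [hcdef, j.2]
  · have := congrFun hy j
    simp only [bits, hva, Option.getD_some] at this
    simp only [bits, hblk1, cls_addO hm, hva, hc']
    simp [addO, this]
  · have := congrFun ha j
    simp only [bits, Pi.add_apply, hva, hvb, Option.getD_some] at this
    simp only [bits, Pi.add_apply, hblk1, hblk2, cls_addO hm, hva, hvb, hc']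
    simp only [addO, Option.map_some, Option.getD_some]
    rw [← this, add_add_add_comm, zmod2_add_self, add_zero]

variable {J E : Type} [Fintype J] [Fintype E] [DecidableEq E]

/-- The vector of given bits and error pattern; strings with different bits share their rows. -/
noncomputable def blockVec (ψ : Out → Out → Matrix J E ℂ) (m1 m2 : Fin N → Bool)
    (x a : Sub m2 → ZMod 2) :
    Matrix ((Fin n → Out × Out) × (Fin n → J)) (Fin n → E) ℂ :=
  fun tj z => if tj.1 ∈ cellSet e m1 m2 0 a
    then tens (fun i => ψ (flipT e m2 x tj.1 i).1 (flipT e m2 x tj.1 i).2) tj.2 z else 0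

lemma gam_blockVec (hm : 0 < m) (ψ : Out → Out → Matrix J E ℂ) (m1 m2 : Fin N → Bool)
    (x a : Sub m2 → ZMod 2) :
    gam (blockVec e ψ m1 m2 x a) =
      ∑ t ∈ cellSet e m1 m2 x a, gam (tens fun i => ψ (t i).1 (t i).2) := by
  have h1 : gam (blockVec e ψ m1 m2 x a) = ∑ t ∈ cellSet e m1 m2 0 a,
      gam (tens fun i => ψ (flipT e m2 x t i).1 (flipT e m2 x t i).2) := by
    ext z w
    rw [gam_apply, Fintype.sum_prod_type, Matrix.sum_apply, ← sum_subset (subset_univ
      (cellSet e m1 m2 0 a))]
    · refine sum_congr rfl fun t ht => ?_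
      simp [gam_apply, blockVec, ht]
    · intro t _ ht; simp [blockVec, ht]
  rw [h1]
  refine sum_nbij' (flipT e m2 x) (flipT e m2 x) ?_ ?_ (fun t _ => flipT_flipT e m2 x t)
    (fun t _ => flipT_flipT e m2 x t) (fun t _ => rfl)
  · intro t ht
    simpa using mem_cellSet_flip e hm m1 m2 x 0 a t ht
  · intro t ht
    have := mem_cellSet_flip e hm m1 m2 x x a t ht
    rwa [show x + x = 0 from funext fun j => zmod2_add_self (x j)] at this

lemma ip_blockVec_sum (ψ : Out → Out → Matrix J E ℂ) (m1 m2 : Fin N → Bool)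
    (x y a : Sub m2 → ZMod 2) :
    ip (blockVec e ψ m1 m2 x a) (blockVec e ψ m1 m2 y a) = ∑ t ∈ cellSet e m1 m2 0 a,
      ∏ i, ip (ψ (flipT e m2 x t i).1 (flipT e m2 x t i).2)
        (ψ (flipT e m2 y t i).1 (flipT e m2 y t i).2) := by
  rw [ip, Fintype.sum_prod_type, ← sum_subset (subset_univ (cellSet e m1 m2 0 a))]
  · refine sum_congr rfl fun t ht => ?_
    rw [← ip_tens]
    simp [ip, blockVec, ht]
  · intro t _ ht; simp [blockVec, ht]

/-- The overlaps of one accepted block. -/
noncomputable def blockVal (ψ : Out → Out → Matrix J E ℂ) (x y a : ZMod 2) : ℂ :=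
  ∏ q : Q m, ip (ψ (some (q.2 + x)) (some (q.2 + x + a))) (ψ (some (q.2 + y)) (some (q.2 + y + a)))

/-- The weight of a rejected block. -/
noncomputable def outW (p : Out → Out → ℝ) (a b : Bool) : ℝ :=
  ∑ u ∈ univ.filter (fun u : Q m → Out × Out => BlockCond a b u), W p u

theorem ip_blockVec (hm : 0 < m) (ψ : Out → Out → Matrix J E ℂ) (p : Out → Out → ℝ)
    (hp : ∀ a b, nsq (ψ a b) = p a b) (hp1 : ∑ a, ∑ b, p a b = 1)
    (m1 m2 : Fin N → Bool) (hsub : ∀ j, m2 j = true → m1 j = true) (x y a : Sub m2 → ZMod 2) :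
    ip (blockVec e ψ m1 m2 x a) (blockVec e ψ m1 m2 y a) =
      ((∏ j : {j : Fin N // ¬ m2 j = true}, outW (m := m) p (m1 j) (m2 j) : ℝ) : ℂ) *
        ∏ j : Sub m2, blockVal (m := m) ψ (x j) (y j) (a j) := by
  rw [ip_blockVec_sum]
  let sh : (Sub m2 → ZMod 2) → Fin N → ZMod 2 := fun z j => if h : m2 j = true then z ⟨j, h⟩ else 0
  let BC : Fin N → (Q m → Out × Out) → Prop := fun j u => BlockCond (m1 j) (m2 j) u ∧
    ∀ h : m2 j = true, (cls fun q => (u q).1).getD 0 = 0 ∧
      (cls fun q => (u q).1).getD 0 + (cls fun q => (u q).2).getD 0 = a ⟨j, h⟩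
  let F : Fin N → (Q m → Out × Out) → ℂ := fun j u => if BC j u then
    ∏ q, ip (ψ (addO (sh x j) (u q).1) (addO (sh x j) (u q).2))
      (ψ (addO (sh y j) (u q).1) (addO (sh y j) (u q).2)) else 0
  let g : Fin rem → Out × Out → ℂ := fun _ o => ip (ψ o.1 o.2) (ψ o.1 o.2)
  have hmem : ∀ t, t ∈ cellSet e m1 m2 0 a ↔ ∀ j, BC j (blk e t j) := by
    intro t
    simp only [cellSet, mem_filter, mem_univ, true_and, cell, Prod.mk.injEq, BC]
    refine ⟨fun ⟨hc, h0, ha⟩ j => ⟨hc j, fun h => ⟨congrFun h0 ⟨j, h⟩, congrFun ha ⟨j, h⟩⟩⟩,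
      fun h => ⟨fun j => (h j).1, funext fun j => ((h j.1).2 j.2).1,
        funext fun j => ((h j.1).2 j.2).2⟩⟩
  have hterm : ∀ t : Fin n → Out × Out,
      (if t ∈ cellSet e m1 m2 0 a then ∏ i, ip (ψ (flipT e m2 x t i).1 (flipT e m2 x t i).2)
        (ψ (flipT e m2 y t i).1 (flipT e m2 y t i).2) else 0) =
      (∏ j, F j (blk e t j)) * ∏ r, g r (t (e.symm (Sum.inr r))) := by
    intro t
    by_cases h : t ∈ cellSet e m1 m2 0 a
    · rw [if_pos h, prod_regroup e]
      congr 1
      · refine prod_congr rfl fun j _ => ?_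
        rw [show F j (blk e t j) = _ from if_pos ((hmem t).1 h j)]
        refine prod_congr rfl fun q _ => ?_
        simp [flipT, shift, blk, sh]
      · refine prod_congr rfl fun r _ => ?_
        simp [flipT, shift, g, addO_zero]
    · rw [if_neg h]
      rw [hmem] at h
      push Not at h
      obtain ⟨j, hj⟩ := h
      rw [prod_eq_zero (mem_univ j) (if_neg hj), zero_mul]
  rw [← Fintype.sum_ite_mem, sum_congr rfl fun t _ => hterm t, sum_regroup e F g]
  have hg : ∀ r, ∑ o, g r o = 1 := by
    intro r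
    simp only [g, ip_self, hp, Fintype.sum_prod_type]
    exact_mod_cast congrArg (Complex.ofReal) hp1
  simp only [hg, prod_const_one, mul_one]
  rw [← Fintype.prod_subtype_mul_prod_subtype (fun j => m2 j = true), mul_comm, Complex.ofReal_prod]
  congr 1
  · refine prod_congr rfl fun j _ => ?_
    simp only [outW, W, F, sh, dif_neg j.2, addO_zero, ip_self, hp, Complex.ofReal_sum,
      Complex.ofReal_prod, sum_filter]
    refine sum_congr rfl fun u _ => ?_
    by_cases hu : BlockCond (m1 j) (m2 j) u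
    · rw [if_pos hu, if_pos ⟨hu, fun h => absurd h j.2⟩]
      exact (Complex.ofReal_prod _ _).symm
    · rw [if_neg hu, if_neg fun h => hu h.1]
      exact Complex.ofReal_zero.symm
  · refine prod_congr rfl fun j _ => ?_
    let u0 : Q m → Out × Out := fun q => (some q.2, some (q.2 + a j))
    have c1 : cls (fun q => (u0 q).1) = some 0 := by
      rw [cls_eq_some hm]; intro q; simp [u0]
    have c2 : cls (fun q => (u0 q).2) = some (a j) := by
      rw [cls_eq_some hm]; intro q; simp [u0]
    have hu0 : BC j.1 u0 := by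
      refine ⟨⟨?_, ?_⟩, fun h => ⟨?_, ?_⟩⟩ <;> simp [c1, c2, j.2, hsub j.1 j.2]
    have huniq : ∀ u, BC j.1 u → u = u0 := by
      intro u ⟨⟨h1, h2⟩, h3⟩
      obtain ⟨h4, h5⟩ := h3 j.2
      rw [hsub j.1 j.2] at h1
      rw [hsub j.1 j.2, j.2, Bool.true_and] at h2
      obtain ⟨va, hva⟩ := Option.isSome_iff_exists.1 h1
      obtain ⟨vb, hvb⟩ := Option.isSome_iff_exists.1 h2
      rw [hva, Option.getD_some] at h4
      rw [hva, hvb, Option.getD_some, Option.getD_some, h4, zero_add] at h5
      subst h4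
      subst h5
      funext q
      exact Prod.ext (by simpa [u0] using (cls_eq_some hm _ _).1 hva q)
        (by simpa [u0] using (cls_eq_some hm _ _).1 hvb q)
    rw [sum_eq_single u0 (fun u _ hu => if_neg fun h => hu (huniq u h)) (by simp),
      if_pos hu0]
    simp only [blockVal, u0, sh, dif_pos j.2]
    refine prod_congr rfl fun q _ => ?_
    simp [addO, add_assoc, add_comm (a j)]

lemma blockVal_eq (ψ : Out → Out → Matrix J E ℂ) (p : Out → Out → ℝ) (t : ℝ)
    (hp : ∀ a b, nsq (ψ a b) = p a b)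
    (h0 : ip (ψ (some 0) (some 0)) (ψ (some 1) (some 1)) = (t : ℂ))
    (h1 : ip (ψ (some 1) (some 1)) (ψ (some 0) (some 0)) = (t : ℂ))
    (h2 : ip (ψ (some 0) (some 1)) (ψ (some 1) (some 0)) = 0)
    (h3 : ip (ψ (some 1) (some 0)) (ψ (some 0) (some 1)) = 0) (hm : 0 < m) (x y a : ZMod 2) :
    blockVal (m := m) ψ x y a =
      (((if a = 0 then (if x = y then (p (some 0) (some 0) * p (some 1) (some 1)) ^ m
          else (t ^ 2) ^ m)
        else (if x = y then (p (some 0) (some 1) * p (some 1) (some 0)) ^ m else 0)) : ℝ) : ℂ) := by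
  rw [blockVal, Fintype.prod_prod_type]
  simp only [show (univ : Finset (ZMod 2)) = {0, 1} from rfl,
    prod_insert (show (0 : ZMod 2) ∉ ({1} : Finset (ZMod 2)) by decide), prod_singleton, prod_const,
    card_univ, Fintype.card_fin, zero_add]
  rcases zmod2_cases x with rfl | rfl <;> rcases zmod2_cases y with rfl | rfl <;>
    rcases zmod2_cases a with rfl | rfl <;>
    simp [ip_self, hp, h0, h1, h2, h3, show (1 : ZMod 2) + 1 = 0 by decide, hm.ne', sq, mul_comm]

end Regroup

end Vale.P372
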