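import Vale.Agent.P372.Blocks

/-!
The error of one branch of announcements.
-/

namespace Vale.P372

open Matrix Finset
open scoped BigOperators ComplexOrder

/-- Bit strings as keys. -/
def toKey (r : ℕ) : (Fin r → ZMod 2) ≃ Key r where
  toFun v i := decide (v i = 1)
  invFun k i := if k i then 1 else 0
  left_inv v := by
    funext i
    rcases zmod2_cases (v i) with h | h <;> simp [h]
  right_inv k := by funext i; cases hk : k i <;> simp [hk]

variable {n m N rem : ℕ} (e : Fin n ≃ (Fin N × Q m) ⊕ Fin rem) {r : ℕ}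
  (sl : (Fin N → Bool) → ℕ) (L : ∀ m2, Matrix (Fin r ⊕ Fin (sl m2)) (Sub m2) (ZMod 2))
  (T : ∀ m2 : Fin N → Bool, Finset (Sub m2 → ZMod 2))

/-- The third message: a syndrome. -/
abbrev Msg3 (sl : (Fin N → Bool) → ℕ) : Type := Σ m2 : Fin N → Bool, (Fin (sl m2) → ZMod 2)

def f1 (s : Fin n → Out) : Fin N → Bool := fun j => (cls (blk e s j)).isSome

def f2 (m1 : Fin N → Bool) (s : Fin n → Out) : Fin N → Bool :=
  fun j => m1 j && (cls (blk e s j)).isSome

def f3 (_m1 m2 : Fin N → Bool) (s : Fin n → Out) : Msg3 sl :=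
  ⟨m2, (L m2 *ᵥ bits e s m2) ∘ Sum.inr⟩

def zOf (m2 : Fin N → Bool) (m3 : Msg3 sl) : Fin (sl m2) → ZMod 2 :=
  if h : m3.1 = m2 then h ▸ m3.2 else 0

def gA (_m1 m2 : Fin N → Bool) (_m3 : Msg3 sl) (s : Fin n → Out) : Key r :=
  toKey r ((L m2 *ᵥ bits e s m2) ∘ Sum.inl)

noncomputable def gB (_m1 m2 : Fin N → Bool) (m3 : Msg3 sl) (s : Fin n → Out) : Key r :=
  toKey r ((L m2 *ᵥ decode (L m2) (T m2) (zOf sl m2 m3) (bits e s m2)) ∘ Sum.inl)

lemma cond_iff (m1 m2 : Fin N → Bool) (t : Fin n → Out × Out) :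
    Cond e m1 m2 t ↔ f1 e (fun i => (t i).1) = m1 ∧ f2 e m1 (fun i => (t i).2) = m2 := by
  simp only [Cond, BlockCond, funext_iff, f1, f2]
  exact forall_and

variable {J E : Type} [Fintype J] [Fintype E] [DecidableEq E]

/-- The state of one leaf for product vectors. -/
noncomputable def leafState (ψ : Out → Out → Matrix J E ℂ) (m1 m2 : Fin N → Bool) (m3 : Msg3 sl)
    (kA kB : Key r) : Matrix (Fin n → E) (Fin n → E) ℂ :=
  classicalState (f1 e) (f2 e) (f3 e sl L) (gA e sl L) (gB e sl L T)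
    (fun a b => gam (tens fun i => ψ (a i) (b i))) m1 m2 m3 kA kB

lemma leafState_eq (ψ : Out → Out → Matrix J E ℂ) (m1 m2 : Fin N → Bool) (m3 : Msg3 sl)
    (kA kB : Key r) :
    leafState e sl L T ψ m1 m2 m3 kA kB =
      ∑ t ∈ univ.filter (fun t => Cond e m1 m2 t),
        if f3 e sl L m1 m2 (fun i => (t i).1) = m3 ∧ gA e sl L m1 m2 m3 (fun i => (t i).1) = kA ∧
            gB e sl L T m1 m2 m3 (fun i => (t i).2) = kB
        then gam (tens fun i => ψ (t i).1 (t i).2) else 0 := by
  rw [leafState, classicalState, ← Fintype.sum_prod_type',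
    ← Equiv.sum_comp (Equiv.arrowProdEquivProdArrow (Fin n) (fun _ => Out) (fun _ => Out)),
    sum_filter]
  refine sum_congr rfl fun t _ => ?_
  simp only [cond_iff, Equiv.arrowProdEquivProdArrow_apply, and_assoc, ite_and]

/-- The mass of a pair of announcements. -/
noncomputable def mass (p : Out → Out → ℝ) (m1 m2 : Fin N → Bool) : ℝ :=
  ∑ t ∈ univ.filter (fun t => Cond e m1 m2 t), W p t

/-- The distance to an ideal key on one branch. -/
noncomputable def branchErr (ψ : Out → Out → Matrix J E ℂ) (m1 m2 : Fin N → Bool) : ℝ :=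
  ∑ m3 : Msg3 sl, ∑ kA : Key r, ∑ kB : Key r,
    traceNorm (leafState e sl L T ψ m1 m2 m3 kA kB -
      if kA = kB then ((2 : ℂ) ^ r)⁻¹ • ∑ k, ∑ k', leafState e sl L T ψ m1 m2 m3 k k' else 0)

lemma nsq_tens_W (ψ : Out → Out → Matrix J E ℂ) (p : Out → Out → ℝ)
    (hp : ∀ a b, nsq (ψ a b) = p a b) (t : Fin n → Out × Out) :
    nsq (tens fun i => ψ (t i).1 (t i).2) = W p t := by simp [nsq_tens, hp, W]

lemma branchErr_le_mass (ψ : Out → Out → Matrix J E ℂ) (p : Out → Out → ℝ)
    (hp : ∀ a b, nsq (ψ a b) = p a b) (m1 m2 : Fin N → Bool) :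
    branchErr e sl L T ψ m1 m2 ≤ 2 * mass e p m1 m2 := by
  have hS : ∀ m3 kA kB, traceNorm (leafState e sl L T ψ m1 m2 m3 kA kB) ≤
      ∑ t ∈ univ.filter (fun t => Cond e m1 m2 t),
        if f3 e sl L m1 m2 (fun i => (t i).1) = m3 ∧ gA e sl L m1 m2 m3 (fun i => (t i).1) = kA ∧
            gB e sl L T m1 m2 m3 (fun i => (t i).2) = kB then W p t else 0 := by
    intro m3 kA kB
    rw [leafState_eq]
    refine (traceNorm_sum_le _ _).trans (sum_le_sum fun t _ => ?_)
    split
    · exact (traceNorm_gam_le _).trans (le_of_eq (nsq_tens_W ψ p hp t))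
    · rw [traceNorm_zero]
  have hm3 : ∀ m3 : Msg3 sl, ∑ kA : Key r, ∑ kB : Key r,
      traceNorm (leafState e sl L T ψ m1 m2 m3 kA kB -
        if kA = kB then ((2 : ℂ) ^ r)⁻¹ • ∑ k, ∑ k', leafState e sl L T ψ m1 m2 m3 k k' else 0) ≤
      2 * ∑ kA : Key r, ∑ kB : Key r, traceNorm (leafState e sl L T ψ m1 m2 m3 kA kB) := by
    intro m3
    set S := leafState e sl L T ψ m1 m2 m3 with hSdef
    calc ∑ kA : Key r, ∑ kB : Key r,
          traceNorm (S kA kB - if kA = kB then ((2 : ℂ) ^ r)⁻¹ • ∑ k, ∑ k', S k k' else 0)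
        ≤ ∑ kA : Key r, ∑ kB : Key r, (traceNorm (S kA kB) +
            if kA = kB then ((2 : ℝ) ^ r)⁻¹ * ∑ k, ∑ k', traceNorm (S k k') else 0) := by
          refine sum_le_sum fun kA _ => sum_le_sum fun kB _ => ?_
          refine (traceNorm_sub_le _ _).trans (add_le_add le_rfl ?_)
          split
          · rw [traceNorm_smul, norm_inv, norm_pow, Complex.norm_ofNat]
            exact mul_le_mul_of_nonneg_left
              ((traceNorm_sum_le _ _).trans (sum_le_sum fun k _ => traceNorm_sum_le _ _))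
              (by positivity)
          · rw [traceNorm_zero]
      _ = 2 * ∑ kA : Key r, ∑ kB : Key r, traceNorm (S kA kB) := by
          simp [sum_add_distrib, two_mul, ← mul_assoc]
  refine (sum_le_sum fun m3 _ => hm3 m3).trans ?_
  rw [← mul_sum]
  refine mul_le_mul_of_nonneg_left ?_ zero_le_two
  refine (sum_le_sum fun m3 _ => sum_le_sum fun kA _ => sum_le_sum fun kB _ => hS m3 kA kB).trans
    (le_of_eq ?_)
  rw [sum_congr rfl fun m3 _ => sum_congr rfl fun kA _ => sum_comm]
  rw [sum_congr rfl fun m3 _ => sum_comm, sum_comm]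
  refine sum_congr rfl fun t _ => ?_
  simp [ite_and]

theorem branchErr_le_code (hm : 0 < m) (ψ : Out → Out → Matrix J E ℂ) (p : Out → Out → ℝ) (tt : ℝ)
    (hp : ∀ a b, nsq (ψ a b) = p a b) (hp1 : ∑ a, ∑ b, p a b = 1)
    (h0 : ip (ψ (some 0) (some 0)) (ψ (some 1) (some 1)) = (tt : ℂ))
    (h1 : ip (ψ (some 1) (some 1)) (ψ (some 0) (some 0)) = (tt : ℂ))
    (h2 : ip (ψ (some 0) (some 1)) (ψ (some 1) (some 0)) = 0)
    (h3 : ip (ψ (some 1) (some 0)) (ψ (some 0) (some 1)) = 0)
    (η ε : ℝ) (S : ℝ)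
    (hS : (p (some 0) (some 0) * p (some 1) (some 1)) ^ m +
      (p (some 0) (some 1) * p (some 1) (some 0)) ^ m = S)
    (hS0 : 0 < S) (hη : η = (tt ^ 2) ^ m / S)
    (hε : ε = (p (some 0) (some 1) * p (some 1) (some 0)) ^ m / S) (hη1 : η ≤ 1) (hη0 : 0 ≤ η)
    (m1 m2 : Fin N → Bool) (hsub : ∀ j, m2 j = true → m1 j = true)
    (Tp : Finset (Sub m2 → ZMod 2)) :
    branchErr e sl L T ψ m1 m2 ≤ mass e p m1 m2 *
      (4 * √(∑ a ∈ (goodPhase (L m2) Tp)ᶜ, prodw (phaseW η) a) +
        2 * ∑ a ∈ (goodBit (L m2) (T m2))ᶜ, prodw (fun u => if u = 0 then 1 - ε else ε) a) := by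
  set Φ := blockVec e ψ m1 m2 with hΦ
  set κ0 : ℝ := ∏ j : {j : Fin N // ¬ m2 j = true}, outW (m := m) p (m1 j) (m2 j) with hκ0
  set κ : ℝ := κ0 * S ^ Fintype.card (Sub m2) with hκ
  set q : ZMod 2 → ℝ := fun u => if u = 0 then 1 - ε else ε with hq
  have hp0 : ∀ a b, 0 ≤ p a b := fun a b => by rw [← hp]; exact nsq_nonneg _
  have hκnn : 0 ≤ κ := by
    refine mul_nonneg (prod_nonneg fun j _ => sum_nonneg fun u _ => ?_) (by positivity)
    exact prod_nonneg fun i _ => hp0 _ _
  have hip : ∀ x y a, ip (Φ x a) (Φ y a) = ((κ0 * ∏ j : Sub m2,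
      (if a j = 0 then (if x j = y j then (p (some 0) (some 0) * p (some 1) (some 1)) ^ m
          else (tt ^ 2) ^ m)
        else (if x j = y j then (p (some 0) (some 1) * p (some 1) (some 0)) ^ m else 0)) : ℝ) : ℂ) := by
    intro x y a
    rw [hΦ, ip_blockVec e hm ψ p hp hp1 m1 m2 hsub x y a, Complex.ofReal_mul]
    congr 1
    rw [Complex.ofReal_prod]
    exact prod_congr rfl fun j _ => blockVal_eq ψ p tt hp h0 h1 h2 h3 hm _ _ _
  have hn : ∀ x a, nsq (Φ x a) = κ * prodw q a := by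
    intro x a
    have h := hip x x a
    rw [ip_self, Complex.ofReal_inj] at h
    rw [h, hκ, prodw, mul_assoc, ← Finset.card_univ, ← prod_const, ← prod_mul_distrib]
    congr 1
    refine prod_congr rfl fun j _ => ?_
    by_cases ha : a j = 0
    · simp only [ha, if_true, hq, hε]
      field_simp
      linarith
    · simp only [ha, if_false, if_true, hq, hε]
      field_simp
  have hG : ∀ x y, ∑ a, ip (Φ x a) (Φ y a) = ((κ * prodw (ovl η) (x + y) : ℝ) : ℂ) := by
    intro x y
    simp only [hip, ← Complex.ofReal_sum, Complex.ofReal_inj]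
    rw [← mul_sum, ← Fintype.prod_sum fun (j : Sub m2) (u : ZMod 2) =>
      (if u = 0 then (if x j = y j then (p (some 0) (some 0) * p (some 1) (some 1)) ^ m
          else (tt ^ 2) ^ m)
        else (if x j = y j then (p (some 0) (some 1) * p (some 1) (some 0)) ^ m else 0)),
      hκ, prodw, mul_assoc, ← Finset.card_univ, ← prod_const, ← prod_mul_distrib]
    congr 1
    refine prod_congr rfl fun j _ => ?_
    simp only [show (univ : Finset (ZMod 2)) = {0, 1} from rfl,
      sum_insert (show (0 : ZMod 2) ∉ ({1} : Finset (ZMod 2)) by decide), sum_singleton, if_true,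
      show (1 : ZMod 2) ≠ 0 by decide, if_false, ovl, Pi.add_apply]
    rcases zmod2_cases (x j) with hx | hx <;> rcases zmod2_cases (y j) with hy | hy <;>
      simp [hx, hy, show (1 : ZMod 2) + 1 = 0 by decide, hS] <;>
      · rw [hη]; field_simp
  have hcode : ∀ z k k', leafState e sl L T ψ m1 m2 ⟨m2, z⟩ (toKey r k) (toKey r k') =
      codeState (L m2) (T m2) Φ z k k' := by
    intro z k k'
    rw [leafState_eq, codeState, ← sum_fiberwise (univ.filter fun t => Cond e m1 m2 t)
      (cell e m2), Fintype.sum_prod_type, sum_filter]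
    refine sum_congr rfl fun x _ => ?_
    have hinner : ∀ a, ∑ t ∈ (univ.filter fun t => Cond e m1 m2 t).filter (fun t => cell e m2 t = (x, a)),
        (if f3 e sl L m1 m2 (fun i => (t i).1) = ⟨m2, z⟩ ∧
            gA e sl L m1 m2 ⟨m2, z⟩ (fun i => (t i).1) = toKey r k ∧
            gB e sl L T m1 m2 ⟨m2, z⟩ (fun i => (t i).2) = toKey r k'
          then gam (tens fun i => ψ (t i).1 (t i).2) else 0) =
        if L m2 *ᵥ x = Sum.elim k z ∧
            (L m2 *ᵥ decode (L m2) (T m2) z (x + a)) ∘ Sum.inl = k'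
          then gam (Φ x a) else 0 := by
      intro a
      rw [hΦ, gam_blockVec e hm, cellSet, filter_filter]
      by_cases hc : L m2 *ᵥ x = Sum.elim k z ∧
          (L m2 *ᵥ decode (L m2) (T m2) z (x + a)) ∘ Sum.inl = k'
      · rw [if_pos hc]
        refine sum_congr rfl fun t ht => if_pos ?_
        obtain ⟨-, hx⟩ := (mem_filter.1 ht).2
        simp only [cell, Prod.mk.injEq] at hx
        have hB : bits e (fun i => (t i).2) m2 = x + a := by
          rw [← hx.2, hx.1, ← add_assoc]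
          funext j; simp [zmod2_add_self]
        simp [f3, gA, gB, zOf, hx.1, hB, hc.1, hc.2]
      · rw [if_neg hc]
        refine sum_eq_zero fun t ht => if_neg fun hh => hc ?_
        obtain ⟨-, hx⟩ := (mem_filter.1 ht).2
        simp only [cell, Prod.mk.injEq] at hx
        have hB : bits e (fun i => (t i).2) m2 = x + a := by
          rw [← hx.2, hx.1, ← add_assoc]
          funext j; simp [zmod2_add_self]
        simp only [f3, gA, gB, zOf, hx.1, hB, dif_pos, EmbeddingLike.apply_eq_iff_eq,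
          Sigma.mk.injEq, heq_eq_eq, true_and] at hh
        refine ⟨funext fun i => ?_, hh.2.2⟩
        cases i with
        | inl i => simpa using congrFun hh.2.1 i
        | inr i => simpa using congrFun hh.1 i
    rw [sum_congr rfl fun a _ => hinner a]
    by_cases hx : L m2 *ᵥ x = Sum.elim k z
    · simp [hx]
    · simp [hx]
  have hmarg : ∀ z, ∑ k, ∑ k', leafState e sl L T ψ m1 m2 ⟨m2, z⟩ k k' =
      codeMarginal (L m2) Φ z := by
    intro z
    rw [← Equiv.sum_comp (toKey r), sum_congr rfl fun k _ => (Equiv.sum_comp (toKey r) _).symm]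
    simp only [hcode, codeState, codeMarginal]
    refine sum_congr rfl fun k _ => ?_
    rw [sum_comm]
    refine sum_congr rfl fun x _ => ?_
    rw [sum_comm]
    exact sum_congr rfl fun a _ => by simp
  have hother : ∀ m3 : Msg3 sl, m3.1 ≠ m2 → ∀ kA kB, leafState e sl L T ψ m1 m2 m3 kA kB = 0 := by
    intro m3 h kA kB
    rw [leafState_eq]
    refine sum_eq_zero fun t _ => if_neg fun hh => h ?_
    rw [← hh.1]; rfl
  have hbr : branchErr e sl L T ψ m1 m2 = ∑ z : Fin (sl m2) → ZMod 2, ∑ k : Fin r → ZMod 2,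
      ∑ k' : Fin r → ZMod 2, traceNorm (codeState (L m2) (T m2) Φ z k k' -
        if k = k' then ((2 : ℂ) ^ r)⁻¹ • codeMarginal (L m2) Φ z else 0) := by
    rw [branchErr, Fintype.sum_sigma, sum_eq_single m2]
    · refine sum_congr rfl fun z _ => ?_
      rw [← Equiv.sum_comp (toKey r)]
      refine sum_congr rfl fun k _ => ?_
      rw [← Equiv.sum_comp (toKey r)]
      refine sum_congr rfl fun k' _ => ?_
      rw [hcode, hmarg]
      simp only [EmbeddingLike.apply_eq_iff_eq]
    · intro m' _ hne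
      refine sum_eq_zero fun z _ => sum_eq_zero fun k _ => sum_eq_zero fun k' _ => ?_
      have := hother ⟨m', z⟩ hne
      simp [this, traceNorm_zero]
    · simp
  have hmass : mass e p m1 m2 = 2 ^ Fintype.card (Sub m2) * κ := by
    have hc : ((mass e p m1 m2 : ℝ) : ℂ) = ∑ x, ∑ a, ((nsq (Φ x a) : ℝ) : ℂ) := by
      simp only [← gam_trace, hΦ, gam_blockVec e hm, Matrix.trace_sum]
      simp only [gam_trace, nsq_tens_W ψ p hp, mass, Complex.ofReal_sum]
      rw [← sum_fiberwise (univ.filter fun t => Cond e m1 m2 t) (cell e m2), Fintype.sum_prod_type]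
      simp only [cellSet, filter_filter]
    rw [← Complex.ofReal_inj, hc]
    simp only [hn]
    push_cast
    simp only [← Complex.ofReal_sum, ← mul_sum, sum_prodw, hq, if_true,
      show (1 : ZMod 2) ≠ 0 by decide, if_false, sub_add_cancel, one_pow]
    simp [mul_comm]
  rw [hbr, hmass]
  exact code_secure (L m2) Tp (T m2) Φ η κ q hη0 hη1 hκnn hn hG

end Vale.P372
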