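import Vale.Agent.P372.Converse

/-!
# P372: key from blocks of copies

A protocol for `M` copies of the `n`-th power becomes one for `N` copies of the state: the parties
work on `N / n` blocks and leave the remaining copies untouched.
-/

namespace Vale.P372

open Matrix Filter Topology
open scoped Kronecker ComplexOrder BigOperators

variable {C D : Type} [Fintype C] [Fintype D] [DecidableEq C] [DecidableEq D] {ℓ : ℕ}

/-- The same protocol in the presence of systems that are never touched. -/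
noncomputable def Proto.pad (C D : Type) [Fintype C] [Fintype D] [DecidableEq C] [DecidableEq D] :
    {A B : Type} → Proto ℓ A B → Proto ℓ (A × C) (B × D)
  | _, _, @Proto.final _ _ _ _ _ _ _ MA MB hA hB =>
      Proto.final (fun k => MA k ⊗ₖ (1 : Matrix C C ℂ)) (fun k => MB k ⊗ₖ (1 : Matrix D D ℂ))
        ⟨fun k => (hA.1 k).kronecker Matrix.PosSemidef.one, by
          ext i j
          simp only [Matrix.sum_apply, Matrix.kroneckerMap_apply, ← Finset.sum_mul]
          rw [← Matrix.sum_apply, hA.2]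
          simp [Matrix.one_apply, Prod.ext_iff, ← ite_and, and_comm]⟩
        ⟨fun k => (hB.1 k).kronecker Matrix.PosSemidef.one, by
          ext i j
          simp only [Matrix.sum_apply, Matrix.kroneckerMap_apply, ← Finset.sum_mul]
          rw [← Matrix.sum_apply, hB.2]
          simp [Matrix.one_apply, Prod.ext_iff, ← ite_and, and_comm]⟩
  | _, _, @Proto.alice _ _ _ _ _ _ _ T _ A' _ K hK next =>
      Proto.alice T (fun t => A' t × C) (fun t => K t ⊗ₖ (1 : Matrix C C ℂ)) (by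
          ext i j
          simp only [Matrix.conjTranspose_kronecker, ← Matrix.mul_kronecker_mul,
            Matrix.conjTranspose_one, Matrix.one_mul, Matrix.sum_apply, Matrix.kroneckerMap_apply,
            ← Finset.sum_mul]
          rw [← Matrix.sum_apply, hK]
          simp [Matrix.one_apply, Prod.ext_iff, ← ite_and, and_comm])
        fun t => (next t).pad C D
  | _, _, @Proto.bob _ _ _ _ _ _ _ T _ B' _ K hK next =>
      Proto.bob T (fun t => B' t × D) (fun t => K t ⊗ₖ (1 : Matrix D D ℂ)) (by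
          ext i j
          simp only [Matrix.conjTranspose_kronecker, ← Matrix.mul_kronecker_mul,
            Matrix.conjTranspose_one, Matrix.one_mul, Matrix.sum_apply, Matrix.kroneckerMap_apply,
            ← Finset.sum_mul]
          rw [← Matrix.sum_apply, hK]
          simp [Matrix.one_apply, Prod.ext_iff, ← ite_and, and_comm])
        fun t => (next t).pad C D

/-- Padding does not change the transcripts. -/
noncomputable def Proto.padLeaf (C D : Type) [Fintype C] [Fintype D] [DecidableEq C]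
    [DecidableEq D] : {A B : Type} → (P : Proto ℓ A B) → (P.pad C D).Leaf ≃ P.Leaf
  | _, _, @Proto.final .. => Equiv.refl Unit
  | _, _, @Proto.alice _ _ _ _ _ _ _ _ _ _ _ _ _ next =>
      Equiv.sigmaCongrRight fun t => Proto.padLeaf C D (next t)
  | _, _, @Proto.bob _ _ _ _ _ _ _ _ _ _ _ _ _ next =>
      Equiv.sigmaCongrRight fun t => Proto.padLeaf C D (next t)

/-- A purification next to an independent one, grouped by party. -/
def pairPsi {A B E₁ E₂ : Type} (Ψ : Matrix (A × B) E₁ ℂ) (v : Matrix (C × D) E₂ ℂ) :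
    Matrix ((A × C) × (B × D)) (E₁ × E₂) ℂ :=
  fun x e => Ψ (x.1.1, x.2.1) e.1 * v (x.1.2, x.2.2) e.2

lemma kron_pairPsi {A B A₂ B₂ E₁ E₂ : Type} [Fintype A] [Fintype B]
    (X : Matrix A₂ A ℂ) (Y : Matrix B₂ B ℂ) (Ψ : Matrix (A × B) E₁ ℂ) (v : Matrix (C × D) E₂ ℂ) :
    ((X ⊗ₖ (1 : Matrix C C ℂ)) ⊗ₖ (Y ⊗ₖ (1 : Matrix D D ℂ))) * pairPsi Ψ v =
      pairPsi ((X ⊗ₖ Y) * Ψ) v := by
  ext ⟨⟨a, c⟩, ⟨b, d⟩⟩ ⟨e, f⟩
  simp [pairPsi, Matrix.mul_apply, Fintype.sum_prod_type, Matrix.kroneckerMap_apply,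
    Matrix.one_apply, Finset.sum_mul, mul_assoc]

omit [DecidableEq C] [DecidableEq D] in
lemma pairPsi_gram {A B E₁ E₂ : Type} [Fintype A] [Fintype B] (Φ Ψ : Matrix (A × B) E₁ ℂ)
    (v : Matrix (C × D) E₂ ℂ) :
    (pairPsi Φ v)ᴴ * pairPsi Ψ v = (Φᴴ * Ψ) ⊗ₖ (vᴴ * v) := by
  ext ⟨e, f⟩ ⟨e', f'⟩
  simp only [Matrix.mul_apply, Matrix.conjTranspose_apply, pairPsi, Matrix.kroneckerMap_apply,
    Fintype.sum_prod_type, Finset.sum_mul, Finset.mul_sum, star_mul']
  rw [Finset.sum_comm]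
  refine Finset.sum_congr rfl fun c _ => ?_
  rw [Finset.sum_congr rfl fun a _ => Finset.sum_comm, Finset.sum_comm]
  refine Finset.sum_congr rfl fun d _ => Finset.sum_congr rfl fun a _ => Finset.sum_congr rfl
    fun b _ => ?_
  ring

lemma pad_eveState {A B : Type} (P : Proto ℓ A B) :
    ∀ [Fintype A] [Fintype B] {E₁ E₂ : Type} [DecidableEq E₁] [DecidableEq E₂]
      (Ψ : Matrix (A × B) E₁ ℂ) (v : Matrix (C × D) E₂ ℂ) (l : (P.pad C D).Leaf) (kA kB : Key ℓ),
      (P.pad C D).eveState (pairPsi Ψ v) l kA kB =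
        P.eveState Ψ (P.padLeaf C D l) kA kB ⊗ₖ (vᴴ * v)ᵀ := by
  induction P with
  | final MA MB hA hB =>
    rename_i A B fA fB dA dB
    intro i1 i2 E₁ E₂ d1 d2 Ψ v l kA kB
    obtain rfl := Subsingleton.elim i1 fA
    obtain rfl := Subsingleton.elim i2 fB
    show ((pairPsi Ψ v)ᴴ * ((MA kA ⊗ₖ 1) ⊗ₖ (MB kB ⊗ₖ 1)) * pairPsi Ψ v)ᵀ =
      (Ψᴴ * (MA kA ⊗ₖ MB kB) * Ψ)ᵀ ⊗ₖ (vᴴ * v)ᵀ
    rw [Matrix.mul_assoc, kron_pairPsi, pairPsi_gram, ← Matrix.mul_assoc]
    rfl
  | alice T A' K hK next ih =>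
    rename_i A B fA fB dA dB fT fA'
    intro i1 i2 E₁ E₂ d1 d2 Ψ v l kA kB
    obtain rfl := Subsingleton.elim i1 fA
    obtain rfl := Subsingleton.elim i2 fB
    obtain ⟨t, l'⟩ := l
    show ((next t).pad C D).eveState (((K t ⊗ₖ 1) ⊗ₖ (1 : Matrix (B × D) (B × D) ℂ)) * pairPsi Ψ v)
        l' kA kB = (next t).eveState ((K t ⊗ₖ 1) * Ψ) ((next t).padLeaf C D l') kA kB ⊗ₖ (vᴴ * v)ᵀ
    rw [← Matrix.one_kronecker_one, kron_pairPsi]
    exact ih t _ v l' kA kB
  | bob T B' K hK next ih =>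
    rename_i A B fA fB dA dB fT fB'
    intro i1 i2 E₁ E₂ d1 d2 Ψ v l kA kB
    obtain rfl := Subsingleton.elim i1 fA
    obtain rfl := Subsingleton.elim i2 fB
    obtain ⟨t, l'⟩ := l
    show ((next t).pad C D).eveState (((1 : Matrix (A × C) (A × C) ℂ) ⊗ₖ (K t ⊗ₖ 1)) * pairPsi Ψ v)
        l' kA kB = (next t).eveState ((1 ⊗ₖ K t) * Ψ) ((next t).padLeaf C D l') kA kB ⊗ₖ (vᴴ * v)ᵀ
    rw [← Matrix.one_kronecker_one, kron_pairPsi]
    exact ih t _ v l' kA kB

section Relabel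

variable {A B A₂ B₂ : Type} [Fintype A] [Fintype B] [Fintype A₂] [Fintype B₂] [DecidableEq A]
  [DecidableEq B] [DecidableEq A₂] [DecidableEq B₂]

/-- The matrix of a relabelling. -/
def permK (e : A₂ ≃ A) : Matrix A A₂ ℂ := (1 : Matrix A A ℂ).submatrix id e

lemma permK_isometry (e : A₂ ≃ A) : ∑ _u : Unit, (permK e)ᴴ * permK e = 1 := by
  rw [Fintype.sum_unique, permK, Matrix.conjTranspose_submatrix, Matrix.conjTranspose_one,
    ← Matrix.submatrix_mul _ _ _ _ _ Function.bijective_id, Matrix.mul_one,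
    Matrix.submatrix_one_equiv]

/-- A protocol after relabelling both systems. -/
noncomputable def Proto.relabel (P : Proto ℓ A B) (eA : A₂ ≃ A) (eB : B₂ ≃ B) : Proto ℓ A₂ B₂ :=
  Proto.alice Unit (fun _ => A) (fun _ => permK eA) (permK_isometry eA) fun _ =>
    Proto.bob Unit (fun _ => B) (fun _ => permK eB) (permK_isometry eB) fun _ => P

lemma relabel_eveState {E : Type} [DecidableEq E] (P : Proto ℓ A B) (eA : A₂ ≃ A) (eB : B₂ ≃ B)
    (Ψ : Matrix (A₂ × B₂) E ℂ) (l : P.Leaf) (kA kB : Key ℓ) :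
    (P.relabel eA eB).eveState Ψ ⟨(), (), l⟩ kA kB =
      P.eveState (Ψ.submatrix (eA.symm.prodCongr eB.symm) id) l kA kB := by
  show P.eveState (((1 : Matrix A A ℂ) ⊗ₖ permK eB) * ((permK eA ⊗ₖ (1 : Matrix B₂ B₂ ℂ)) * Ψ)) l
    kA kB = _
  congr 1
  rw [← Matrix.mul_assoc, ← Matrix.mul_kronecker_mul, Matrix.one_mul, Matrix.mul_one]
  ext ⟨a, b⟩ e
  simp [Matrix.mul_apply, permK, Matrix.one_apply, Fintype.sum_prod_type, ← Equiv.symm_apply_eq]

end Relabel

section Norms

variable {E E₂ : Type} [Fintype E] [DecidableEq E] [Fintype E₂] [DecidableEq E₂]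

lemma traceNorm_submatrix_le (e : E₂ ≃ E) (X : Matrix E E ℂ) :
    traceNorm (X.submatrix e e) ≤ traceNorm X := by
  refine traceNorm_le fun U => ?_
  have hU : (U : Matrix E₂ E₂ ℂ).submatrix e.symm e.symm ∈ Matrix.unitaryGroup E ℂ := by
    rw [Matrix.mem_unitaryGroup_iff, Matrix.star_eq_conjTranspose, Matrix.conjTranspose_submatrix,
      Matrix.submatrix_mul_equiv, ← Matrix.star_eq_conjTranspose,
      Unitary.mul_star_self_of_mem U.2, Matrix.submatrix_one_equiv]
  have he : ((U : Matrix E₂ E₂ ℂ) * X.submatrix e e).trace =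
      ((U : Matrix E₂ E₂ ℂ).submatrix e.symm e.symm * X).trace := by
    conv_rhs => rw [show X = (X.submatrix e e).submatrix e.symm e.symm by ext i j; simp]
    rw [Matrix.submatrix_mul_equiv]
    exact (Equiv.sum_comp e.symm fun i => ((U : Matrix E₂ E₂ ℂ) * X.submatrix e e) i i).symm
  rw [he]
  exact le_traceNorm X ⟨_, hU⟩

lemma traceNorm_of_posSemidef {Z : Matrix E E ℂ} (hZ : Z.PosSemidef) :
    traceNorm Z = Z.trace.re := by
  rw [traceNorm_eq_sum_abs hZ.1, hZ.1.trace_eq_sum_eigenvalues, Complex.re_sum]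
  exact Finset.sum_congr rfl fun i _ => abs_of_nonneg (hZ.eigenvalues_nonneg i)

lemma traceNorm_kronecker_le {X : Matrix E E ℂ} (hX : X.IsHermitian) {τ : Matrix E₂ E₂ ℂ}
    (hτ : τ.PosSemidef) : traceNorm (X ⊗ₖ τ) ≤ traceNorm X * τ.trace.re := by
  obtain ⟨W, hW, hXW⟩ := exists_spectral hX
  have hW1 : Wᴴ * W = 1 := Matrix.mem_unitaryGroup_iff'.1 hW
  set μ := hX.eigenvalues with hμ
  let Pr : E → Matrix E E ℂ := fun i => W * diagonal (Pi.single i 1) * Wᴴ
  have hPr : ∀ i, (Pr i).PosSemidef := fun i =>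
    (Matrix.posSemidef_diagonal_iff.2 fun j => by
      rcases eq_or_ne j i with rfl | h <;> simp [*]).mul_mul_conjTranspose_same W
  have hPt : ∀ i, (Pr i).trace = 1 := fun i => by
    rw [Matrix.trace_mul_comm, ← Matrix.mul_assoc, hW1, Matrix.one_mul, Matrix.trace_diagonal]
    simp
  have hdec : X = ∑ i, (μ i : ℂ) • Pr i := by
    refine hXW.trans ?_
    have : diagonal (fun i => (μ i : ℂ)) = ∑ i, (μ i : ℂ) • diagonal (Pi.single i 1) := by
      ext a b
      rcases eq_or_ne a b with rfl | h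
      · simp [Matrix.sum_apply, Pi.single_apply]
      · simp [Matrix.sum_apply, h]
    rw [this, Matrix.mul_sum, Matrix.sum_mul]
    simp [Pr]
  have hk : X ⊗ₖ τ = ∑ i, (μ i : ℂ) • (Pr i ⊗ₖ τ) := by
    ext a b
    conv_lhs => rw [hdec]
    simp [Matrix.sum_apply, Finset.sum_mul, mul_assoc]
  rw [hk, traceNorm_eq_sum_abs hX, Finset.sum_mul]
  refine (traceNorm_sum_le _ _).trans (Finset.sum_le_sum fun i _ => le_of_eq ?_)
  rw [traceNorm_smul, traceNorm_of_posSemidef ((hPr i).kronecker hτ), Matrix.trace_kronecker, hPt,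
    one_mul, Complex.norm_real, Real.norm_eq_abs]

end Norms

/-- Key from powers gives key from the state. -/
theorem hasPositiveKey_of_power {A B : Type} [Fintype A] [Fintype B]
    {ρ : Matrix (A × B) (A × B) ℂ} (hρ : IsState ρ) {n : ℕ} (hn : 0 < n)
    (h : HasPositiveKey (power ρ n)) : HasPositiveKey ρ := by
  classical
  obtain ⟨δ, hδ, ℓ, P, hℓ, herr⟩ := h
  have hcard : ∀ N, Fintype.card (Fin N) = Fintype.card ((Fin (N / n) × Fin n) ⊕ Fin (N % n)) := by
    intro N
    simp only [Fintype.card_fin, Fintype.card_sum, Fintype.card_prod]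
    rw [mul_comm]
    exact (Nat.div_add_mod N n).symm
  let e : ∀ N, Fin N ≃ (Fin (N / n) × Fin n) ⊕ Fin (N % n) := fun N =>
    Fintype.equivOfCardEq (hcard N)
  let eX : ∀ (X : Type) (N : ℕ),
      (Fin N → X) ≃ (Fin (N / n) → Fin n → X) × (Fin (N % n) → X) := fun X N =>
    ((e N).arrowCongr (Equiv.refl X)).trans
      ((Equiv.sumArrowEquivProdArrow _ _ _).trans ((Equiv.curry _ _ _).prodCongr (Equiv.refl _)))
  let Q : ∀ N, Proto (ℓ (N / n)) (Fin N → A) (Fin N → B) := fun N =>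
    ((P (N / n)).pad (Fin (N % n) → A) (Fin (N % n) → B)).relabel (eX A N) (eX B N)
  refine ⟨δ / (2 * n), by positivity, fun N => ℓ (N / n), Q, ?_, ?_⟩
  · obtain ⟨M₀, hM₀⟩ := eventually_atTop.1 hℓ
    refine eventually_atTop.2 ⟨(M₀ + 2) * n, fun N hN => ?_⟩
    have hM : M₀ + 2 ≤ N / n := (Nat.le_div_iff_mul_le hn).2 hN
    refine le_trans ?_ (hM₀ (N / n) (by omega))
    have hM2 : (N : ℝ) ≤ 2 * n * (N / n : ℕ) := by
      have h1 := Nat.div_add_mod N n
      have h2 := Nat.mod_lt N hn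
      have h3 : n * 1 ≤ n * (N / n) := Nat.mul_le_mul_left n (by omega)
      exact_mod_cast (show N ≤ 2 * n * (N / n) by rw [Nat.mul_assoc]; omega)
    rw [div_mul_eq_mul_div, div_le_iff₀ (by positivity)]
    calc δ * (N : ℝ) ≤ δ * (2 * n * (N / n : ℕ)) := mul_le_mul_of_nonneg_left hM2 hδ.le
      _ = _ := by ring
  intro E _ _ R hR
  obtain ⟨ε, hε, hP⟩ := herr (Fin n → E) (copies R n) (copies_mul_conjTranspose hR n)
  refine ⟨fun N => ε (N / n), hε.comp (Nat.tendsto_div_const_atTop hn.ne'), fun N => ?_⟩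
  obtain ⟨σ, hσ, hσ1, hsum⟩ := hP (N / n)
  set v := copies R (N % n) with hv
  set τ := (vᴴ * v)ᵀ with hτ
  have hτ0 : τ.PosSemidef := (Matrix.posSemidef_conjTranspose_mul_self v).transpose
  have hτ1 : τ.trace = 1 := by
    rw [hτ, Matrix.trace_transpose, Matrix.trace_mul_comm, hv, copies_mul_conjTranspose hR]
    exact (power_isState hρ _).2
  let eE := eX E N
  have hΨ : (copies R N).submatrix ((eX A N).symm.prodCongr (eX B N).symm) id =
      (pairPsi (copies (copies R n) (N / n)) v).submatrix id eE := by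
    ext x ε'
    simp only [copies, pairPsi, Matrix.submatrix_apply, id_eq, hv]
    rw [← Equiv.prod_comp (e N).symm, Fintype.prod_sum_type, Fintype.prod_prod_type]
    simp [eE, eX, Prod.map, Equiv.sumArrowEquivProdArrow]
  have hpad : ∀ (l : ((P (N / n)).pad (Fin (N % n) → A) (Fin (N % n) → B)).Leaf)
      (kA kB : Key (ℓ (N / n))),
      ((P (N / n)).pad _ _).eveState ((pairPsi (copies (copies R n) (N / n)) v).submatrix id eE)
        l kA kB = ((P (N / n)).eveState (copies (copies R n) (N / n))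
          ((P (N / n)).padLeaf _ _ l) kA kB ⊗ₖ τ).submatrix eE eE := by
    intro l kA kB
    obtain ⟨FA, FB, -, -, hF⟩ := leaf_effects _ l
    rw [← pad_eveState, hF, hF, Matrix.conjTranspose_submatrix,
      ← Matrix.transpose_submatrix]
    congr 1
  let π : (Q N).Leaf → (P (N / n)).Leaf := fun l => Proto.padLeaf _ _ (P (N / n))
    (match (show Σ _ : Unit, Σ _ : Unit, ((P (N / n)).pad (Fin (N % n) → A) (Fin (N % n) → B)).Leaf
      from l) with | ⟨_, _, l'⟩ => l')
  have hπ : Function.Bijective π := by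
    constructor
    · rintro ⟨⟨⟩, ⟨⟩, l⟩ ⟨⟨⟩, ⟨⟩, l'⟩ h
      obtain rfl := (Proto.padLeaf _ _ (P (N / n))).injective h
      rfl
    · exact fun l => ⟨⟨(), (), (Proto.padLeaf _ _ (P (N / n))).symm l⟩, Equiv.apply_symm_apply _ l⟩
  refine ⟨fun l => (σ (π l) ⊗ₖ τ).submatrix eE eE,
    fun l => ((hσ _).kronecker hτ0).submatrix _, ?_, ?_⟩
  · rw [← hσ1, ← hπ.sum_comp fun l => (σ l).trace]
    refine Finset.sum_congr rfl fun l _ => ?_
    calc ((σ (π l) ⊗ₖ τ).submatrix eE eE).trace = (σ (π l) ⊗ₖ τ).trace :=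
          Equiv.sum_comp eE fun i => (σ (π l) ⊗ₖ τ) i i
      _ = _ := by rw [Matrix.trace_kronecker, hτ1, mul_one]
  · refine le_trans ?_ hsum
    rw [← hπ.sum_comp fun l => ∑ kA, ∑ kB, traceNorm ((P (N / n)).eveState
      (copies (copies R n) (N / n)) l kA kB -
        if kA = kB then ((2 : ℂ) ^ ℓ (N / n))⁻¹ • σ l else 0)]
    refine Finset.sum_le_sum fun l _ => Finset.sum_le_sum fun kA _ => Finset.sum_le_sum fun kB _ => ?_
    obtain ⟨⟨⟩, ⟨⟩, l'⟩ := l
    rw [relabel_eveState, hΨ, hpad]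
    set X := (P (N / n)).eveState (copies (copies R n) (N / n))
      (Proto.padLeaf _ _ (P (N / n)) l') kA kB
    set c : ℂ := if kA = kB then ((2 : ℂ) ^ ℓ (N / n))⁻¹ else 0 with hc
    have hc' : ∀ {I : Type} (Z : Matrix I I ℂ),
        (if kA = kB then ((2 : ℂ) ^ ℓ (N / n))⁻¹ • Z else 0) = c • Z := fun Z => by
      rw [hc]; split_ifs <;> simp
    simp only [hc', π]
    set S := σ (Proto.padLeaf _ _ (P (N / n)) l')
    have hH : (X - c • S).IsHermitian := by
      refine (eveState_posSemidef _ _ _ _ _).1.sub ?_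
      have : star c = c := by rw [hc]; split_ifs <;> simp
      rw [Matrix.IsHermitian, Matrix.conjTranspose_smul, this, (hσ _).1.eq]
    have heq : (X ⊗ₖ τ).submatrix eE eE - c • (S ⊗ₖ τ).submatrix eE eE =
        ((X - c • S) ⊗ₖ τ).submatrix eE eE := by
      ext a b
      simp [sub_mul, mul_assoc]
    rw [heq]
    refine (traceNorm_submatrix_le _ _).trans ((traceNorm_kronecker_le hH hτ0).trans (le_of_eq ?_))
    rw [hτ1, Complex.one_re, mul_one]

end Vale.P372
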