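import Vale.Agent.P372.Main
import Vale.Agent.P372.Grouping

/-!
# P372: when the key rate is positive
-/

namespace Vale.P372

open Matrix Filter Topology
open scoped Kronecker ComplexOrder BigOperators

variable {A B : Type} [Fintype A] [Fintype B] {ρ : Matrix (A × B) (A × B) ℂ}

lemma not_keyCriterion_power_zero (hρ : IsState ρ) : ¬ KeyCriterion (power ρ 0) := by
  classical
  refine not_keyCriterion_of_separable ⟨1, fun _ => 1, fun _ => 1, fun _ => 1, fun _ => zero_le_one,
    by simp, fun _ => ⟨Matrix.PosSemidef.one, ?_⟩, fun _ => ⟨Matrix.PosSemidef.one, ?_⟩, ?_⟩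
  · simp [Matrix.trace]
  · simp [Matrix.trace]
  · ext x y
    simp [power, Matrix.one_apply, Subsingleton.elim x y]

/-- The key rate is positive iff some number of copies meets the criterion. -/
theorem hasPositiveKey_iff (hρ : IsState ρ) :
    HasPositiveKey ρ ↔ ∃ n, KeyCriterion (power ρ n) := by
  classical
  refine ⟨exists_copies_keyCriterion hρ, fun ⟨n, hn⟩ => ?_⟩
  rcases Nat.eq_zero_or_pos n with rfl | h
  · exact absurd hn (not_keyCriterion_power_zero hρ)
  · exact hasPositiveKey_of_power hρ h (hasPositiveKey_of_keyCriterion (power_isState hρ n) hn)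

/-- The key rate is positive iff some protocol leaves one bit with error at most one tenth. -/
theorem hasPositiveKey_iff_oneBit {E : Type} [Fintype E] [DecidableEq E]
    {R : Matrix (A × B) E ℂ} (hρ : IsState ρ) (hR : R * Rᴴ = ρ) :
    HasPositiveKey ρ ↔ ∃ (n ℓ : ℕ) (P : Proto ℓ (Fin n → A) (Fin n → B)),
      0 < ℓ ∧ P.HasError (copies R n) (1 / 10) := by
  refine ⟨fun ⟨δ, hδ, ℓ, P, hℓ, herr⟩ => ?_, fun ⟨n, ℓ, P, hl, he⟩ => (hasPositiveKey_iff hρ).2
    ⟨n, keyCriterion_of_oneBit hl P _ (copies_mul_conjTranspose hR n) le_rfl he⟩⟩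
  obtain ⟨ε, hε, hP⟩ := herr _ R hR
  obtain ⟨n, ⟨h1, h2⟩, h3⟩ := ((hℓ.and (hε.eventually (eventually_le_nhds
    (show (0 : ℝ) < 1 / 10 by norm_num)))).and (Filter.eventually_ge_atTop 1)).exists
  have hpos : (0 : ℝ) < δ * n := mul_pos hδ (by exact_mod_cast h3)
  obtain ⟨σ, hσ, hσ1, hsum⟩ := hP n
  exact ⟨n, ℓ n, P n, by exact_mod_cast hpos.trans_le h1, σ, hσ, hσ1, hsum.trans h2⟩

end Vale.P372
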