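import Vale.Agent.P372.Vec

/-!
Measurements followed by three public messages, and copies of local instruments.
-/

namespace Vale.P372

open Matrix Finset
open scoped Kronecker BigOperators ComplexOrder

section Classical

variable {A B : Type} [Fintype A] [Fintype B] [DecidableEq A] [DecidableEq B]
variable {SA SB JA JB M1 M2 M3 : Type} [Fintype SA] [Fintype SB] [Fintype JA] [Fintype JB]
  [DecidableEq SA] [DecidableEq SB] [DecidableEq JA] [DecidableEq JB]
  [Fintype M1] [Fintype M2] [Fintype M3] [DecidableEq M1] [DecidableEq M2] [DecidableEq M3]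

/-- An instrument that stores the outcome and announces a function of it. -/
def announceK (W : Matrix (SA × JA) A ℂ) (f : SA → M1) (m : M1) : Matrix (SA × JA) A ℂ :=
  fun p a => if f p.1 = m then W p a else 0

lemma announceK_sum (W : Matrix (SA × JA) A ℂ) (hW : Wᴴ * W = 1) (f : SA → M1) :
    ∑ m, (announceK W f m)ᴴ * announceK W f m = 1 := by
  rw [← hW]
  ext a b
  simp only [Matrix.sum_apply, Matrix.mul_apply, Matrix.conjTranspose_apply, announceK]
  rw [sum_comm]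
  refine sum_congr rfl fun p _ => ?_
  rw [sum_eq_single (f p.1)]
  · simp
  · intro m _ hm; simp [Ne.symm hm]
  · simp

/-- The measurement reading a function of a stored outcome. -/
def readM {K : Type} [DecidableEq K] (g : SA → K) (k : K) : Matrix (SA × JA) (SA × JA) ℂ :=
  Matrix.diagonal fun p => if g p.1 = k then 1 else 0

lemma readM_povm {K : Type} [Fintype K] [DecidableEq K] (g : SA → K) :
    IsPOVM (readM (JA := JA) g) := by
  refine ⟨fun k => Matrix.PosSemidef.diagonal fun p => ?_, ?_⟩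
  · split <;> simp
  · ext p q
    rw [Matrix.sum_apply]
    by_cases h : p = q <;> simp [readM, h, Matrix.diagonal, Matrix.one_apply]

/-- The protocol: both measure; three announcements; both read off keys. -/
noncomputable def classicalProto {ℓ : ℕ} (WA : Matrix (SA × JA) A ℂ) (hA : WAᴴ * WA = 1)
    (WB : Matrix (SB × JB) B ℂ) (hB : WBᴴ * WB = 1)
    (f1 : SA → M1) (f2 : M1 → SB → M2) (f3 : M1 → M2 → SA → M3)
    (gA : M1 → M2 → M3 → SA → Key ℓ) (gB : M1 → M2 → M3 → SB → Key ℓ) : Proto ℓ A B :=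
  Proto.alice M1 (fun _ => SA × JA) (announceK WA f1) (announceK_sum WA hA f1) fun m1 =>
    Proto.bob M2 (fun _ => SB × JB) (announceK WB (f2 m1)) (announceK_sum WB hB (f2 m1)) fun m2 =>
      Proto.alice M3 (fun _ => SA × JA) (announceK (1 : Matrix (SA × JA) (SA × JA) ℂ) (f3 m1 m2))
        (announceK_sum _ (by simp) (f3 m1 m2)) fun m3 =>
          Proto.final (readM (gA m1 m2 m3)) (readM (gB m1 m2 m3)) (readM_povm _) (readM_povm _)

/-- The part of a coefficient matrix with given stored outcomes. -/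
def slice {E : Type} (Φ : Matrix ((SA × JA) × (SB × JB)) E ℂ) (a : SA) (b : SB) :
    Matrix (JA × JB) E ℂ := fun j e => Φ ((a, j.1), (b, j.2)) e

/-- Eve's state for given messages and keys. -/
noncomputable def classicalState {E : Type} [DecidableEq E] {ℓ : ℕ}
    (f1 : SA → M1) (f2 : M1 → SB → M2) (f3 : M1 → M2 → SA → M3)
    (gA : M1 → M2 → M3 → SA → Key ℓ) (gB : M1 → M2 → M3 → SB → Key ℓ)
    (G : SA → SB → Matrix E E ℂ) (m1 : M1) (m2 : M2) (m3 : M3) (kA kB : Key ℓ) : Matrix E E ℂ :=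
  ∑ a : SA, ∑ b : SB,
    if f1 a = m1 ∧ f2 m1 b = m2 ∧ f3 m1 m2 a = m3 ∧ gA m1 m2 m3 a = kA ∧ gB m1 m2 m3 b = kB
    then G a b else 0

lemma classical_eveState {E : Type} [Fintype E] [DecidableEq E] {ℓ : ℕ}
    (WA : Matrix (SA × JA) A ℂ) (hA : WAᴴ * WA = 1)
    (WB : Matrix (SB × JB) B ℂ) (hB : WBᴴ * WB = 1)
    (f1 : SA → M1) (f2 : M1 → SB → M2) (f3 : M1 → M2 → SA → M3)
    (gA : M1 → M2 → M3 → SA → Key ℓ) (gB : M1 → M2 → M3 → SB → Key ℓ)
    (Ψ : Matrix (A × B) E ℂ) (m1 : M1) (m2 : M2) (m3 : M3) (kA kB : Key ℓ) :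
    (classicalProto WA hA WB hB f1 f2 f3 gA gB).eveState Ψ ⟨m1, m2, m3, ()⟩ kA kB =
      classicalState f1 f2 f3 gA gB (fun a b => gam (slice ((WA ⊗ₖ WB) * Ψ) a b))
        m1 m2 m3 kA kB := by
  show ((((announceK (1 : Matrix (SA × JA) (SA × JA) ℂ) (f3 m1 m2) m3) ⊗ₖ
      (1 : Matrix (SB × JB) (SB × JB) ℂ)) *
      (((1 : Matrix (SA × JA) (SA × JA) ℂ) ⊗ₖ announceK WB (f2 m1) m2) *
        ((announceK WA f1 m1 ⊗ₖ (1 : Matrix B B ℂ)) * Ψ)))ᴴ *
      (readM (gA m1 m2 m3) kA ⊗ₖ readM (gB m1 m2 m3) kB) * _)ᵀ = _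
  set Φ := (WA ⊗ₖ WB) * Ψ with hΦ
  set c : (SA × JA) × (SB × JB) → ℂ := fun p =>
    if f1 p.1.1 = m1 ∧ f2 m1 p.2.1 = m2 ∧ f3 m1 m2 p.1.1 = m3 then 1 else 0 with hc
  have hrows : ((announceK (1 : Matrix (SA × JA) (SA × JA) ℂ) (f3 m1 m2) m3) ⊗ₖ
      (1 : Matrix (SB × JB) (SB × JB) ℂ)) *
      (((1 : Matrix (SA × JA) (SA × JA) ℂ) ⊗ₖ announceK WB (f2 m1) m2) *
        ((announceK WA f1 m1 ⊗ₖ (1 : Matrix B B ℂ)) * Ψ)) = Matrix.diagonal c * Φ := by
    have e1 : announceK (1 : Matrix (SA × JA) (SA × JA) ℂ) (f3 m1 m2) m3 =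
        Matrix.diagonal fun p => if f3 m1 m2 p.1 = m3 then 1 else 0 := by
      ext p q
      by_cases h : p = q
      · subst h; simp [announceK]
      · simp [announceK, h]
    have e2 : announceK WB (f2 m1) m2 =
        Matrix.diagonal (fun p : SB × JB => if f2 m1 p.1 = m2 then (1 : ℂ) else 0) * WB := by
      ext p q; simp [announceK, Matrix.diagonal_mul]
    have e3 : announceK WA f1 m1 =
        Matrix.diagonal (fun p : SA × JA => if f1 p.1 = m1 then (1 : ℂ) else 0) * WA := by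
      ext p q; simp [announceK, Matrix.diagonal_mul]
    rw [hΦ, e1, e2, e3, ← Matrix.mul_assoc, ← Matrix.mul_assoc, ← Matrix.mul_kronecker_mul,
      ← Matrix.mul_kronecker_mul, Matrix.mul_one, Matrix.one_mul, Matrix.mul_one,
      ← Matrix.mul_assoc (Matrix.diagonal _) (Matrix.diagonal _) WA, Matrix.diagonal_mul_diagonal,
      Matrix.mul_kronecker_mul, Matrix.diagonal_kronecker_diagonal, Matrix.mul_assoc]
    congr 2
    funext p
    simp only [hc]
    split_ifs <;> simp_all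
  rw [hrows]
  simp only [readM, Matrix.diagonal_kronecker_diagonal]
  ext x y
  simp only [Matrix.transpose_apply, Matrix.mul_apply, Matrix.conjTranspose_apply,
    Matrix.diagonal_apply, mul_ite, mul_zero, sum_ite_eq', mem_univ, if_true, classicalState,
    Matrix.sum_apply, ite_mul, zero_mul, sum_ite_eq]
  rw [Fintype.sum_prod_type, Fintype.sum_prod_type]
  refine sum_congr rfl fun a _ => ?_
  simp only [Fintype.sum_prod_type]
  rw [sum_comm]
  refine sum_congr rfl fun b _ => ?_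
  by_cases h : f1 a = m1 ∧ f2 m1 b = m2 ∧ f3 m1 m2 a = m3 ∧ gA m1 m2 m3 a = kA ∧ gB m1 m2 m3 b = kB
  · rw [if_pos h]
    simp [gam_apply, slice, Fintype.sum_prod_type, hc, h.1, h.2.1, h.2.2.1, h.2.2.2.1, h.2.2.2.2]
  · rw [if_neg h]
    simp only [hc, Matrix.zero_apply]
    refine sum_eq_zero fun ja _ => sum_eq_zero fun jb _ => ?_
    by_cases h1 : f1 a = m1 ∧ f2 m1 b = m2 ∧ f3 m1 m2 a = m3
    · have : ¬ (gA m1 m2 m3 a = kA ∧ gB m1 m2 m3 b = kB) := fun h2 =>
        h ⟨h1.1, h1.2.1, h1.2.2, h2.1, h2.2⟩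
      by_cases h2 : gA m1 m2 m3 a = kA <;> simp_all
    · simp [if_neg h1]

theorem classical_hasError {E : Type} [Fintype E] [DecidableEq E] {ℓ : ℕ}
    (WA : Matrix (SA × JA) A ℂ) (hA : WAᴴ * WA = 1)
    (WB : Matrix (SB × JB) B ℂ) (hB : WBᴴ * WB = 1)
    (f1 : SA → M1) (f2 : M1 → SB → M2) (f3 : M1 → M2 → SA → M3)
    (gA : M1 → M2 → M3 → SA → Key ℓ) (gB : M1 → M2 → M3 → SB → Key ℓ)
    (Ψ : Matrix (A × B) E ℂ) (G : SA → SB → Matrix E E ℂ)
    (hG : ∀ a b, gam (slice ((WA ⊗ₖ WB) * Ψ) a b) = G a b) (ε : ℝ)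
    (σ : M1 → M2 → M3 → Matrix E E ℂ) (hσ : ∀ m1 m2 m3, (σ m1 m2 m3).PosSemidef)
    (hσ1 : ∑ m1, ∑ m2, ∑ m3, (σ m1 m2 m3).trace = 1)
    (hε : ∑ m1, ∑ m2, ∑ m3, ∑ kA : Key ℓ, ∑ kB : Key ℓ,
      traceNorm (classicalState f1 f2 f3 gA gB G m1 m2 m3 kA kB -
        if kA = kB then ((2 : ℂ) ^ ℓ)⁻¹ • σ m1 m2 m3 else 0) ≤ ε) :
    (classicalProto WA hA WB hB f1 f2 f3 gA gB).HasError Ψ ε := by
  let e : (classicalProto WA hA WB hB f1 f2 f3 gA gB).Leaf ≃ M1 × M2 × M3 :=
    { toFun := fun l => (l.1, l.2.1, l.2.2.1)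
      invFun := fun p => ⟨p.1, p.2.1, p.2.2, ()⟩
      left_inv := by rintro ⟨a, b, c, ⟨⟩⟩; rfl
      right_inv := fun _ => rfl }
  refine ⟨fun l => σ (e l).1 (e l).2.1 (e l).2.2, fun l => hσ _ _ _, ?_, ?_⟩
  · rw [Equiv.sum_comp e (fun p => (σ p.1 p.2.1 p.2.2).trace)]
    simp only [Fintype.sum_prod_type]
    exact hσ1
  · refine le_trans (le_of_eq ?_) hε
    rw [← Equiv.sum_comp e.symm]
    simp only [Fintype.sum_prod_type, Equiv.apply_symm_apply]
    refine sum_congr rfl fun m1 _ => sum_congr rfl fun m2 _ => sum_congr rfl fun m3 _ =>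
      sum_congr rfl fun kA _ => sum_congr rfl fun kB _ => ?_
    rw [show e.symm (m1, m2, m3) = ⟨m1, m2, m3, ()⟩ from rfl, classical_eveState]
    simp only [hG]

end Classical

section Copies

/-- Tensor product of coefficient matrices. -/
def tens {ι J E : Type} [Fintype ι] (v : ι → Matrix J E ℂ) : Matrix (ι → J) (ι → E) ℂ :=
  fun j e => ∏ i, v i (j i) (e i)

variable {ι J E : Type} [Fintype ι] [DecidableEq ι] [Fintype J] [Fintype E] [DecidableEq E]

lemma ip_tens (v w : ι → Matrix J E ℂ) : ip (tens v) (tens w) = ∏ i, ip (v i) (w i) := by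
  simp only [ip, tens, star_prod, ← prod_mul_distrib, Fintype.prod_sum]

lemma nsq_tens (v : ι → Matrix J E ℂ) : nsq (tens v) = ∏ i, nsq (v i) := by
  simp only [nsq, tens, norm_prod, ← prod_pow, Fintype.prod_sum]

lemma gam_tens (v : ι → Matrix J E ℂ) (x y : ι → E) :
    gam (tens v) x y = ∏ i, gam (v i) (x i) (y i) := by
  simp only [gam_apply, tens, star_prod, ← prod_mul_distrib, Fintype.prod_sum]

variable {O A : Type} [Fintype O] [Fintype A] [DecidableEq A]

/-- Copies of an instrument. -/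
def powInst (F : O → Matrix J A ℂ) : Matrix ((ι → O) × (ι → J)) (ι → A) ℂ :=
  fun p a => ∏ i, F (p.1 i) (p.2 i) (a i)

lemma powInst_isometry (F : O → Matrix J A ℂ) (hF : ∑ o, (F o)ᴴ * F o = 1) :
    (powInst (ι := ι) F)ᴴ * powInst (ι := ι) F = 1 := by
  ext a b
  simp only [Matrix.mul_apply, Matrix.conjTranspose_apply, powInst, Fintype.sum_prod_type,
    star_prod, ← prod_mul_distrib]
  rw [show (∑ o : ι → O, ∑ j : ι → J, ∏ i, star (F (o i) (j i) (a i)) * F (o i) (j i) (b i)) =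
      ∏ i, ∑ o, ∑ j, star (F o j (a i)) * F o j (b i) by simp only [Fintype.prod_sum]]
  have h : ∀ i, ∑ o, ∑ j, star (F o j (a i)) * F o j (b i) = (1 : Matrix A A ℂ) (a i) (b i) := by
    intro i
    rw [← hF]
    simp [Matrix.sum_apply, Matrix.mul_apply]
  simp only [h, Matrix.one_apply]
  by_cases hab : a = b
  · subst hab; simp
  · rw [if_neg hab]
    obtain ⟨i, hi⟩ := Function.ne_iff.1 hab
    exact prod_eq_zero (mem_univ i) (if_neg hi)

lemma gam_slice_copies {O' B J' : Type} [Fintype O'] [Fintype B] [DecidableEq B] [Fintype J']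
    (F : O → Matrix J A ℂ) (G : O' → Matrix J' B ℂ) (R : Matrix (A × B) E ℂ) (n : ℕ)
    (a : Fin n → O) (b : Fin n → O') (x y : Fin n → E) :
    gam (slice ((powInst F ⊗ₖ powInst G) * copies R n) a b) x y =
      ∏ i, gam ((F (a i) ⊗ₖ G (b i)) * R) (x i) (y i) := by
  have e : ∀ (j : (Fin n → J) × (Fin n → J')) (z : Fin n → E),
      slice ((powInst F ⊗ₖ powInst G) * copies R n) a b j z =
        ∏ i, ((F (a i) ⊗ₖ G (b i)) * R) (j.1 i, j.2 i) (z i) := by
    intro j z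
    simp only [slice, Matrix.mul_apply, Matrix.kroneckerMap_apply, powInst, copies,
      Fintype.sum_prod_type, ← prod_mul_distrib, Fintype.prod_sum]
  simp only [gam_apply, e, star_prod, ← prod_mul_distrib, Fintype.sum_prod_type,
    Fintype.prod_sum]

end Copies

end Vale.P372
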