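import Vale.Agent.P372.Coset
import Mathlib.Analysis.SpecialFunctions.Pow.Real

/-!
Random linear codes: one matrix gives both decoding (syndrome) and privacy (hash).
-/

namespace Vale.P372

open Matrix Finset
open scoped BigOperators

variable {ι : Type} [Fintype ι] [DecidableEq ι]

/-- The strings of weight at least `θ`. -/
noncomputable def typ (p : ZMod 2 → ℝ) (θ : ℝ) : Finset (ι → ZMod 2) :=
  univ.filter fun s => θ ≤ prodw p s

lemma prodw_nonneg {p : ZMod 2 → ℝ} (hp : ∀ t, 0 ≤ p t) (s : ι → ZMod 2) : 0 ≤ prodw p s :=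
  prod_nonneg fun _ _ => hp _

lemma typ_card_mul_le {p : ZMod 2 → ℝ} (hp : ∀ t, 0 ≤ p t) (hp1 : p 0 + p 1 = 1) (θ : ℝ) :
    ((typ (ι := ι) p θ).card : ℝ) * θ ≤ 1 := by
  calc ((typ (ι := ι) p θ).card : ℝ) * θ = ∑ _s ∈ typ (ι := ι) p θ, θ := by simp
    _ ≤ ∑ s ∈ typ (ι := ι) p θ, prodw p s := sum_le_sum fun s hs => (mem_filter.1 hs).2
    _ ≤ ∑ s, prodw p s := sum_le_univ_sum_of_nonneg fun s => prodw_nonneg hp s
    _ = 1 := by rw [sum_prodw, hp1, one_pow]

lemma typ_tail_le {p : ZMod 2 → ℝ} (hp : ∀ t, 0 ≤ p t) {θ α : ℝ} (hθ : 0 < θ)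
    (hα : 0 < α) (hα1 : α < 1) :
    ∑ s ∈ (typ (ι := ι) p θ)ᶜ, prodw p s ≤
      θ ^ α * (p 0 ^ (1 - α) + p 1 ^ (1 - α)) ^ Fintype.card ι := by
  have key : ∀ s : ι → ZMod 2, prodw p s < θ →
      prodw p s ≤ θ ^ α * prodw (fun t => p t ^ (1 - α)) s := by
    intro s hs
    have h0 := prodw_nonneg hp s
    have : prodw (fun t => p t ^ (1 - α)) s = prodw p s ^ (1 - α) :=
      Real.finsetProd_rpow _ _ (fun i _ => hp _) _
    rw [this]
    calc prodw p s = prodw p s ^ α * prodw p s ^ (1 - α) := by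
          rw [← Real.rpow_add_of_nonneg h0 hα.le (by linarith), add_sub_cancel, Real.rpow_one]
      _ ≤ _ := mul_le_mul_of_nonneg_right (Real.rpow_le_rpow h0 hs.le hα.le)
          (Real.rpow_nonneg h0 _)
  calc ∑ s ∈ (typ (ι := ι) p θ)ᶜ, prodw p s
      ≤ ∑ s ∈ (typ (ι := ι) p θ)ᶜ, θ ^ α * prodw (fun t => p t ^ (1 - α)) s :=
        sum_le_sum fun s hs => key s (by simpa [typ] using hs)
    _ ≤ ∑ s, θ ^ α * prodw (fun t => p t ^ (1 - α)) s :=
        sum_le_univ_sum_of_nonneg fun s => mul_nonneg (Real.rpow_nonneg hθ.le _)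
          (prodw_nonneg (fun t => Real.rpow_nonneg (hp t) _) s)
    _ = _ := by rw [← mul_sum, sum_prodw]

variable {r s : ℕ}

/-- Phase errors of the set which are not confused inside the row space. -/
noncomputable def goodPhase (L : Matrix (Fin r ⊕ Fin s) ι (ZMod 2)) (T : Finset (ι → ZMod 2)) :
    Finset (ι → ZMod 2) :=
  T.filter fun a => ∀ v : Fin r ⊕ Fin s → ZMod 2, v ≠ 0 → a + v ᵥ* L ∉ T

/-- Bit errors of the set which are determined by their syndrome. -/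
noncomputable def goodBit (L : Matrix (Fin r ⊕ Fin s) ι (ZMod 2)) (T : Finset (ι → ZMod 2)) :
    Finset (ι → ZMod 2) :=
  T.filter fun a => ∀ b ∈ T, b ≠ a → (L *ᵥ (a + b)) ∘ Sum.inr ≠ 0

lemma sum_confusion_phase (T : Finset (ι → ZMod 2)) (a : ι → ZMod 2) (ha : a ∈ T) :
    ∑ L : Matrix (Fin r ⊕ Fin s) ι (ZMod 2), (if a ∈ goodPhase L T then (0 : ℝ) else 1) ≤
      Fintype.card (Matrix (Fin r ⊕ Fin s) ι (ZMod 2)) *
        (2 ^ (r + s) * T.card / 2 ^ Fintype.card ι) := by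
  let V := (univ : Finset (Fin r ⊕ Fin s → ZMod 2)).filter (· ≠ 0)
  have hVm : ∀ v, v ∈ V ↔ v ≠ 0 := fun v => by simp [V]
  calc ∑ L : Matrix (Fin r ⊕ Fin s) ι (ZMod 2), (if a ∈ goodPhase L T then (0 : ℝ) else 1)
      ≤ ∑ L : Matrix (Fin r ⊕ Fin s) ι (ZMod 2),
          ∑ v ∈ V, ∑ b ∈ T, (if v ᵥ* L = a + b then (1 : ℝ) else 0) := by
        refine sum_le_sum fun L _ => ?_
        by_cases h : a ∈ goodPhase L T
        · rw [if_pos h]
          exact sum_nonneg fun _ _ => sum_nonneg fun _ _ => by split <;> norm_num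
        · rw [if_neg h]
          simp only [goodPhase, mem_filter, ha, true_and, not_forall, not_not] at h
          obtain ⟨v, hv, hb⟩ := h
          have h1 : (1 : ℝ) = if v ᵥ* L = a + (a + v ᵥ* L) then (1 : ℝ) else 0 := by
            rw [← add_assoc, add_eq_zero_iff_eq'.2 rfl, zero_add, if_pos rfl]
          refine le_trans (le_of_eq h1) ?_
          refine le_trans (single_le_sum (f := fun b => if v ᵥ* L = a + b then (1 : ℝ) else 0)
            (fun b _ => by split <;> norm_num) hb) ?_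
          exact single_le_sum (f := fun v => ∑ b ∈ T, if v ᵥ* L = a + b then (1 : ℝ) else 0)
            (fun v _ => sum_nonneg fun b _ => by split <;> norm_num)
            ((hVm v).2 hv)
    _ = ∑ v ∈ V, ∑ b ∈ T, ((univ.filter fun L : Matrix (Fin r ⊕ Fin s) ι (ZMod 2) =>
          v ᵥ* L = a + b).card : ℝ) := by
        rw [sum_comm]; refine sum_congr rfl fun v _ => ?_
        rw [sum_comm]; refine sum_congr rfl fun b _ => ?_
        rw [sum_boole]
    _ = (V.card : ℝ) * T.card *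
          (Fintype.card (Matrix (Fin r ⊕ Fin s) ι (ZMod 2)) / 2 ^ Fintype.card ι) := by
        rw [sum_congr rfl fun v hv => sum_congr rfl fun b _ =>
          card_vecMul_eq v ((hVm v).1 hv) (a + b)]
        simp only [sum_const, nsmul_eq_mul]; ring
    _ ≤ _ := by
        have hV : (V.card : ℝ) ≤ 2 ^ (r + s) := by
          have := card_filter_le (univ : Finset (Fin r ⊕ Fin s → ZMod 2)) (· ≠ 0)
          simp only [card_univ, Fintype.card_fun, ZMod.card, Fintype.card_sum,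
            Fintype.card_fin] at this
          exact_mod_cast this
        calc (V.card : ℝ) * T.card * (_ / 2 ^ Fintype.card ι)
            ≤ 2 ^ (r + s) * T.card * (_ / 2 ^ Fintype.card ι) := by gcongr
          _ = _ := by ring

lemma sum_confusion_bit (T : Finset (ι → ZMod 2)) (a : ι → ZMod 2) (ha : a ∈ T) :
    ∑ L : Matrix (Fin r ⊕ Fin s) ι (ZMod 2), (if a ∈ goodBit L T then (0 : ℝ) else 1) ≤
      Fintype.card (Matrix (Fin r ⊕ Fin s) ι (ZMod 2)) * (T.card / 2 ^ s) := by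
  let W := T.filter (· ≠ a)
  have hWm : ∀ b, b ∈ W ↔ b ∈ T ∧ b ≠ a := fun b => by simp [W]
  calc ∑ L : Matrix (Fin r ⊕ Fin s) ι (ZMod 2), (if a ∈ goodBit L T then (0 : ℝ) else 1)
      ≤ ∑ L : Matrix (Fin r ⊕ Fin s) ι (ZMod 2),
          ∑ b ∈ W, (if (L *ᵥ (a + b)) ∘ Sum.inr = 0 then (1 : ℝ) else 0) := by
        refine sum_le_sum fun L _ => ?_
        by_cases h : a ∈ goodBit L T
        · rw [if_pos h]; exact sum_nonneg fun _ _ => by split <;> norm_num
        · rw [if_neg h]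
          simp only [goodBit, mem_filter, ha, true_and, not_forall, not_not, exists_prop] at h
          obtain ⟨b, hb, hba, hH⟩ := h
          exact le_trans (le_of_eq (by rw [if_pos hH]))
            (single_le_sum (f := fun b => if (L *ᵥ (a + b)) ∘ Sum.inr = 0 then (1 : ℝ) else 0)
              (fun b _ => by split <;> norm_num) ((hWm b).2 ⟨hb, hba⟩))
    _ = ∑ b ∈ W, ((univ.filter fun L : Matrix (Fin r ⊕ Fin s) ι (ZMod 2) =>
          (L *ᵥ (a + b)) ∘ Sum.inr = 0).card : ℝ) := by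
        rw [sum_comm]; refine sum_congr rfl fun b _ => ?_
        rw [sum_boole]
    _ = (W.card : ℝ) * (Fintype.card (Matrix (Fin r ⊕ Fin s) ι (ZMod 2)) / 2 ^ s) := by
        rw [sum_congr rfl fun b hb => card_syndrome_eq Sum.inr Sum.inr_injective (a + b)
          (fun h => ((hWm b).1 hb).2 (add_eq_zero_iff_eq'.1 h).symm)]
        simp only [sum_const, nsmul_eq_mul, Fintype.card_fin]
    _ ≤ _ := by
        have hW : (W.card : ℝ) ≤ T.card := by exact_mod_cast card_filter_le _ _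
        calc (W.card : ℝ) * (_ / 2 ^ s) ≤ T.card * (_ / 2 ^ s) := by gcongr
          _ = _ := by ring

lemma sum_bad_le {p : ZMod 2 → ℝ} (hp : ∀ t, 0 ≤ p t) (hp1 : p 0 + p 1 = 1) (θ : ℝ)
    (good : Matrix (Fin r ⊕ Fin s) ι (ZMod 2) → Finset (ι → ZMod 2)) (B : ℝ) (hB : 0 ≤ B)
    (hconf : ∀ a ∈ typ (ι := ι) p θ, ∑ L, (if a ∈ good L then (0 : ℝ) else 1) ≤
      Fintype.card (Matrix (Fin r ⊕ Fin s) ι (ZMod 2)) * B) :
    ∑ L : Matrix (Fin r ⊕ Fin s) ι (ZMod 2), ∑ a ∈ (good L)ᶜ, prodw p a ≤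
      Fintype.card (Matrix (Fin r ⊕ Fin s) ι (ZMod 2)) *
        (∑ a ∈ (typ (ι := ι) p θ)ᶜ, prodw p a + B) := by
  set K : ℝ := (Fintype.card (Matrix (Fin r ⊕ Fin s) ι (ZMod 2)) : ℝ) with hK
  have : ∀ L, ∑ a ∈ (good L)ᶜ, prodw p a =
      ∑ a, prodw p a * (if a ∈ good L then (0 : ℝ) else 1) := by
    intro L
    simp [mul_ite, sum_ite, compl_eq_univ_sdiff, sdiff_eq_filter]
  simp only [this]
  rw [sum_comm, ← sum_compl_add_sum (typ (ι := ι) p θ), mul_add, mul_sum]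
  simp only [← mul_sum]
  refine add_le_add (le_trans (le_of_eq rfl) ?_) ?_
  · rw [mul_sum]
    refine sum_le_sum fun a _ => ?_
    rw [mul_comm K]
    refine mul_le_mul_of_nonneg_left ?_ (prodw_nonneg hp a)
    calc ∑ L, (if a ∈ good L then (0 : ℝ) else 1)
        ≤ ∑ _L : Matrix (Fin r ⊕ Fin s) ι (ZMod 2), (1 : ℝ) :=
          sum_le_sum fun L _ => by split <;> norm_num
      _ = K := by simp [hK]
  · calc ∑ a ∈ typ (ι := ι) p θ, prodw p a * ∑ L, (if a ∈ good L then (0 : ℝ) else 1)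
        ≤ ∑ a ∈ typ (ι := ι) p θ, prodw p a * (K * B) :=
          sum_le_sum fun a ha => mul_le_mul_of_nonneg_left (hconf a ha) (prodw_nonneg hp a)
      _ ≤ ∑ a, prodw p a * (K * B) := sum_le_univ_sum_of_nonneg fun a =>
          mul_nonneg (prodw_nonneg hp a) (mul_nonneg (Nat.cast_nonneg _) hB)
      _ = K * B := by rw [← sum_mul, sum_prodw, hp1, one_pow, one_mul]

/-- One linear map serves as syndrome and hash. -/
theorem exists_good_matrix {p q : ZMod 2 → ℝ} (hp : ∀ t, 0 ≤ p t) (hp1 : p 0 + p 1 = 1)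
    (hq : ∀ t, 0 ≤ q t) (hq1 : q 0 + q 1 = 1) (θ θ' : ℝ) :
    ∃ L : Matrix (Fin r ⊕ Fin s) ι (ZMod 2),
      ∑ a ∈ (goodPhase L (typ (ι := ι) p θ))ᶜ, prodw p a +
          ∑ a ∈ (goodBit L (typ (ι := ι) q θ'))ᶜ, prodw q a ≤
        (∑ a ∈ (typ (ι := ι) p θ)ᶜ, prodw p a +
            2 ^ (r + s) * (typ (ι := ι) p θ).card / 2 ^ Fintype.card ι) +
          (∑ a ∈ (typ (ι := ι) q θ')ᶜ, prodw q a + (typ (ι := ι) q θ').card / 2 ^ s) := by
  have h1 := sum_bad_le (r := r) (s := s) hp hp1 θ (fun L => goodPhase L (typ (ι := ι) p θ)) _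
    (by positivity) fun a ha => sum_confusion_phase _ a ha
  have h2 := sum_bad_le (r := r) (s := s) hq hq1 θ' (fun L => goodBit L (typ (ι := ι) q θ')) _
    (by positivity) fun a ha => sum_confusion_bit _ a ha
  obtain ⟨L, -, hL⟩ := exists_le_of_sum_le (univ_nonempty (α := Matrix (Fin r ⊕ Fin s) ι (ZMod 2)))
    (show ∑ L, (∑ a ∈ (goodPhase L (typ (ι := ι) p θ))ᶜ, prodw p a +
        ∑ a ∈ (goodBit L (typ (ι := ι) q θ'))ᶜ, prodw q a) ≤
      ∑ _L : Matrix (Fin r ⊕ Fin s) ι (ZMod 2),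
        ((∑ a ∈ (typ (ι := ι) p θ)ᶜ, prodw p a +
            2 ^ (r + s) * (typ (ι := ι) p θ).card / 2 ^ Fintype.card ι) +
          (∑ a ∈ (typ (ι := ι) q θ')ᶜ, prodw q a + (typ (ι := ι) q θ').card / 2 ^ s)) by
      rw [sum_add_distrib, sum_const, card_univ, nsmul_eq_mul, mul_add]
      exact add_le_add h1 h2)
  exact ⟨L, hL⟩

/-- The decoder: flip back the good error with the given syndrome. -/
noncomputable def decode (L : Matrix (Fin r ⊕ Fin s) ι (ZMod 2)) (T : Finset (ι → ZMod 2))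
    (z : Fin s → ZMod 2) (y : ι → ZMod 2) : ι → ZMod 2 :=
  if h : ∃ e ∈ goodBit L T, (L *ᵥ (y + e)) ∘ Sum.inr = z then y + h.choose else y

lemma decode_eq (L : Matrix (Fin r ⊕ Fin s) ι (ZMod 2)) (T : Finset (ι → ZMod 2))
    (x e : ι → ZMod 2) (he : e ∈ goodBit L T) :
    decode L T ((L *ᵥ x) ∘ Sum.inr) (x + e) = x := by
  have hxe : x + e + e = x := by rw [add_assoc, add_eq_zero_iff_eq'.2 rfl, add_zero]
  have h : ∃ e' ∈ goodBit L T, (L *ᵥ (x + e + e')) ∘ Sum.inr = (L *ᵥ x) ∘ Sum.inr :=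
    ⟨e, he, by rw [hxe]⟩
  rw [decode, dif_pos h]
  obtain ⟨h1, h2⟩ := h.choose_spec
  generalize h.choose = e' at h1 h2
  suffices e' = e by rw [this, hxe]
  by_contra hne
  refine (mem_filter.1 he).2 e' (mem_filter.1 h1).1 hne ?_
  funext i
  have := congrFun h2 i
  simp only [Function.comp_apply, Matrix.mulVec_add, Pi.add_apply, Pi.zero_apply] at this ⊢
  linear_combination this

end Vale.P372
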