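import Vale.Agent.P372.Classical
import Mathlib.Data.Matrix.ColumnRowPartitioned
import Mathlib.Analysis.Matrix.Order

/-!
One copy: scaled filters completed to instruments, and dilated vectors of Eve.
-/

namespace Vale.P372

open Matrix Finset
open scoped Kronecker BigOperators ComplexOrder

/-- Outcome of one local measurement: a bit, or discard. -/
abbrev Out : Type := Option (ZMod 2)

variable {A B : Type} [Fintype A] [Fintype B]

lemma exists_gram {I : Type} [Fintype I] [DecidableEq I] {M : Matrix I I ℂ}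
    (hM : M.PosSemidef) : ∃ D : Matrix I I ℂ, Dᴴ * D = M := by
  classical
  open scoped MatrixOrder in
  obtain ⟨D, hD⟩ := CStarAlgebra.nonneg_iff_eq_star_mul_self.mp hM.nonneg
  exact ⟨D, hD.symm⟩

/-- A positive semidefinite matrix is below a multiple of the identity. -/
lemma exists_sub_posSemidef [DecidableEq A] {M : Matrix A A ℂ} (hM : M.PosSemidef) :
    ∃ c : ℝ, 0 < c ∧ (1 - (c : ℂ) • M).PosSemidef := by
  set b : ℝ := ∑ i, ∑ j, ‖M i j‖ with hb
  have hb0 : 0 ≤ b := sum_nonneg fun i _ => sum_nonneg fun j _ => norm_nonneg _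
  refine ⟨(b + 1)⁻¹, by positivity, ?_⟩
  have hH : (1 - (((b + 1)⁻¹ : ℝ) : ℂ) • M).IsHermitian := by
    refine Matrix.isHermitian_one.sub ?_
    unfold Matrix.IsHermitian
    rw [Matrix.conjTranspose_smul, hM.isHermitian.eq]
    congr 1
    exact Complex.conj_ofReal _
  refine Matrix.PosSemidef.of_dotProduct_mulVec_nonneg hH fun x => ?_
  set N : ℝ := ∑ i, ‖x i‖ ^ 2 with hN
  have h1 : star x ⬝ᵥ x = (N : ℂ) := by
    rw [hN]; push_cast
    exact sum_congr rfl fun i _ => Complex.conj_mul' (x i)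
  have hz0 := hM.dotProduct_mulVec_nonneg x
  have h2 : ‖star x ⬝ᵥ M *ᵥ x‖ ≤ b * N := by
    have hx : ∀ i, ‖x i‖ ^ 2 ≤ N := fun i =>
      single_le_sum (f := fun i => ‖x i‖ ^ 2) (fun j _ => sq_nonneg _) (mem_univ i)
    rw [hb, sum_mul]
    refine (norm_sum_le _ _).trans (sum_le_sum fun i _ => ?_)
    simp only [Matrix.mulVec, dotProduct, Pi.star_apply, mul_sum, sum_mul]
    refine (norm_sum_le _ _).trans (sum_le_sum fun j _ => ?_)
    rw [norm_mul, norm_mul, norm_star]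
    nlinarith [hx i, hx j, sq_nonneg (‖x i‖ - ‖x j‖), norm_nonneg (M i j),
      mul_nonneg (norm_nonneg (x i)) (norm_nonneg (x j))]
  obtain ⟨hre, him⟩ := Complex.nonneg_iff.1 hz0
  have hre' : (star x ⬝ᵥ M *ᵥ x).re ≤ b * N := (Complex.re_le_norm _).trans h2
  rw [Matrix.sub_mulVec, Matrix.one_mulVec, Matrix.smul_mulVec, dotProduct_sub, dotProduct_smul,
    h1, smul_eq_mul, Complex.nonneg_iff]
  constructor
  · simp only [Complex.sub_re, Complex.ofReal_re, Complex.re_ofReal_mul]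
    have hN0 : 0 ≤ N := sum_nonneg fun i _ => sq_nonneg _
    have : (b + 1)⁻¹ * (star x ⬝ᵥ M *ᵥ x).re ≤ (b + 1)⁻¹ * (b * N) :=
      mul_le_mul_of_nonneg_left hre' (by positivity)
    have h3 : (b + 1)⁻¹ * (b * N) ≤ N := by
      rw [inv_mul_le_iff₀ (by positivity)]; nlinarith
    linarith
  · simp [← him]

/-- Two filters and a discard outcome as an instrument with output `Fin k ⊕ A`. -/
def completeInst {k : ℕ} (X₀ X₁ : Matrix (Fin k) A ℂ) (D : Matrix A A ℂ) :
    Out → Matrix (Fin k ⊕ A) A ℂ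
  | none => Matrix.fromRows 0 D
  | some t => Matrix.fromRows (if t = 0 then X₀ else X₁) 0

lemma completeInst_sum {k : ℕ} [DecidableEq A] (X₀ X₁ : Matrix (Fin k) A ℂ) (D : Matrix A A ℂ)
    (hD : Dᴴ * D = 1 - (X₀ᴴ * X₀ + X₁ᴴ * X₁)) :
    ∑ o, (completeInst X₀ X₁ D o)ᴴ * completeInst X₀ X₁ D o = 1 := by
  rw [Fintype.sum_option, show (univ : Finset (ZMod 2)) = {0, 1} from rfl,
    sum_insert (by decide), sum_singleton]
  have e : ∀ (U : Matrix (Fin k) A ℂ) (W : Matrix A A ℂ),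
      (Matrix.fromRows U W)ᴴ * Matrix.fromRows U W = Uᴴ * U + Wᴴ * W := by
    intro U W
    ext a b
    simp [Matrix.mul_apply, Fintype.sum_sum_type]
  simp only [completeInst, e, show (1 : ZMod 2) ≠ 0 by decide, if_true, if_false,
    Matrix.conjTranspose_zero, Matrix.zero_mul, zero_add, add_zero, hD]
  abel

variable {J J' E : Type} [Fintype J] [Fintype J'] [Fintype E]

lemma gam_fromRows (v : Matrix J E ℂ) (w : Matrix J' E ℂ) :
    gam (Matrix.fromRows v w) = gam v + gam w := by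
  classical
  ext x y
  simp [gam_apply, Fintype.sum_sum_type]

lemma gam_zero : gam (0 : Matrix J E ℂ) = 0 := by
  classical
  ext x y
  simp [gam_apply]

lemma ip_fromRows (a a' : Matrix J E ℂ) (b b' : Matrix J' E ℂ) :
    ip (Matrix.fromRows a b) (Matrix.fromRows a' b') = ip a a' + ip b b' := by
  simp [ip, Fintype.sum_sum_type]

lemma ip_zero_left (a : Matrix J E ℂ) : ip 0 a = 0 := by simp [ip]

lemma ip_zero_right (a : Matrix J E ℂ) : ip a 0 = 0 := by simp [ip]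

lemma nsq_eq_re_trace (v : Matrix J E ℂ) : nsq v = ((v * vᴴ).trace).re := by
  classical
  have : ((nsq v : ℝ) : ℂ) = (v * vᴴ).trace := by
    rw [← gam_trace, gam, Matrix.trace_transpose, Matrix.trace_mul_comm]
  rw [← this, Complex.ofReal_re]

lemma nsq_filter (ρ : Matrix (A × B) (A × B) ℂ) (R : Matrix (A × B) E ℂ) (hR : R * Rᴴ = ρ)
    (X : Matrix J A ℂ) (Y : Matrix J' B ℂ) : nsq ((X ⊗ₖ Y) * R) = weight ρ X Y := by
  rw [nsq_eq_re_trace, weight]
  congr 2
  rw [Matrix.conjTranspose_mul, ← hR]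
  simp only [Matrix.mul_assoc]

/-- The data of one copy used by the protocol. -/
structure CopyData (ρ : Matrix (A × B) (A × B) ℂ) [DecidableEq A] [DecidableEq B] where
  k : ℕ
  l : ℕ
  F : Out → Matrix (Fin k ⊕ A) A ℂ
  G : Out → Matrix (Fin l ⊕ B) B ℂ
  hF : ∑ o, (F o)ᴴ * F o = 1
  hG : ∑ o, (G o)ᴴ * G o = 1
  p : Out → Out → ℝ
  t : ℝ
  hp : ∀ a b, 0 ≤ p a b
  hp1 : ∑ a, ∑ b, p a b = 1
  ht : 0 < t
  hta : t ^ 2 ≤ p (some 0) (some 0) * p (some 1) (some 1)
  hlt : p (some 0) (some 0) * p (some 1) (some 1) * (p (some 0) (some 1) * p (some 1) (some 0)) <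
    t ^ 4
  dilation : ∀ (E : Type) [Fintype E] [DecidableEq E] (R : Matrix (A × B) E ℂ), R * Rᴴ = ρ →
    ∃ (J : Type) (_ : Fintype J) (ψ : Out → Out → Matrix J E ℂ),
      (∀ a b, gam (ψ a b) = gam ((F a ⊗ₖ G b) * R)) ∧ (∀ a b, nsq (ψ a b) = p a b) ∧
      ip (ψ (some 0) (some 0)) (ψ (some 1) (some 1)) = (t : ℂ) ∧
      ip (ψ (some 1) (some 1)) (ψ (some 0) (some 0)) = (t : ℂ) ∧
      ip (ψ (some 0) (some 1)) (ψ (some 1) (some 0)) = 0 ∧
      ip (ψ (some 1) (some 0)) (ψ (some 0) (some 1)) = 0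

lemma kron_mul_apply {I I' : Type} (X : Matrix I A ℂ) (Y : Matrix I' B ℂ) (R : Matrix (A × B) E ℂ)
    (i : I) (i' : I') (e : E) :
    ((X ⊗ₖ Y) * R) (i, i') e = ∑ p : A × B, X i p.1 * Y i' p.2 * R p e := by
  simp [Matrix.mul_apply, Matrix.kroneckerMap_apply]

lemma gam_padded {k l : ℕ} (X : Matrix (Fin k) A ℂ) (Y : Matrix (Fin l) B ℂ)
    (R : Matrix (A × B) E ℂ) :
    gam ((Matrix.fromRows X (0 : Matrix A A ℂ) ⊗ₖ Matrix.fromRows Y (0 : Matrix B B ℂ)) * R) =
      gam ((X ⊗ₖ Y) * R) := by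
  classical
  ext x y
  simp [gam_apply, Fintype.sum_prod_type, Fintype.sum_sum_type, kron_mul_apply]

lemma trace_rewrite {I : Type} [Fintype I] (V : Matrix I I ℂ) (K₀ K₁ : Matrix I (A × B) ℂ)
    (ρ : Matrix (A × B) (A × B) ℂ) (R : Matrix (A × B) E ℂ) (hR : R * Rᴴ = ρ) :
    (V * (K₀ * ρ * K₁ᴴ)).trace = ip (K₁ * R) (V * (K₀ * R)) := by
  have e : ∀ a b : Matrix I E ℂ, ip a b = (b * aᴴ).trace := by
    intro a b
    simp only [ip, Matrix.trace, Matrix.diag_apply, Matrix.mul_apply, Matrix.conjTranspose_apply]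
    exact sum_congr rfl fun i _ => sum_congr rfl fun j _ => mul_comm _ _
  rw [e, Matrix.conjTranspose_mul, ← hR]
  simp only [Matrix.mul_assoc]

theorem exists_copyData [DecidableEq A] [DecidableEq B] {ρ : Matrix (A × B) (A × B) ℂ}
    (hρ : IsState ρ) (h : KeyCriterion ρ) : Nonempty (CopyData ρ) := by
  obtain ⟨k, l, X₀, X₁, Y₀, Y₁, V, hV, hlt⟩ := h
  obtain ⟨c, hc, hcX⟩ := exists_sub_posSemidef
    ((posSemidef_conjTranspose_mul_self X₀).add (posSemidef_conjTranspose_mul_self X₁))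
  obtain ⟨d, hd, hdY⟩ := exists_sub_posSemidef
    ((posSemidef_conjTranspose_mul_self Y₀).add (posSemidef_conjTranspose_mul_self Y₁))
  set u : ℂ := ((√c : ℝ) : ℂ) with hu
  set w : ℂ := ((√d : ℝ) : ℂ) with hw
  have hstar : ∀ r : ℝ, star ((√r : ℝ) : ℂ) = ((√r : ℝ) : ℂ) := fun r => Complex.conj_ofReal _
  have scale : ∀ (n : ℕ) (I : Type) [Fintype I] (r : ℝ), 0 ≤ r → ∀ Z : Matrix (Fin n) I ℂ,
      (((√r : ℝ) : ℂ) • Z)ᴴ * (((√r : ℝ) : ℂ) • Z) = (r : ℂ) • (Zᴴ * Z) := by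
    intro n I _ r hr Z
    rw [Matrix.conjTranspose_smul, hstar, Matrix.smul_mul, Matrix.mul_smul, smul_smul,
      ← Complex.ofReal_mul, Real.mul_self_sqrt hr]
  obtain ⟨DA, hDA⟩ := exists_gram hcX
  obtain ⟨DB, hDB⟩ := exists_gram hdY
  have hF := completeInst_sum (u • X₀) (u • X₁) DA (by rw [hDA, scale _ _ c hc.le, scale _ _ c hc.le,
    smul_add])
  have hG := completeInst_sum (w • Y₀) (w • Y₁) DB (by rw [hDB, scale _ _ d hd.le, scale _ _ d hd.le,
    smul_add])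
  set F := completeInst (u • X₀) (u • X₁) DA with hFdef
  set G := completeInst (w • Y₀) (w • Y₁) DB with hGdef
  obtain ⟨R0, hR0'⟩ := exists_gram hρ.1
  have hR0 : (R0ᴴ) * (R0ᴴ)ᴴ = ρ := by rw [Matrix.conjTranspose_conjTranspose, hR0']
  set p : Out → Out → ℝ := fun a b => weight ρ (F a) (G b) with hp
  have hpn : ∀ a b, 0 ≤ p a b := fun a b => by
    have := nsq_nonneg ((F a ⊗ₖ G b) * R0ᴴ); rwa [nsq_filter ρ _ hR0] at this
  have hkey : ∀ a b, weight ρ (F a) (G b) = (((((F a)ᴴ * F a) ⊗ₖ ((G b)ᴴ * G b)) * ρ).trace).re := by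
    intro a b
    rw [weight, Matrix.trace_mul_cycle, Matrix.conjTranspose_kronecker, Matrix.mul_kronecker_mul]
  have hp1 : ∑ a, ∑ b, p a b = 1 := by
    simp only [hp, hkey, ← Complex.re_sum, ← Matrix.trace_sum, ← sum_mul]
    have : (∑ a, ∑ b, ((F a)ᴴ * F a) ⊗ₖ ((G b)ᴴ * G b)) = (1 : Matrix (A × B) (A × B) ℂ) := by
      rw [← Matrix.one_kronecker_one, ← hF, ← hG]
      ext i j
      simp only [Matrix.sum_apply, Matrix.kroneckerMap_apply, sum_mul, mul_sum]
      exact sum_comm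
    rw [this, Matrix.one_mul, hρ.2, Complex.one_re]
  have hsc : ∀ (X : Matrix (Fin k) A ℂ) (Y : Matrix (Fin l) B ℂ) (E' : Type) [Fintype E']
      (R : Matrix (A × B) E' ℂ), ((u • X) ⊗ₖ (w • Y)) * R = (u * w) • ((X ⊗ₖ Y) * R) := by
    intro X Y E' _ R
    rw [Matrix.smul_kronecker, Matrix.kronecker_smul, smul_smul, Matrix.smul_mul]
  have hnorm : ∀ (X : Matrix (Fin k) A ℂ) (Y : Matrix (Fin l) B ℂ) (E' : Type) [Fintype E']
      (R : Matrix (A × B) E' ℂ), R * Rᴴ = ρ →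
      nsq ((Matrix.fromRows (u • X) (0 : Matrix A A ℂ) ⊗ₖ
        Matrix.fromRows (w • Y) (0 : Matrix B B ℂ)) * R) = c * d * weight ρ X Y := by
    intro X Y E' _ R hR
    classical
    have h1 : ((nsq ((Matrix.fromRows (u • X) (0 : Matrix A A ℂ) ⊗ₖ
        Matrix.fromRows (w • Y) (0 : Matrix B B ℂ)) * R) : ℝ) : ℂ) =
        ((c * d * weight ρ X Y : ℝ) : ℂ) := by
      rw [← gam_trace, gam_padded, gam_trace, hsc X Y E' R, ← nsq_filter ρ R hR X Y]
      norm_cast
      simp only [nsq, Matrix.smul_apply, smul_eq_mul, norm_mul, mul_pow, mul_sum]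
      refine sum_congr rfl fun i _ => sum_congr rfl fun j _ => ?_
      rw [hu, hw, Complex.norm_real, Complex.norm_real, Real.norm_eq_abs, Real.norm_eq_abs, sq_abs,
        sq_abs, Real.sq_sqrt hc.le, Real.sq_sqrt hd.le]
    exact_mod_cast h1
  have hp00 : p (some 0) (some 0) = c * d * weight ρ X₀ Y₀ := by
    rw [← hnorm X₀ Y₀ _ _ hR0, nsq_filter ρ _ hR0]; simp [hp, hFdef, hGdef, completeInst]
  have hp11 : p (some 1) (some 1) = c * d * weight ρ X₁ Y₁ := by
    rw [← hnorm X₁ Y₁ _ _ hR0, nsq_filter ρ _ hR0]; simp [hp, hFdef, hGdef, completeInst]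
  have hp01 : p (some 0) (some 1) = c * d * weight ρ X₀ Y₁ := by
    rw [← hnorm X₀ Y₁ _ _ hR0, nsq_filter ρ _ hR0]; simp [hp, hFdef, hGdef, completeInst]
  have hp10 : p (some 1) (some 0) = c * d * weight ρ X₁ Y₀ := by
    rw [← hnorm X₁ Y₀ _ _ hR0, nsq_filter ρ _ hR0]; simp [hp, hFdef, hGdef, completeInst]
  set z : ℂ := (V * ((X₀ ⊗ₖ Y₀) * ρ * (X₁ ⊗ₖ Y₁)ᴴ)).trace with hz
  have hzne : z ≠ 0 := by
    intro h0
    rw [h0, norm_zero, zero_pow (by norm_num)] at hlt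
    refine absurd hlt (not_lt.2 ?_)
    have hw0 : ∀ (X : Matrix (Fin k) A ℂ) (Y : Matrix (Fin l) B ℂ), 0 ≤ weight ρ X Y := fun X Y => by
      have := nsq_nonneg ((X ⊗ₖ Y) * R0ᴴ); rwa [nsq_filter ρ _ hR0] at this
    exact mul_nonneg (mul_nonneg (mul_nonneg (hw0 _ _) (hw0 _ _)) (hw0 _ _)) (hw0 _ _)
  have hznorm : 0 < ‖z‖ := norm_pos_iff.2 hzne
  set ω : ℂ := star z / (‖z‖ : ℂ) with hω
  have hωz : ω * z = (‖z‖ : ℂ) := by
    rw [hω, div_mul_eq_mul_div, show star z * z = (‖z‖ : ℂ) ^ 2 from Complex.conj_mul' z, sq,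
      mul_div_assoc, div_self (by exact_mod_cast hznorm.ne'), mul_one]
  have hω1 : star ω * ω = 1 := by
    rw [show star ω = z / (‖z‖ : ℂ) by
        rw [hω, star_div₀, star_star]; congr 1; exact Complex.conj_ofReal _,
      hω, div_mul_div_comm, show z * star z = (‖z‖ : ℂ) ^ 2 from Complex.mul_conj' z, sq,
      div_self (mul_ne_zero (by exact_mod_cast hznorm.ne') (by exact_mod_cast hznorm.ne'))]
  obtain ⟨D, hD⟩ := exists_gram hV
  set t : ℝ := c * d * ‖z‖ with ht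
  have ht0 : 0 < t := by positivity
  have dil : ∀ (E : Type) [Fintype E] [DecidableEq E] (R : Matrix (A × B) E ℂ), R * Rᴴ = ρ →
      ∃ (J : Type) (_ : Fintype J) (ψ : Out → Out → Matrix J E ℂ),
      (∀ a b, gam (ψ a b) = gam ((F a ⊗ₖ G b) * R)) ∧ (∀ a b, nsq (ψ a b) = p a b) ∧
      ip (ψ (some 0) (some 0)) (ψ (some 1) (some 1)) = (t : ℂ) ∧
      ip (ψ (some 1) (some 1)) (ψ (some 0) (some 0)) = (t : ℂ) ∧
      ip (ψ (some 0) (some 1)) (ψ (some 1) (some 0)) = 0 ∧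
      ip (ψ (some 1) (some 0)) (ψ (some 0) (some 1)) = 0 := by
    intro E _ _ R hR
    set v₀ : Matrix (Fin k × Fin l) E ℂ := ((u • X₀) ⊗ₖ (w • Y₀)) * R with hv₀
    set v₁ : Matrix (Fin k × Fin l) E ℂ := ((u • X₁) ⊗ₖ (w • Y₁)) * R with hv₁
    let a00 : Matrix ((Fin k × Fin l) ⊕ (Fin k × Fin l)) E ℂ :=
      Matrix.fromRows (ω • (V * v₀)) (ω • (D * v₀))
    let a11 : Matrix ((Fin k × Fin l) ⊕ (Fin k × Fin l)) E ℂ := Matrix.fromRows v₁ 0
    refine ⟨((Fin k ⊕ A) × (Fin l ⊕ B)) ⊕ (((Fin k ⊕ A) × (Fin l ⊕ B)) ⊕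
      ((Fin k × Fin l) ⊕ (Fin k × Fin l))), inferInstance,
      fun a b =>
        if a = some 0 ∧ b = some 0 then Matrix.fromRows 0 (Matrix.fromRows 0 a00)
        else if a = some 1 ∧ b = some 1 then Matrix.fromRows 0 (Matrix.fromRows 0 a11)
        else if a = some 1 ∧ b = some 0 then Matrix.fromRows 0
          (Matrix.fromRows ((F a ⊗ₖ G b) * R) 0)
        else Matrix.fromRows ((F a ⊗ₖ G b) * R) 0, ?_⟩
    have hgam : ∀ a b, gam (if a = some 0 ∧ b = some 0 then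
          Matrix.fromRows (0 : Matrix ((Fin k ⊕ A) × (Fin l ⊕ B)) E ℂ)
            (Matrix.fromRows (0 : Matrix ((Fin k ⊕ A) × (Fin l ⊕ B)) E ℂ) a00)
        else if a = some 1 ∧ b = some 1 then Matrix.fromRows 0 (Matrix.fromRows 0 a11)
        else if a = some 1 ∧ b = some 0 then Matrix.fromRows 0
          (Matrix.fromRows ((F a ⊗ₖ G b) * R) 0)
        else Matrix.fromRows ((F a ⊗ₖ G b) * R) 0) = gam ((F a ⊗ₖ G b) * R) := by
      intro a b
      split_ifs with h1 h2 h3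
      · obtain ⟨rfl, rfl⟩ := h1
        have : gam a00 = gam v₀ := by
          simp only [a00, gam_fromRows]
          rw [gam, gam, gam, ← Matrix.transpose_add]
          congr 1
          simp only [Matrix.conjTranspose_smul, Matrix.conjTranspose_mul, Matrix.smul_mul,
            Matrix.mul_smul, smul_smul, mul_comm ω (star ω), hω1, one_smul]
          rw [Matrix.mul_assoc, Matrix.mul_assoc, ← Matrix.mul_add, ← Matrix.mul_assoc Vᴴ,
            ← Matrix.mul_assoc Dᴴ, ← Matrix.add_mul, hD, add_sub_cancel, Matrix.one_mul]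
        simp [gam_fromRows, gam_zero, this, hFdef, hGdef, completeInst, gam_padded, hv₀]
      · obtain ⟨rfl, rfl⟩ := h2
        simp [gam_fromRows, gam_zero, a11, hFdef, hGdef, completeInst, gam_padded, hv₁]
      · simp [gam_fromRows, gam_zero]
      · simp [gam_fromRows, gam_zero]
    have hi : ip a11 a00 = (t : ℂ) := by
      simp only [a00, a11, ip_fromRows, ip_zero_left, add_zero]
      rw [hv₀, hv₁, hsc, hsc, Matrix.mul_smul, smul_smul]
      have e : ∀ (α β : ℂ) (x y : Matrix (Fin k × Fin l) E ℂ),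
          ip (α • x) (β • y) = star α * β * ip x y := by
        intro α β x y
        simp only [ip, Matrix.smul_apply, smul_eq_mul, star_mul', mul_sum]
        exact sum_congr rfl fun i _ => sum_congr rfl fun j _ => by ring
      rw [e, ← trace_rewrite V _ _ ρ R hR, ← hz]
      calc star (u * w) * (ω * (u * w)) * z = (u * u) * (w * w) * (ω * z) := by
            rw [star_mul', hu, hw, hstar, hstar]; ring
        _ = (t : ℂ) := by
            rw [hωz, hu, hw, ← Complex.ofReal_mul, ← Complex.ofReal_mul, Real.mul_self_sqrt hc.le,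
              Real.mul_self_sqrt hd.le, ht]
            push_cast; ring
    have hi' : ip a00 a11 = (t : ℂ) := by
      have : ip a00 a11 = star (ip a11 a00) := by
        simp only [ip, star_sum, star_mul', star_star]
        exact sum_congr rfl fun i _ => sum_congr rfl fun j _ => mul_comm _ _
      rw [this, hi]; exact Complex.conj_ofReal t
    refine ⟨hgam, fun a b => ?_, ?_, ?_, ?_, ?_⟩
    · have h1 := congrArg Matrix.trace (hgam a b)
      rw [gam_trace, gam_trace] at h1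
      rw [Complex.ofReal_inj.1 h1, nsq_filter ρ R hR]
    · simpa [ip_fromRows, ip_zero_left, show (1 : ZMod 2) ≠ 0 by decide] using hi'
    · simpa [ip_fromRows, ip_zero_left, show (1 : ZMod 2) ≠ 0 by decide] using hi
    · simp [ip_fromRows, ip_zero_left, ip_zero_right, show (1 : ZMod 2) ≠ 0 by decide]
    · simp [ip_fromRows, ip_zero_left, ip_zero_right, show (1 : ZMod 2) ≠ 0 by decide]
  have hta : t ^ 2 ≤ p (some 0) (some 0) * p (some 1) (some 1) := by
    obtain ⟨J, _, ψ, -, hn, hi, -⟩ := dil (A × B) R0ᴴ hR0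
    have := norm_ip_le (ψ (some 0) (some 0)) (ψ (some 1) (some 1))
    rw [hi, hn, hn, Complex.norm_real, Real.norm_eq_abs, abs_of_pos ht0,
      ← Real.sqrt_mul (hpn _ _)] at this
    exact (Real.le_sqrt ht0.le (mul_nonneg (hpn _ _) (hpn _ _))).1 this
  refine ⟨⟨k, l, F, G, hF, hG, p, t, hpn, hp1, ht0, hta, ?_, dil⟩⟩
  rw [hp00, hp11, hp01, hp10, ht, mul_pow]
  have : 0 < (c * d) ^ 4 := by positivity
  nlinarith

end Vale.P372
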