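import Vale.Agent.P372.Defs
import Mathlib

/-!
# P372: the trace norm of the definitions is the usual one on Hermitian matrices

For Hermitian `X` the supremum of `|tr (U X)|` over unitaries is the sum of the absolute
eigenvalues, which is `tr √(Xᴴ X)`. Every block of a final state is Hermitian.
-/

namespace Vale.P372

open Matrix
open scoped Kronecker ComplexOrder MatrixOrder

variable {E : Type} [Fintype E] [DecidableEq E]

lemma exists_spectral {X : Matrix E E ℂ} (hX : X.IsHermitian) :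
    ∃ W : Matrix E E ℂ, W ∈ Matrix.unitaryGroup E ℂ ∧
      X = W * Matrix.diagonal (fun i => ((hX.eigenvalues i : ℝ) : ℂ)) * Wᴴ := by
  refine ⟨hX.eigenvectorUnitary, hX.eigenvectorUnitary.2, ?_⟩
  conv_lhs => rw [hX.spectral_theorem]
  rfl

theorem traceNorm_eq_sum_abs {X : Matrix E E ℂ} (hX : X.IsHermitian) :
    traceNorm X = ∑ i, |hX.eigenvalues i| := by
  obtain ⟨W, hW, hXW⟩ := exists_spectral hX
  set μ := hX.eigenvalues
  have hWW : Wᴴ * W = 1 := Matrix.mem_unitaryGroup_iff'.1 hW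
  have hWs : Wᴴ ∈ Matrix.unitaryGroup E ℂ := Unitary.star_mem hW
  have htr : ∀ U : Matrix E E ℂ, (U * X).trace = ∑ i, (Wᴴ * U * W) i i * (μ i : ℂ) := by
    intro U
    rw [hXW, ← Matrix.mul_assoc, Matrix.trace_mul_comm, ← Matrix.mul_assoc, ← Matrix.mul_assoc]
    simp [Matrix.trace, Matrix.mul_diagonal]
  have hle : ∀ U : Matrix.unitaryGroup E ℂ, ‖((U : Matrix E E ℂ) * X).trace‖ ≤ ∑ i, |μ i| := by
    intro U
    rw [htr]
    refine (norm_sum_le _ _).trans (Finset.sum_le_sum fun i _ => ?_)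
    rw [norm_mul, Complex.norm_real, Real.norm_eq_abs]
    exact mul_le_of_le_one_left (abs_nonneg _)
      (entry_norm_bound_of_unitary (mul_mem (mul_mem hWs U.2) hW) i i)
  refine le_antisymm (ciSup_le hle) ?_
  set d : E → ℂ := fun i => if 0 ≤ μ i then 1 else -1 with hd
  have hD : Matrix.diagonal d ∈ Matrix.unitaryGroup E ℂ := by
    rw [Matrix.mem_unitaryGroup_iff', Matrix.star_eq_conjTranspose, Matrix.diagonal_conjTranspose,
      Matrix.diagonal_mul_diagonal, ← Matrix.diagonal_one]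
    congr 1
    funext i
    simp only [hd, Pi.star_apply]
    split_ifs <;> simp
  refine le_trans (le_of_eq ?_) (le_ciSup ⟨_, Set.forall_mem_range.2 hle⟩
    (⟨W * Matrix.diagonal d * Wᴴ, mul_mem (mul_mem hW hD) hWs⟩ : Matrix.unitaryGroup E ℂ))
  have e : Wᴴ * (W * Matrix.diagonal d * Wᴴ) * W = Matrix.diagonal d := by
    simp only [Matrix.mul_assoc, hWW, Matrix.mul_one]
    rw [← Matrix.mul_assoc, hWW, Matrix.one_mul]
  rw [htr, e]
  have : ∀ i, Matrix.diagonal d i i * (μ i : ℂ) = ((|μ i| : ℝ) : ℂ) := fun i => by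
    rw [Matrix.diagonal_apply_eq, hd]
    by_cases h : 0 ≤ μ i
    · simp [h, abs_of_nonneg h]
    · simp [h, abs_of_neg (lt_of_not_ge h)]
  rw [Finset.sum_congr rfl fun i _ => this i, ← Complex.ofReal_sum, Complex.norm_real,
    Real.norm_of_nonneg (Finset.sum_nonneg fun i _ => abs_nonneg _)]

/-- On Hermitian matrices the trace norm is `tr √(Xᴴ X)`. -/
theorem traceNorm_eq_trace_sqrt {X : Matrix E E ℂ} (hX : X.IsHermitian) :
    traceNorm X = (CFC.sqrt (Xᴴ * X)).trace.re := by
  rw [traceNorm_eq_sum_abs hX]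
  obtain ⟨W, hW, hXW⟩ := exists_spectral hX
  set μ := hX.eigenvalues
  have hWW : Wᴴ * W = 1 := Matrix.mem_unitaryGroup_iff'.1 hW
  set R := W * Matrix.diagonal (fun i => ((|μ i| : ℝ) : ℂ)) * Wᴴ with hR
  have hR0 : R.PosSemidef := Matrix.PosSemidef.mul_mul_conjTranspose_same
    (Matrix.posSemidef_diagonal_iff.2 fun i => Complex.zero_le_real.2 (abs_nonneg _)) W
  have hsq : R * R = Xᴴ * X := by
    rw [hX.eq, hXW, hR]
    simp only [Matrix.mul_assoc]
    rw [← Matrix.mul_assoc Wᴴ W, hWW, Matrix.one_mul, ← Matrix.mul_assoc Wᴴ W, hWW,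
      Matrix.one_mul, ← Matrix.mul_assoc (Matrix.diagonal _) (Matrix.diagonal _),
      Matrix.diagonal_mul_diagonal, ← Matrix.mul_assoc (Matrix.diagonal _) (Matrix.diagonal _),
      Matrix.diagonal_mul_diagonal]
    congr 3
    funext i
    rw [← Complex.ofReal_mul, abs_mul_abs_self, Complex.ofReal_mul]
  rw [CFC.sqrt_unique hsq hR0.nonneg, hR, Matrix.trace_mul_comm, ← Matrix.mul_assoc, hWW,
    Matrix.one_mul, Matrix.trace_diagonal, Complex.re_sum]
  simp

/-- Every positive semidefinite matrix has a purification, so the quantifier over purifications in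
`HasPositiveKey` is never empty for a state. -/
theorem exists_purification {X : Matrix E E ℂ} (hX : X.PosSemidef) :
    ∃ R : Matrix E E ℂ, R * Rᴴ = X := by
  obtain ⟨B, hB⟩ := CStarAlgebra.nonneg_iff_eq_star_mul_self.mp hX.nonneg
  exact ⟨Bᴴ, by rw [Matrix.conjTranspose_conjTranspose]; exact hB.symm⟩

omit [Fintype E] in
/-- All blocks of a final state are positive semidefinite, in particular Hermitian. -/
theorem eveState_posSemidef [Finite E] {ℓ : ℕ} {A B : Type} (P : Proto ℓ A B)
    (Ψ : Matrix (A × B) E ℂ) (l : P.Leaf) (kA kB : Key ℓ) :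
    (P.eveState Ψ l kA kB).PosSemidef := by
  induction P with
  | final MA MB hA hB =>
    exact (((hA.1 kA).kronecker (hB.1 kB)).conjTranspose_mul_mul_same Ψ).transpose
  | alice T A' K hK next ih =>
    obtain ⟨t, l'⟩ := l
    exact ih t _ l'
  | bob T B' K hK next ih =>
    obtain ⟨t, l'⟩ := l
    exact ih t _ l'

end Vale.P372
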