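import Vale.Agent.P372.Fisher
import Vale.Agent.P372.TraceNorm
import Vale.Agent.P372.Setup

/-!
# P372: the criterion on some number of copies is necessary

A transcript of a protocol that leaves one key bit with small error gives product filters. Eve's two
conditional states are then close, and the inequality of Powers and Stormer turns this into
coherence between the agreeing outcomes.
-/

namespace Vale.P372

open Matrix
open scoped Kronecker ComplexOrder BigOperators

/-- The tensor power of `ρ`, with the systems of Alice and of Bob grouped. -/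
def power {A B : Type} (ρ : Matrix (A × B) (A × B) ℂ) (n : ℕ) :
    Matrix ((Fin n → A) × (Fin n → B)) ((Fin n → A) × (Fin n → B)) ℂ :=
  fun x y => ∏ i, ρ (x.1 i, x.2 i) (y.1 i, y.2 i)

lemma copies_mul_conjTranspose {A B E : Type} [Fintype E] {ρ : Matrix (A × B) (A × B) ℂ}
    {R : Matrix (A × B) E ℂ} (hR : R * Rᴴ = ρ) (n : ℕ) :
    copies R n * (copies R n)ᴴ = power ρ n := by
  classical
  ext x y
  simp only [Matrix.mul_apply, Matrix.conjTranspose_apply, power, copies, ← hR, star_prod,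
    ← Finset.prod_mul_distrib, Fintype.prod_sum]

lemma power_isState {A B : Type} [Fintype A] [Fintype B] {ρ : Matrix (A × B) (A × B) ℂ}
    (hρ : IsState ρ) (n : ℕ) : IsState (power ρ n) := by
  classical
  obtain ⟨R, hR⟩ := exists_purification hρ.1
  refine ⟨?_, ?_⟩
  · rw [← copies_mul_conjTranspose hR]
    exact posSemidef_self_mul_conjTranspose _
  · have h : ∑ p : A × B, ρ p p = 1 := hρ.2
    calc (power ρ n).trace = ∑ f : Fin n → A × B, ∏ i, ρ (f i) (f i) :=
          (Equiv.sum_comp (Equiv.arrowProdEquivProdArrow (Fin n) (fun _ => A) (fun _ => B))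
            fun x => power ρ n x x).symm
      _ = 1 := (Fintype.prod_sum fun (_ : Fin n) (p : A × B) => ρ p p).symm.trans
          (Finset.prod_eq_one fun i _ => h)

/-- A transcript acts by product effects. -/
lemma leaf_effects {ℓ : ℕ} {A B : Type} (P : Proto ℓ A B) : ∀ [Fintype A] [Fintype B] (l : P.Leaf),
    ∃ (FA : Key ℓ → Matrix A A ℂ) (FB : Key ℓ → Matrix B B ℂ),
      (∀ k, (FA k).PosSemidef) ∧ (∀ k, (FB k).PosSemidef) ∧
      ∀ {E : Type} [DecidableEq E] (Ψ : Matrix (A × B) E ℂ) (kA kB : Key ℓ),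
        P.eveState Ψ l kA kB = (Ψᴴ * (FA kA ⊗ₖ FB kB) * Ψ)ᵀ := by
  induction P with
  | final MA MB hA hB =>
    rename_i A B fA fB dA dB
    intro i1 i2 l
    obtain rfl := Subsingleton.elim i1 fA
    obtain rfl := Subsingleton.elim i2 fB
    exact ⟨MA, MB, hA.1, hB.1, fun Ψ kA kB => rfl⟩
  | alice T A' K hK next ih =>
    rename_i A B fA fB dA dB fT fA'
    intro i1 i2 l
    obtain rfl := Subsingleton.elim i1 fA
    obtain rfl := Subsingleton.elim i2 fB
    obtain ⟨t, l'⟩ := l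
    obtain ⟨FA, FB, hFA, hFB, h⟩ := ih t l'
    refine ⟨fun k => (K t)ᴴ * FA k * K t, FB, fun k => (hFA k).conjTranspose_mul_mul_same (K t),
      hFB, fun Ψ kA kB => (h ((K t ⊗ₖ 1) * Ψ) kA kB).trans ?_⟩
    congr 1
    have e : ((K t ⊗ₖ (1 : Matrix B B ℂ)) * Ψ)ᴴ * (FA kA ⊗ₖ FB kB) * ((K t ⊗ₖ (1 : Matrix B B ℂ)) * Ψ) =
        Ψᴴ * (((K t ⊗ₖ (1 : Matrix B B ℂ))ᴴ * (FA kA ⊗ₖ FB kB) * (K t ⊗ₖ (1 : Matrix B B ℂ)))) * Ψ := by
      simp only [Matrix.conjTranspose_mul, Matrix.mul_assoc]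
    refine e.trans ?_
    rw [Matrix.conjTranspose_kronecker, Matrix.conjTranspose_one, ← Matrix.mul_kronecker_mul,
      ← Matrix.mul_kronecker_mul, Matrix.one_mul, Matrix.mul_one]
  | bob T B' K hK next ih =>
    rename_i A B fA fB dA dB fT fB'
    intro i1 i2 l
    obtain rfl := Subsingleton.elim i1 fA
    obtain rfl := Subsingleton.elim i2 fB
    obtain ⟨t, l'⟩ := l
    obtain ⟨FA, FB, hFA, hFB, h⟩ := ih t l'
    refine ⟨FA, fun k => (K t)ᴴ * FB k * K t, hFA,
      fun k => (hFB k).conjTranspose_mul_mul_same (K t),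
      fun Ψ kA kB => (h ((1 ⊗ₖ K t) * Ψ) kA kB).trans ?_⟩
    congr 1
    have e : (((1 : Matrix A A ℂ) ⊗ₖ K t) * Ψ)ᴴ * (FA kA ⊗ₖ FB kB) * (((1 : Matrix A A ℂ) ⊗ₖ K t) * Ψ) =
        Ψᴴ * ((((1 : Matrix A A ℂ) ⊗ₖ K t)ᴴ * (FA kA ⊗ₖ FB kB) * ((1 : Matrix A A ℂ) ⊗ₖ K t))) * Ψ := by
      simp only [Matrix.conjTranspose_mul, Matrix.mul_assoc]
    refine e.trans ?_
    rw [Matrix.conjTranspose_kronecker, Matrix.conjTranspose_one, ← Matrix.mul_kronecker_mul,
      ← Matrix.mul_kronecker_mul, Matrix.one_mul, Matrix.mul_one]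

section Coherence

variable {E J : Type} [Fintype E] [DecidableEq E] [Fintype J] [DecidableEq J]

lemma traceNorm_transpose_le (X : Matrix E E ℂ) : traceNorm Xᵀ ≤ traceNorm X := by
  refine traceNorm_le fun U => ?_
  have hU : (U : Matrix E E ℂ)ᵀ ∈ Matrix.unitaryGroup E ℂ := by
    rw [Matrix.mem_unitaryGroup_iff, Matrix.star_eq_conjTranspose,
      show ((U : Matrix E E ℂ)ᵀ)ᴴ = ((U : Matrix E E ℂ)ᴴ)ᵀ from rfl, ← Matrix.transpose_mul,
      show (U : Matrix E E ℂ)ᴴ * (U : Matrix E E ℂ) = 1 from Unitary.star_mul_self_of_mem U.2,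
      Matrix.transpose_one]
  have e : ((U : Matrix E E ℂ) * Xᵀ).trace = ((U : Matrix E E ℂ)ᵀ * X).trace := by
    rw [← Matrix.trace_transpose, Matrix.transpose_mul, Matrix.transpose_transpose,
      Matrix.trace_mul_comm]
  rw [e]
  exact le_traceNorm X ⟨_, hU⟩

lemma conj_diag_mul {W : Matrix E E ℂ} (hW : Wᴴ * W = 1) (a b : E → ℂ) :
    W * diagonal a * Wᴴ * (W * diagonal b * Wᴴ) = W * diagonal (fun i => a i * b i) * Wᴴ := by
  rw [← diagonal_mul_diagonal]
  simp only [Matrix.mul_assoc]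
  rw [← Matrix.mul_assoc Wᴴ W, hW, Matrix.one_mul]

/-- Square root, inverse square root and support of a positive semidefinite matrix. -/
lemma exists_sqrt_inv {S : Matrix E E ℂ} (hS : S.PosSemidef) :
    ∃ r g : Matrix E E ℂ, r.PosSemidef ∧ r * r = S ∧ gᴴ = g ∧ g * S = r ∧ S * g = r ∧
      g * S * g * g = g ∧ (1 - g * S * g).PosSemidef := by
  obtain ⟨W, hW, hSW⟩ := exists_spectral hS.1
  set μ := hS.1.eigenvalues
  have hμ : ∀ i, 0 ≤ μ i := hS.eigenvalues_nonneg
  have hW1 : Wᴴ * W = 1 := Matrix.mem_unitaryGroup_iff'.1 hW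
  have hW2 : W * Wᴴ = 1 := Matrix.mem_unitaryGroup_iff.1 hW
  let f : (E → ℝ) → Matrix E E ℂ := fun d => W * diagonal (fun i => (d i : ℂ)) * Wᴴ
  have hmul : ∀ a b, f a * f b = f fun i => a i * b i := fun a b => by
    simp only [f, conj_diag_mul hW1]; push_cast; rfl
  have hpos : ∀ d : E → ℝ, (∀ i, 0 ≤ d i) → (f d).PosSemidef := fun d hd =>
    (Matrix.posSemidef_diagonal_iff.2 fun i => Complex.zero_le_real.2 (hd i)).mul_mul_conjTranspose_same W
  have hSf : S = f μ := hSW
  have key : ∀ i, (√(μ i))⁻¹ * μ i = √(μ i) := fun i => by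
    rcases eq_or_ne (√(μ i)) 0 with h | h
    · rw [h, _root_.inv_zero, zero_mul]
    · field_simp
      rw [Real.sq_sqrt (hμ i)]
  refine ⟨f fun i => √(μ i), f fun i => (√(μ i))⁻¹, hpos _ fun i => Real.sqrt_nonneg _, ?_,
    (hpos _ fun i => by positivity).1.eq, ?_, ?_, ?_, ?_⟩
  · rw [hmul, hSf]; congr 1; funext i; exact Real.mul_self_sqrt (hμ i)
  · rw [hSf, hmul]; congr 1; funext i; exact key i
  · rw [hSf, hmul]; congr 1; funext i; rw [mul_comm]; exact key i
  · rw [hSf, hmul, hmul, hmul]; congr 1; funext i; rw [key]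
    rcases eq_or_ne (√(μ i)) 0 with h | h
    · rw [h]; simp
    · field_simp
  · have h1 : (1 : Matrix E E ℂ) = f fun _ => 1 := by simp [f, hW2]
    rw [h1, hSf, hmul, hmul, show f (fun _ => 1) - f (fun i => (√(μ i))⁻¹ * μ i * (√(μ i))⁻¹) =
      f fun i => 1 - (√(μ i))⁻¹ * μ i * (√(μ i))⁻¹ by
        simp only [f, ← Matrix.sub_mul, ← Matrix.mul_sub, diagonal_sub]; push_cast; rfl]
    refine hpos _ fun i => ?_
    rw [key]
    rcases eq_or_ne (√(μ i)) 0 with h | h
    · rw [h]; simp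
    · rw [mul_inv_cancel₀ h, sub_self]

/-- The inequality of Powers and Stormer. -/
lemma powers_stormer {S₀ S₁ r₀ r₁ : Matrix E E ℂ} (h₀ : r₀.PosSemidef) (h₁ : r₁.PosSemidef)
    (e₀ : r₀ * r₀ = S₀) (e₁ : r₁ * r₁ = S₁) :
    (S₀.trace.re + S₁.trace.re - traceNorm (S₀ - S₁)) / 2 ≤ (r₀ * r₁).trace.re := by
  obtain ⟨W, hW, hDW⟩ := exists_spectral (h₀.1.sub h₁.1)
  set d := (h₀.1.sub h₁.1).eigenvalues
  have hW1 : Wᴴ * W = 1 := Matrix.mem_unitaryGroup_iff'.1 hW
  set sg : E → ℂ := fun i => if 0 ≤ d i then 1 else -1 with hsg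
  have hsgd : ∀ i, sg i * (d i : ℂ) = ((|d i| : ℝ) : ℂ) := fun i => by
    by_cases h : 0 ≤ d i
    · simp [hsg, h, abs_of_nonneg h]
    · simp [hsg, h, abs_of_neg (lt_of_not_ge h)]
  set U := W * diagonal sg * Wᴴ with hUdef
  have hU : U ∈ Matrix.unitaryGroup E ℂ := by
    refine mul_mem (mul_mem hW ?_) (Unitary.star_mem hW)
    rw [Matrix.mem_unitaryGroup_iff', Matrix.star_eq_conjTranspose, Matrix.diagonal_conjTranspose,
      Matrix.diagonal_mul_diagonal, ← Matrix.diagonal_one]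
    congr 1
    funext i
    simp only [hsg, Pi.star_apply]
    split_ifs <;> simp
  set T := Wᴴ * (r₀ + r₁) * W with hT
  set D := r₀ - r₁ with hD
  have hdiag : Wᴴ * D * W = diagonal fun i => (d i : ℂ) := by
    rw [hDW]; simp only [Matrix.mul_assoc, hW1, Matrix.mul_one]
    rw [← Matrix.mul_assoc, hW1, Matrix.one_mul]
  have habs : ∀ i, |d i| ≤ (T i i).re := fun i => by
    have p1 := Complex.nonneg_iff.1 ((h₀.conjTranspose_mul_mul_same W).diag_nonneg (i := i))
    have p2 := Complex.nonneg_iff.1 ((h₁.conjTranspose_mul_mul_same W).diag_nonneg (i := i))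
    have e := congrFun (congrFun hdiag i) i
    rw [hD, Matrix.mul_sub, Matrix.sub_mul, Matrix.sub_apply, Matrix.diagonal_apply_eq] at e
    have e' := congrArg Complex.re e
    rw [Complex.sub_re, Complex.ofReal_re] at e'
    rw [hT, Matrix.mul_add, Matrix.add_mul, Matrix.add_apply, Complex.add_re, abs_le]
    exact ⟨by linarith [p1.1, p2.1], by linarith [p1.1, p2.1]⟩
  have e2 : S₀ - S₁ = (2 : ℂ)⁻¹ • (D * (r₀ + r₁) + (r₀ + r₁) * D) := by
    rw [← e₀, ← e₁, hD]
    simp only [Matrix.mul_add, Matrix.add_mul, Matrix.mul_sub, Matrix.sub_mul]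
    match_scalars <;> norm_num
  have hUD : U * D = W * diagonal (fun i => ((|d i| : ℝ) : ℂ)) * Wᴴ := by
    rw [hUdef, hDW, conj_diag_mul hW1]; simp only [hsgd]
  have hDU : D * U = W * diagonal (fun i => ((|d i| : ℝ) : ℂ)) * Wᴴ := by
    rw [hUdef, hDW, conj_diag_mul hW1]; simp only [mul_comm _ (sg _), hsgd]
  have htr : (U * (S₀ - S₁)).trace = ∑ i, ((|d i| : ℝ) : ℂ) * T i i := by
    rw [e2, Matrix.mul_smul, Matrix.trace_smul, Matrix.mul_add, ← Matrix.mul_assoc,
      ← Matrix.mul_assoc, Matrix.trace_add, Matrix.trace_mul_cycle U (r₀ + r₁) D, hUD, hDU]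
    have : (W * diagonal (fun i => ((|d i| : ℝ) : ℂ)) * Wᴴ * (r₀ + r₁)).trace =
        ∑ i, ((|d i| : ℝ) : ℂ) * T i i := by
      rw [Matrix.mul_assoc, Matrix.mul_assoc, Matrix.trace_mul_comm, Matrix.mul_assoc, hT,
        Matrix.mul_assoc Wᴴ]
      simp [Matrix.trace, Matrix.diagonal_mul]
    rw [this, smul_eq_mul]; ring
  have hDD : (D * D).trace.re = ∑ i, d i ^ 2 := by
    rw [hDW, conj_diag_mul hW1, Matrix.trace_mul_comm, ← Matrix.mul_assoc, hW1, Matrix.one_mul,
      Matrix.trace_diagonal, Complex.re_sum]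
    exact Finset.sum_congr rfl fun i _ => by simp [sq]
  have hN : (D * D).trace.re ≤ traceNorm (S₀ - S₁) := by
    refine le_trans ?_ ((Complex.re_le_norm _).trans (le_traceNorm _ ⟨U, hU⟩))
    rw [htr, hDD, Complex.re_sum]
    refine Finset.sum_le_sum fun i _ => ?_
    rw [Complex.re_ofReal_mul, sq, ← abs_mul_abs_self (d i)]
    exact mul_le_mul_of_nonneg_left (habs i) (abs_nonneg _)
  rw [hD, Matrix.sub_mul, Matrix.mul_sub, Matrix.mul_sub, e₀, e₁, Matrix.trace_sub,
    Matrix.trace_sub, Matrix.trace_sub, Matrix.trace_mul_comm r₁ r₀] at hN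
  simp only [Complex.sub_re] at hN
  linarith

/-- Close Gram matrices of Eve give coherence, witnessed by a contraction of the shields. -/
theorem exists_coherence (C₀ C₁ : Matrix J E ℂ) :
    ∃ V : Matrix J J ℂ, (1 - Vᴴ * V).PosSemidef ∧
      ((C₀ᴴ * C₀).trace.re + (C₁ᴴ * C₁).trace.re - traceNorm (C₀ᴴ * C₀ - C₁ᴴ * C₁)) / 2 ≤
        ‖(V * (C₀ * C₁ᴴ)).trace‖ := by
  obtain ⟨r₀, g₀, hr₀, e₀, hg₀, hgS₀, -, hP₀, -⟩ :=
    exists_sqrt_inv (Matrix.posSemidef_conjTranspose_mul_self C₀)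
  obtain ⟨r₁, g₁, hr₁, e₁, hg₁, -, hSg₁, -, hc₁⟩ :=
    exists_sqrt_inv (Matrix.posSemidef_conjTranspose_mul_self C₁)
  refine ⟨C₁ * g₁ * g₀ * C₀ᴴ, ?_, ?_⟩
  · set Z := C₀ * g₀ with hZ
    set Q := Z * Zᴴ with hQ
    have hQQ : Q * Q = Q := by
      have e : Z * (Zᴴ * Z) = Z := by
        rw [hZ, Matrix.conjTranspose_mul, hg₀]
        calc C₀ * g₀ * (g₀ * C₀ᴴ * (C₀ * g₀)) = C₀ * (g₀ * (g₀ * (C₀ᴴ * C₀) * g₀)) := by
              simp only [Matrix.mul_assoc]
          _ = C₀ * g₀ := by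
              congr 1
              have := congrArg Matrix.conjTranspose hP₀
              simpa only [Matrix.conjTranspose_mul, Matrix.conjTranspose_conjTranspose, hg₀,
                Matrix.mul_assoc] using this
      rw [hQ, Matrix.mul_assoc, ← Matrix.mul_assoc Zᴴ, ← Matrix.mul_assoc, e]
    have hQH : Qᴴ = Q := by rw [hQ, Matrix.conjTranspose_mul, Matrix.conjTranspose_conjTranspose]
    have h1 : (1 - Q).PosSemidef := by
      have : 1 - Q = (1 - Q)ᴴ * (1 - Q) := by
        rw [Matrix.conjTranspose_sub, Matrix.conjTranspose_one, hQH, Matrix.mul_sub,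
          Matrix.sub_mul, Matrix.sub_mul, hQQ, Matrix.mul_one, Matrix.mul_one, Matrix.one_mul]
        abel
      rw [this]
      exact Matrix.posSemidef_conjTranspose_mul_self _
    have h2 : (C₁ * g₁ * g₀ * C₀ᴴ)ᴴ * (C₁ * g₁ * g₀ * C₀ᴴ) =
        Z * (g₁ * (C₁ᴴ * C₁) * g₁) * Zᴴ := by
      simp only [hZ, Matrix.conjTranspose_mul, Matrix.conjTranspose_conjTranspose, hg₀, hg₁,
        Matrix.mul_assoc]
    rw [h2, show 1 - Z * (g₁ * (C₁ᴴ * C₁) * g₁) * Zᴴ =
      (1 - Q) + Z * (1 - g₁ * (C₁ᴴ * C₁) * g₁) * Zᴴ by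
        rw [Matrix.mul_sub, Matrix.sub_mul, Matrix.mul_one, hQ]; abel]
    exact h1.add (hc₁.mul_mul_conjTranspose_same Z)
  · refine (powers_stormer hr₀ hr₁ e₀ e₁).trans ((le_of_eq ?_).trans (Complex.re_le_norm _))
    congr 1
    calc (r₀ * r₁).trace = (g₀ * (C₀ᴴ * C₀) * ((C₁ᴴ * C₁) * g₁)).trace := by rw [hgS₀, hSg₁]
      _ = (g₁ * (g₀ * (C₀ᴴ * C₀)) * (C₁ᴴ * C₁)).trace := by
          rw [← Matrix.mul_assoc, Matrix.trace_mul_comm, ← Matrix.mul_assoc]
      _ = (C₁ * g₁ * g₀ * C₀ᴴ * (C₀ * C₁ᴴ)).trace := by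
          rw [← Matrix.mul_assoc, Matrix.trace_mul_comm]
          simp only [Matrix.mul_assoc]

end Coherence

/-- One bit with error at most one tenth gives local filters for the two values of the bit: both
agreeing outcomes have about half the weight, the others little, and the coherence is large. -/
theorem exists_bit_filters {A B : Type} [Fintype A] [Fintype B] [DecidableEq A] [DecidableEq B]
    {ρ : Matrix (A × B) (A × B) ℂ} {ℓ : ℕ} (hℓ : 0 < ℓ) (P : Proto ℓ A B) {E : Type}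
    [Fintype E] [DecidableEq E] (R : Matrix (A × B) E ℂ) (hR : R * Rᴴ = ρ) {ε : ℝ}
    (hε : ε ≤ 1 / 10) (herr : P.HasError R ε) :
    ∃ (s : ℝ) (X : Bool → Matrix A A ℂ) (Y : Bool → Matrix B B ℂ)
      (V : Matrix (A × B) (A × B) ℂ), 0 < s ∧ (1 - Vᴴ * V).PosSemidef ∧
      (∀ a b, 0 ≤ weight ρ (X a) (Y b)) ∧
      weight ρ (X false) (Y false) ≤ 3 / 5 * s ∧ weight ρ (X true) (Y true) ≤ 3 / 5 * s ∧
      weight ρ (X false) (Y true) ≤ 1 / 10 * s ∧ weight ρ (X true) (Y false) ≤ 1 / 10 * s ∧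
      weight ρ (X false) (Y false) + weight ρ (X true) (Y true) + weight ρ (X false) (Y true) +
        weight ρ (X true) (Y false) ≤ 11 / 10 * s ∧
      2 / 5 * s ≤ ‖(V * ((X false ⊗ₖ Y false) * ρ * (X true ⊗ₖ Y true)ᴴ)).trace‖ := by
  classical
  obtain ⟨σ, hσ, hσ1, hsum⟩ := herr
  set err : P.Leaf → ℝ := fun l => ∑ kA, ∑ kB,
    traceNorm (P.eveState R l kA kB - if kA = kB then ((2 : ℂ) ^ ℓ)⁻¹ • σ l else 0) with herrdef
  -- a good transcript
  obtain ⟨l, hl0, hle⟩ : ∃ l, 0 < (σ l).trace.re ∧ err l ≤ (σ l).trace.re / 10 := by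
    by_contra hcon
    push Not at hcon
    have hτ : ∀ l, 0 ≤ (σ l).trace.re := fun l => (Complex.nonneg_iff.1 (hσ l).trace_nonneg).1
    have he0 : ∀ l, 0 ≤ err l := fun l =>
      Finset.sum_nonneg fun _ _ => Finset.sum_nonneg fun _ _ => traceNorm_nonneg _
    have h1 : ∑ l, (σ l).trace.re = 1 := by rw [← Complex.re_sum, hσ1, Complex.one_re]
    have hlt : ∑ l, (σ l).trace.re / 10 < ∑ l, err l := by
      obtain ⟨l, -, hl⟩ := Finset.exists_lt_of_sum_lt (f := fun _ => (0 : ℝ))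
        (s := (Finset.univ : Finset P.Leaf)) (g := fun l => (σ l).trace.re) (by simp [h1])
      refine Finset.sum_lt_sum (fun l _ => ?_) ⟨l, Finset.mem_univ l, hcon l hl⟩
      rcases (hτ l).eq_or_lt with h | h
      · rw [← h, zero_div]; exact he0 l
      · exact (hcon l h).le
    rw [← Finset.sum_div, h1] at hlt
    linarith
  obtain ⟨FA, FB, hFA, hFB, hF⟩ := leaf_effects P l
  let i₀ : Fin ℓ := ⟨0, hℓ⟩
  let half : Bool → Finset (Key ℓ) := fun a => Finset.univ.filter fun k => k i₀ = a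
  choose X hX using fun a => exists_gram (posSemidef_sum (half a) fun k _ => hFA k)
  choose Y hY using fun a => exists_gram (posSemidef_sum (half a) fun k _ => hFB k)
  let C : Bool → Bool → Matrix (A × B) E ℂ := fun a b => (X a ⊗ₖ Y b) * R
  let S : Bool → Bool → Matrix E E ℂ := fun a b =>
    ∑ k ∈ half a, ∑ k' ∈ half b, P.eveState R l k k'
  have hkron : ∀ (f : Key ℓ → Matrix A A ℂ) (g : Key ℓ → Matrix B B ℂ) (s t : Finset (Key ℓ)),
      (∑ k ∈ s, f k) ⊗ₖ (∑ k ∈ t, g k) = ∑ k ∈ s, ∑ k' ∈ t, f k ⊗ₖ g k' := fun f g s t => by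
    ext i j
    simp [Matrix.kroneckerMap_apply, Matrix.sum_apply, Finset.sum_mul, Finset.mul_sum]
    exact Finset.sum_comm
  have hS : ∀ a b, ((C a b)ᴴ * C a b)ᵀ = S a b := fun a b => by
    simp only [S, hF, ← Matrix.transpose_sum]
    congr 1
    rw [Matrix.conjTranspose_mul, Matrix.mul_assoc, ← Matrix.mul_assoc _ (X a ⊗ₖ Y b),
      Matrix.conjTranspose_kronecker, ← Matrix.mul_kronecker_mul, hX, hY, ← Matrix.mul_assoc,
      hkron]
    simp only [Matrix.mul_sum, Matrix.sum_mul]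
  let τ : Bool → Bool → Matrix E E ℂ := fun a b => if a = b then (2 : ℂ)⁻¹ • σ l else 0
  have hτeq : ∀ a b, τ a b =
      ∑ k ∈ half a, ∑ k' ∈ half b, if k = k' then ((2 : ℂ) ^ ℓ)⁻¹ • σ l else 0 := by
    intro a b
    simp only [Finset.sum_ite_eq, τ]
    rw [← Finset.sum_filter]
    by_cases hab : a = b
    · subst hab
      rw [if_pos rfl, Finset.filter_true_of_mem (fun k hk => hk), Finset.sum_const,
        ← Nat.cast_smul_eq_nsmul ℂ, smul_smul]
      have hcard : 2 * ((half a).card : ℂ) = 2 ^ ℓ := by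
        have h1 : (half true).card = (half false).card := by
          refine Finset.card_equiv ((Equiv.refl (Fin ℓ)).arrowCongr (Equiv.swap true false))
            fun k => ?_
          simp only [half, Finset.mem_filter, Finset.mem_univ, true_and, Equiv.arrowCongr_apply,
            Function.comp_apply, Equiv.refl_symm, Equiv.refl_apply]
          cases k i₀ <;> simp
        have h2 : (half true).card + (half false).card = 2 ^ ℓ := by
          have h3 := Finset.card_filter_add_card_filter_not (s := (Finset.univ : Finset (Key ℓ)))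
            (p := fun k => k i₀ = true)
          simpa [half] using h3
        have h4 : 2 * (half a).card = 2 ^ ℓ := by cases a <;> omega
        exact_mod_cast h4
      congr 1
      rw [← hcard]
      have : ((half a).card : ℂ) ≠ 0 := fun h => by
        rw [h, mul_zero] at hcard; exact pow_ne_zero ℓ two_ne_zero hcard.symm
      field_simp
    · rw [if_neg hab, Finset.filter_false_of_mem, Finset.sum_empty]
      intro k hk hk'
      exact hab ((Finset.mem_filter.1 hk).2.symm.trans (Finset.mem_filter.1 hk').2)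
  let e : Bool → Bool → ℝ := fun a b => traceNorm (S a b - τ a b)
  have he : e false false + e true true + e false true + e true false ≤ err l := by
    have h : ∀ a b, e a b ≤ ∑ k ∈ half a, ∑ k' ∈ half b, traceNorm (P.eveState R l k k' -
        if k = k' then ((2 : ℂ) ^ ℓ)⁻¹ • σ l else 0) := fun a b => by
      simp only [e, S, hτeq, ← Finset.sum_sub_distrib]
      exact (traceNorm_sum_le _ _).trans (Finset.sum_le_sum fun k _ => traceNorm_sum_le _ _)
    refine le_trans (add_le_add (add_le_add (add_le_add (h _ _) (h _ _)) (h _ _)) (h _ _))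
      (le_of_eq ?_)
    have split : ∀ g : Key ℓ → ℝ, ∑ k, g k = ∑ k ∈ half false, g k + ∑ k ∈ half true, g k := by
      intro g
      rw [← Finset.sum_filter_add_sum_filter_not Finset.univ (fun k => k i₀ = false)]
      simp [half]
    simp only [herrdef, split, Finset.sum_add_distrib]
    ring
  have htn : ∀ Z : Matrix E E ℂ, |Z.trace.re| ≤ traceNorm Z := fun Z => by
    refine (Complex.abs_re_le_norm _).trans ?_
    simpa using le_traceNorm Z 1
  have hw : ∀ a b, weight ρ (X a) (Y b) = (S a b).trace.re := fun a b => by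
    rw [← nsq_filter ρ R hR, ← hS, Matrix.trace_transpose, nsq_eq_re_trace, Matrix.trace_mul_comm]
  have hwe : ∀ a b, |weight ρ (X a) (Y b) - (τ a b).trace.re| ≤ e a b := fun a b => by
    rw [hw, ← Complex.sub_re, ← Matrix.trace_sub]
    exact htn _
  obtain ⟨V, hV, hVb⟩ := exists_coherence (C false false) (C true true)
  have hdiff : traceNorm ((C false false)ᴴ * C false false - (C true true)ᴴ * C true true) ≤
      e false false + e true true := by
    have h := traceNorm_transpose_le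
      (((C false false)ᴴ * C false false - (C true true)ᴴ * C true true)ᵀ)
    rw [Matrix.transpose_transpose, Matrix.transpose_sub, hS, hS] at h
    refine h.trans ?_
    rw [show S false false - S true true =
      (S false false - τ false false) - (S true true - τ true true) by simp [τ]]
    exact traceNorm_sub_le _ _
  have hCt : ∀ a b, ((C a b)ᴴ * C a b).trace.re = weight ρ (X a) (Y b) := fun a b => by
    rw [hw, ← hS, Matrix.trace_transpose]
  have hτd : ∀ a, (τ a a).trace.re = (σ l).trace.re / 2 := fun a => by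
    simp [τ, Matrix.trace_smul, Complex.mul_re]; ring
  have hτo : ∀ a b, a ≠ b → (τ a b).trace.re = 0 := fun a b h => by simp [τ, h]
  have hE : C false false * (C true true)ᴴ =
      (X false ⊗ₖ Y false) * ρ * (X true ⊗ₖ Y true)ᴴ := by
    simp only [C, Matrix.conjTranspose_mul, ← hR, Matrix.mul_assoc]
  rw [hCt, hCt, hE] at hVb
  have w00 := abs_le.1 (hwe false false)
  have w11 := abs_le.1 (hwe true true)
  have w01 := abs_le.1 (hwe false true)
  have w10 := abs_le.1 (hwe true false)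
  rw [hτd] at w00 w11
  rw [hτo _ _ (by decide)] at w01 w10
  have he0 : ∀ a b, 0 ≤ e a b := fun a b => traceNorm_nonneg _
  have wn : ∀ a b, 0 ≤ weight ρ (X a) (Y b) := fun a b => by
    rw [← nsq_filter ρ R hR]; exact nsq_nonneg _
  set s := (σ l).trace.re
  have := he0 false false
  have := he0 true true
  have := he0 false true
  have := he0 true false
  exact ⟨s, X, Y, V, hl0, hV, wn, by linarith, by linarith, by linarith, by linarith, by linarith,
    by linarith⟩

/-- One bit with error at most one tenth, by any protocol, gives the criterion. -/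
theorem keyCriterion_of_oneBit {A B : Type} [Fintype A] [Fintype B]
    {ρ : Matrix (A × B) (A × B) ℂ} {ℓ : ℕ} (hℓ : 0 < ℓ) (P : Proto ℓ A B) {E : Type}
    [Fintype E] [DecidableEq E] (R : Matrix (A × B) E ℂ) (hR : R * Rᴴ = ρ) {ε : ℝ}
    (hε : ε ≤ 1 / 10) (herr : P.HasError R ε) : KeyCriterion ρ := by
  classical
  obtain ⟨s, X, Y, V, hs, hV, wn, b00, b11, b01, b10, -, bc⟩ :=
    exists_bit_filters hℓ P R hR hε herr
  refine keyCriterion_of_witness (X false) (X true) (Y false) (Y true) V hV ?_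
  calc weight ρ (X false) (Y false) * weight ρ (X true) (Y true) * weight ρ (X false) (Y true) *
        weight ρ (X true) (Y false) ≤ 3 / 5 * s * (3 / 5 * s) * (1 / 10 * s) * (1 / 10 * s) :=
        mul_le_mul (mul_le_mul (mul_le_mul b00 b11 (wn _ _) (by positivity)) b01 (wn _ _)
          (by positivity)) b10 (wn _ _) (by positivity)
    _ < (2 / 5 * s) ^ 4 := by nlinarith [pow_pos hs 4]
    _ ≤ _ := pow_le_pow_left₀ (by positivity) bc 4

/-- Positive key needs the criterion on some number of copies. -/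
theorem exists_copies_keyCriterion {A B : Type} [Fintype A] [Fintype B]
    {ρ : Matrix (A × B) (A × B) ℂ} (hρ : IsState ρ) (h : HasPositiveKey ρ) :
    ∃ n, KeyCriterion (power ρ n) := by
  classical
  obtain ⟨δ, hδ, ℓ, P, hℓ, herr⟩ := h
  obtain ⟨R, hR⟩ := exists_purification hρ.1
  obtain ⟨ε, hε, hP⟩ := herr _ R hR
  obtain ⟨n, ⟨h1, h2⟩, h3⟩ := ((hℓ.and (hε.eventually (eventually_le_nhds
    (show (0 : ℝ) < 1 / 10 by norm_num)))).and (Filter.eventually_ge_atTop 1)).exists
  have hpos : 0 < ℓ n := by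
    have : (0 : ℝ) < δ * n := mul_pos hδ (by exact_mod_cast h3)
    exact_mod_cast this.trans_le h1
  exact ⟨n, keyCriterion_of_oneBit hpos (P n) _ (copies_mul_conjTranspose hR n) h2 (hP n)⟩

end Vale.P372
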