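import Vale.Agent.P372.Fourier
import Mathlib.Analysis.SpecialFunctions.Pow.Real

/-!
Privacy from a separated set of phase errors: the coset lemma.
-/

namespace Vale.P372

open Matrix Finset
open scoped BigOperators

lemma sum_comm4 {A B C D : Type*} {R : Type*} [AddCommMonoid R] (a : Finset A) (b : Finset B)
    (c : Finset C) (d : Finset D) (f : A → B → C → D → R) :
    ∑ i ∈ a, ∑ j ∈ b, ∑ k ∈ c, ∑ l ∈ d, f i j k l =
      ∑ k ∈ c, ∑ l ∈ d, ∑ i ∈ a, ∑ j ∈ b, f i j k l := by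
  rw [← sum_product' (f := fun i j => ∑ k ∈ c, ∑ l ∈ d, f i j k l), sum_comm]
  refine sum_congr rfl fun k _ => ?_
  rw [sum_comm]
  exact sum_congr rfl fun l _ => sum_product' a b fun i j => f i j k l

section Ip

variable {J E : Type} [Fintype J] [Fintype E]

lemma ip_sum_smul {α β : Type*} (s : Finset α) (t : Finset β) (a : α → ℂ) (b : β → ℂ)
    (f : α → Matrix J E ℂ) (g : β → Matrix J E ℂ) :
    ip (∑ i ∈ s, a i • f i) (∑ j ∈ t, b j • g j) =
      ∑ i ∈ s, ∑ j ∈ t, star (a i) * b j * ip (f i) (g j) := by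
  have h1 : ∀ j e, star ((∑ i ∈ s, a i • f i) j e) = ∑ i ∈ s, star (a i) * star (f i j e) := by
    intro j e; simp [Matrix.sum_apply, star_sum, mul_comm]
  have h2 : ∀ j e, (∑ i ∈ t, b i • g i) j e = ∑ i ∈ t, b i * g i j e := by
    intro j e; simp [Matrix.sum_apply]
  simp only [ip, h1, h2, sum_mul, mul_sum]
  rw [sum_comm4 (R := ℂ)]
  conv_lhs => rw [sum_comm]
  refine sum_congr rfl fun i _ => ?_
  refine sum_congr rfl fun k _ => ?_
  refine sum_congr rfl fun j _ => ?_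
  refine sum_congr rfl fun e _ => ?_
  ring

end Ip

variable {ι : Type} [Fintype ι] [DecidableEq ι]

/-- Product weight of a binary string. -/
def prodw (p : ZMod 2 → ℝ) (s : ι → ZMod 2) : ℝ := ∏ i, p (s i)

lemma sum_prodw (p : ZMod 2 → ℝ) : ∑ s : ι → ZMod 2, prodw p s = (p 0 + p 1) ^ Fintype.card ι := by
  simp only [prodw]
  rw [← Fintype.prod_sum fun _ t => p t]
  simp [show (univ : Finset (ZMod 2)) = {0, 1} from rfl]

/-- The phase weights belonging to an overlap `η`. -/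
noncomputable def phaseW (η : ℝ) (t : ZMod 2) : ℝ := if t = 0 then (1 + η) / 2 else (1 - η) / 2

/-- The overlap pattern. -/
def ovl (η : ℝ) (t : ZMod 2) : ℝ := if t = 0 then 1 else η

lemma phaseW_sum (η : ℝ) : phaseW η 0 + phaseW η 1 = 1 := by simp [phaseW]; ring

lemma phaseW_nonneg {η : ℝ} (h0 : 0 ≤ η) (h1 : η ≤ 1) (t : ZMod 2) : 0 ≤ phaseW η t := by
  unfold phaseW; split <;> linarith

lemma sum_chi_ovl (η : ℝ) (t : ι → ZMod 2) :
    ∑ z : ι → ZMod 2, chi (t ⬝ᵥ z) * ((prodw (ovl η) z : ℝ) : ℂ) =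
      2 ^ Fintype.card ι * ((prodw (phaseW η) t : ℝ) : ℂ) := by
  have e : ∀ z : ι → ZMod 2, chi (t ⬝ᵥ z) * ((prodw (ovl η) z : ℝ) : ℂ) =
      ∏ i, (chi (t i * z i) * ((ovl η (z i) : ℝ) : ℂ)) := by
    intro z; simp [prodw, dotProduct, chi_sum, prod_mul_distrib]
  rw [sum_congr rfl fun z _ => e z, ← Fintype.prod_sum fun i u => chi (t i * u) * ((ovl η u : ℝ) : ℂ)]
  rw [prodw, Complex.ofReal_prod, ← Finset.card_univ, ← prod_const, ← prod_mul_distrib]
  refine prod_congr rfl fun i _ => ?_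
  have h : ∀ a : ZMod 2, a = 0 ∨ a = 1 := by decide
  simp only [show (univ : Finset (ZMod 2)) = {0, 1} from rfl,
    sum_insert (show (0 : ZMod 2) ∉ ({1} : Finset (ZMod 2)) by decide), sum_singleton]
  rcases h (t i) with h | h <;> rw [h] <;> simp [chi, ovl, phaseW] <;> ring

variable {M : Type} [Fintype M] [DecidableEq M] {J E : Type} [Fintype J] [Fintype E]

/-- The Fourier components of a family of vectors. -/
noncomputable def comp (Φ : (ι → ZMod 2) → Matrix J E ℂ) (s : ι → ZMod 2) : Matrix J E ℂ :=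
  ((2 : ℂ) ^ Fintype.card ι)⁻¹ • ∑ x, chi (s ⬝ᵥ x) • Φ x

/-- Truncation of a family to a set of components. -/
noncomputable def trunc (Φ : (ι → ZMod 2) → Matrix J E ℂ) (T : Finset (ι → ZMod 2))
    (x : ι → ZMod 2) : Matrix J E ℂ := ∑ s ∈ T, chi (s ⬝ᵥ x) • comp Φ s

lemma trunc_univ (Φ : (ι → ZMod 2) → Matrix J E ℂ) (x : ι → ZMod 2) :
    trunc Φ univ x = Φ x := by
  simp only [trunc, comp, smul_sum, smul_smul]
  rw [sum_comm]
  simp_rw [← sum_smul]
  have : ∀ y : ι → ZMod 2, ∑ s : ι → ZMod 2,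
      chi (s ⬝ᵥ x) * (((2 : ℂ) ^ Fintype.card ι)⁻¹ * chi (s ⬝ᵥ y)) = if x = y then 1 else 0 := by
    intro y
    have h := indicator_eq_sum_chi (x + y)
    simp only [add_eq_zero_iff_eq'] at h
    rw [h, mul_sum]
    refine sum_congr rfl fun s _ => ?_
    rw [add_dotProduct, chi_add, dotProduct_comm s x, dotProduct_comm s y]
    ring
  simp [this]

lemma ip_comp (Φ : (ι → ZMod 2) → Matrix J E ℂ) (η κ : ℝ)
    (hG : ∀ x y, ip (Φ x) (Φ y) = ((κ * prodw (ovl η) (x + y) : ℝ) : ℂ))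
    (s t : ι → ZMod 2) :
    ip (comp Φ s) (comp Φ t) = if s = t then ((κ * prodw (phaseW η) s : ℝ) : ℂ) else 0 := by
  simp only [comp, smul_sum, smul_smul]
  rw [ip_sum_smul]
  simp only [hG, star_mul', star_chi, star_inv₀, star_pow, star_ofNat]
  have e : ∀ x : ι → ZMod 2, ∑ y : ι → ZMod 2,
      ((2 : ℂ) ^ Fintype.card ι)⁻¹ * chi (s ⬝ᵥ x) * (((2 : ℂ) ^ Fintype.card ι)⁻¹ * chi (t ⬝ᵥ y)) *
        ((κ * prodw (ovl η) (x + y) : ℝ) : ℂ) =
      ((2 : ℂ) ^ Fintype.card ι)⁻¹ * chi ((s + t) ⬝ᵥ x) * ((κ : ℂ) * (prodw (phaseW η) t : ℝ)) := by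
    intro x
    rw [← Equiv.sum_comp (Equiv.addLeft x)]
    have : ∀ z : ι → ZMod 2, x + (x + z) = z := by
      intro z; rw [← add_assoc, add_eq_zero_iff_eq'.2 rfl, zero_add]
    simp only [Equiv.coe_addLeft, this, dotProduct_add, chi_add, add_dotProduct]
    have h := sum_chi_ovl η t
    calc ∑ z : ι → ZMod 2, ((2 : ℂ) ^ Fintype.card ι)⁻¹ * chi (s ⬝ᵥ x) *
          (((2 : ℂ) ^ Fintype.card ι)⁻¹ * (chi (t ⬝ᵥ x) * chi (t ⬝ᵥ z))) *
          ((κ * prodw (ovl η) z : ℝ) : ℂ)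
        = ((2 : ℂ) ^ Fintype.card ι)⁻¹ * chi (s ⬝ᵥ x) * ((2 : ℂ) ^ Fintype.card ι)⁻¹ *
          chi (t ⬝ᵥ x) * (κ : ℂ) * ∑ z : ι → ZMod 2, chi (t ⬝ᵥ z) * (prodw (ovl η) z : ℝ) := by
          rw [mul_sum]; exact sum_congr rfl fun z _ => by push_cast; ring
      _ = _ := by rw [h]; field_simp
  rw [sum_congr rfl fun x _ => e x]
  simp_rw [← sum_mul, ← mul_sum, sum_chi_dot, add_eq_zero_iff_eq']
  split_ifs with h
  · subst h; push_cast; field_simp
  · simp

/-- The main privacy lemma: for a set `T` of phase errors no two of which differ by a nonzero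
combination of rows of `L`, all fibres of `L` give Eve nearly the same state. -/
theorem coset_privacy [DecidableEq E] (L : Matrix M ι (ZMod 2))
    (Φ : (ι → ZMod 2) → Matrix J E ℂ) (η κ : ℝ) (hη0 : 0 ≤ η) (hη1 : η ≤ 1) (hκ : 0 ≤ κ)
    (hG : ∀ x y, ip (Φ x) (Φ y) = ((κ * prodw (ovl η) (x + y) : ℝ) : ℂ))
    (T : Finset (ι → ZMod 2))
    (hT : ∀ s ∈ T, ∀ v : M → ZMod 2, v ≠ 0 → s + v ᵥ* L ∉ T) :
    ∃ Γ : Matrix E E ℂ,
      ∑ c : M → ZMod 2, traceNorm (∑ x ∈ univ.filter (fun x => L *ᵥ x = c), gam (Φ x) - Γ) ≤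
        2 * (2 ^ Fintype.card ι * κ) * √(∑ s ∈ Tᶜ, prodw (phaseW η) s) := by
  have hp := phaseW_nonneg hη0 hη1
  have hpw : ∀ s : ι → ZMod 2, 0 ≤ prodw (phaseW η) s := fun s => prod_nonneg fun i _ => hp _
  have htot : ∑ s : ι → ZMod 2, prodw (phaseW η) s = 1 := by
    rw [sum_prodw, phaseW_sum, one_pow]
  have hn : ∀ (S : Finset (ι → ZMod 2)) (x : ι → ZMod 2),
      nsq (trunc Φ S x) = κ * ∑ s ∈ S, prodw (phaseW η) s := by
    intro S x
    have h : ((nsq (trunc Φ S x) : ℝ) : ℂ) =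
        ((κ * ∑ s ∈ S, prodw (phaseW η) s : ℝ) : ℂ) := by
      rw [← ip_self, trunc, ip_sum_smul]
      simp_rw [ip_comp Φ η κ hG, star_chi, mul_ite, mul_zero, sum_ite_eq]
      rw [Complex.ofReal_mul, Complex.ofReal_sum, mul_sum]
      refine sum_congr rfl fun s hs => ?_
      rw [if_pos hs, ← chi_add, show s ⬝ᵥ x + s ⬝ᵥ x = 0 from by
        generalize s ⬝ᵥ x = a; revert a; decide]
      simp [chi]
    exact_mod_cast h
  have hconst : ∀ c : M → ZMod 2,
      ∑ x ∈ univ.filter (fun x => L *ᵥ x = c), gam (trunc Φ T x) =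
        ((2 : ℂ) ^ Fintype.card ι / 2 ^ Fintype.card M) •
          ∑ s ∈ T, gam (comp Φ s) := by
    intro c
    ext a b
    simp only [Matrix.sum_apply, Matrix.smul_apply, gam_apply, smul_eq_mul, trunc, star_sum,
      star_mul', star_chi, sum_mul, mul_sum]
    rw [sum_congr rfl fun x _ => sum_comm, sum_comm]
    refine sum_congr rfl fun s hs => ?_
    rw [sum_congr rfl fun x _ => sum_comm, sum_comm]
    rw [sum_eq_single s]
    · rw [sum_comm]
      refine sum_congr rfl fun j _ => ?_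
      have hfib := sum_fibre_chi L c (0 : ι → ZMod 2)
      have hv : univ.filter (fun v : M → ZMod 2 => v ᵥ* L + 0 = 0) = {0} := by
        ext v
        simp only [mem_filter, mem_univ, true_and, add_zero, mem_singleton]
        refine ⟨fun h => ?_, fun h => by simp [h]⟩
        by_contra hv
        exact hT s hs v hv (by rw [h, add_zero]; exact hs)
      rw [hv] at hfib
      simp only [zero_dotProduct, sum_singleton, chi, if_true, mul_one] at hfib
      rw [← hfib, sum_mul]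
      refine sum_congr rfl fun x _ => ?_
      have hc : chi (s ⬝ᵥ x) * chi (s ⬝ᵥ x) = 1 := by unfold chi; split <;> simp
      linear_combination (star (comp Φ s j b) * comp Φ s j a) * hc
    · intro t ht hts
      rw [sum_comm]
      refine sum_eq_zero fun j _ => ?_
      have hfib := sum_fibre_chi L c (s + t)
      have hv : univ.filter (fun v : M → ZMod 2 => v ᵥ* L + (s + t) = 0) = ∅ := by
        ext v
        simp only [mem_filter, mem_univ, true_and, notMem_empty, iff_false]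
        intro h
        rw [add_eq_zero_iff_eq'] at h
        by_cases hv : v = 0
        · subst hv
          rw [Matrix.zero_vecMul, eq_comm, add_eq_zero_iff_eq'] at h
          exact hts h.symm
        · refine hT s hs v hv ?_
          rw [h, ← add_assoc, add_eq_zero_iff_eq'.2 rfl, zero_add]; exact ht
      rw [hv, sum_empty, mul_zero] at hfib
      calc _ = (∑ x ∈ univ.filter (fun x => L *ᵥ x = c), chi ((s + t) ⬝ᵥ x)) *
            (star (comp Φ t j b) * comp Φ s j a) := by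
            rw [sum_mul]; refine sum_congr rfl fun x _ => ?_
            rw [add_dotProduct, chi_add]; ring
        _ = 0 := by rw [hfib, zero_mul]
    · exact fun h => absurd hs h
  refine ⟨((2 : ℂ) ^ Fintype.card ι / 2 ^ Fintype.card M) • ∑ s ∈ T, gam (comp Φ s), ?_⟩
  refine le_trans (sum_le_sum (g := fun c => ∑ x ∈ univ.filter (fun x => L *ᵥ x = c),
    traceNorm (gam (Φ x) - gam (trunc Φ T x))) fun c _ => ?_) ?_
  · rw [← hconst c, ← sum_sub_distrib]
    exact traceNorm_sum_le _ _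
  rw [sum_fiberwise univ (fun x => L *ᵥ x) fun x => traceNorm (gam (Φ x) - gam (trunc Φ T x))]
  have hbound : ∀ x : ι → ZMod 2, traceNorm (gam (Φ x) - gam (trunc Φ T x)) ≤
      2 * κ * √(∑ s ∈ Tᶜ, prodw (phaseW η) s) := by
    intro x
    refine (traceNorm_gam_sub_le _ _).trans ?_
    have hd : Φ x - trunc Φ T x = trunc Φ Tᶜ x := by
      rw [sub_eq_iff_eq_add]
      conv_lhs => rw [← trunc_univ Φ x]
      simp only [trunc]
      exact (sum_compl_add_sum T _).symm
    rw [hd, hn]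
    conv_lhs => rw [← trunc_univ Φ x, hn, hn, htot, mul_one]
    have hle : ∑ s ∈ T, prodw (phaseW η) s ≤ 1 := by
      rw [← htot]; exact sum_le_univ_sum_of_nonneg hpw
    have h1 : √(κ * ∑ s ∈ T, prodw (phaseW η) s) ≤ √κ :=
      Real.sqrt_le_sqrt (mul_le_of_le_one_right hκ hle)
    calc √(κ * ∑ s ∈ Tᶜ, prodw (phaseW η) s) * (√κ + √(κ * ∑ s ∈ T, prodw (phaseW η) s))
        ≤ √κ * √(∑ s ∈ Tᶜ, prodw (phaseW η) s) * (√κ + √κ) := by
          rw [Real.sqrt_mul hκ]; gcongr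
      _ = _ := by
          linear_combination (2 * √(∑ s ∈ Tᶜ, prodw (phaseW η) s)) * Real.mul_self_sqrt hκ
  refine (sum_le_sum fun x _ => hbound x).trans (le_of_eq ?_)
  simp only [sum_const, card_univ, Fintype.card_fun, ZMod.card, nsmul_eq_mul]
  push_cast; ring

end Vale.P372
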