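import Vale.Agent.P372.Product

/-!
# P372: a kernel product vector leaves no crossed coherence unless there is key

If `ρ (a ⊗ b) = 0` and `⟨a ⊗ y|ρ|x ⊗ b⟩ ≠ 0`, local filters bring `ρ` arbitrarily close to a
two-qubit state on `|01⟩, |10⟩` with a coherence, which violates the uncertainty relation.
-/

namespace Vale.P372

open Matrix Filter Topology
open scoped Kronecker ComplexOrder

variable {A B : Type} [Fintype A] [Fintype B]

/-- The criterion does not depend on which side is called Alice. -/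
theorem KeyCriterion.of_swap {ρ : Matrix (A × B) (A × B) ℂ}
    (h : KeyCriterion (ρ.submatrix Prod.swap Prod.swap)) : KeyCriterion ρ := by
  obtain ⟨k, l, X₀, X₁, Y₀, Y₁, V, hV, hlt⟩ := h
  have hconj : ∀ (X X' : Matrix (Fin k) B ℂ) (Y Y' : Matrix (Fin l) A ℂ),
      (Y ⊗ₖ X) * ρ * (Y' ⊗ₖ X')ᴴ =
        ((X ⊗ₖ Y) * ρ.submatrix Prod.swap Prod.swap * (X' ⊗ₖ Y')ᴴ).submatrix
          (Equiv.prodComm (Fin l) (Fin k)) (Equiv.prodComm (Fin l) (Fin k)) := by
    intro X X' Y Y'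
    have e : ∀ (X : Matrix (Fin k) B ℂ) (Y : Matrix (Fin l) A ℂ), Y ⊗ₖ X =
        (X ⊗ₖ Y).submatrix (Equiv.prodComm (Fin l) (Fin k)) (Equiv.prodComm A B) := fun X Y => by
      ext i j; simp [mul_comm]
    have eρ : ρ = (ρ.submatrix Prod.swap Prod.swap).submatrix (Equiv.prodComm A B)
        (Equiv.prodComm A B) := by ext i j; rfl
    rw [e, e]
    conv_lhs => arg 1; arg 2; rw [eρ]
    rw [Matrix.conjTranspose_submatrix, Matrix.submatrix_mul_equiv, Matrix.submatrix_mul_equiv]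
  have htr : ∀ M : Matrix (Fin k × Fin l) (Fin k × Fin l) ℂ,
      (M.submatrix (Equiv.prodComm (Fin l) (Fin k)) (Equiv.prodComm (Fin l) (Fin k))).trace =
        M.trace := fun M => Equiv.sum_comp (Equiv.prodComm (Fin l) (Fin k)) fun i => M i i
  refine ⟨l, k, Y₀, Y₁, X₀, X₁, V.submatrix (Equiv.prodComm (Fin l) (Fin k))
    (Equiv.prodComm (Fin l) (Fin k)), ?_, ?_⟩
  · rw [Matrix.conjTranspose_submatrix, Matrix.submatrix_mul_equiv,
      ← Matrix.submatrix_one_equiv (Equiv.prodComm (Fin l) (Fin k))]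
    exact hV.submatrix _
  · simp only [weight] at hlt ⊢
    simp only [hconj, Matrix.submatrix_mul_equiv, htr]
    convert hlt using 1
    ring

/-- The two-qubit gap: coherence between `|01⟩` and `|10⟩` with no weight on `|00⟩`, `|11⟩`. -/
lemma two_qubit_gap {M : Matrix (Fin 2 × Fin 2) (Fin 2 × Fin 2) ℂ} {p q : ℝ} {c : ℂ}
    (hc : c ≠ 0) (hpq : 0 ≤ p + q)
    (h0 : ∀ i, M (0, 0) i = 0 ∧ M i (0, 0) = 0 ∧ M (1, 1) i = 0 ∧ M i (1, 1) = 0)
    (hp : M (0, 1) (0, 1) = p) (hq : M (1, 0) (1, 0) = q) (hpc : M (0, 1) (1, 0) = c)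
    (hqc : M (1, 0) (0, 1) = star c) :
    ∃ (S T : Matrix (Fin 2) (Fin 2) ℂ) (H : Matrix (Fin 2 × Fin 2) (Fin 2 × Fin 2) ℂ),
      S.IsHermitian ∧ T.IsHermitian ∧ H.IsHermitian ∧
      4 * (M * (H * H)).trace.re *
          ((M * ((S * S) ⊗ₖ 1)).trace.re + (M * (1 ⊗ₖ (T * T))).trace.re) <
        ‖(M * (H * (S ⊗ₖ 1 + 1 ⊗ₖ T) - (S ⊗ₖ 1 + 1 ⊗ₖ T) * H)).trace‖ ^ 2 := by
  set ω : ℂ := c / (‖c‖ : ℂ) with hω
  have hn : (‖c‖ : ℂ) ≠ 0 := by simpa using hc
  have hω1 : star ω * ω = 1 := by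
    rw [hω, Complex.star_def, map_div₀, Complex.conj_ofReal, div_mul_div_comm,
      Complex.conj_mul']
    field_simp
  have hω2 : star ω * c = (‖c‖ : ℂ) := by
    rw [hω, Complex.star_def, map_div₀, Complex.conj_ofReal, div_mul_eq_mul_div,
      Complex.conj_mul']
    field_simp
  have hω3 : ω * star c = (‖c‖ : ℂ) := by
    have := congrArg star hω2
    simpa [mul_comm] using this
  set S : Matrix (Fin 2) (Fin 2) ℂ := !![0, ω; star ω, 0]
  set T : Matrix (Fin 2) (Fin 2) ℂ := !![0, 1; 1, 0]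
  set K := S ⊗ₖ (1 : Matrix (Fin 2) (Fin 2) ℂ) + (1 : Matrix (Fin 2) (Fin 2) ℂ) ⊗ₖ T with hK
  have hS : S.IsHermitian := by ext i j; fin_cases i <;> fin_cases j <;> simp [S]
  have hT : T.IsHermitian := by ext i j; fin_cases i <;> fin_cases j <;> simp [T]
  set H : Matrix (Fin 2 × Fin 2) (Fin 2 × Fin 2) ℂ := Matrix.of fun i j =>
    if i.1 = i.2 ∧ j.1 ≠ j.2 then Complex.I * K i j
    else if j.1 = j.2 ∧ i.1 ≠ i.2 then -(Complex.I * K i j) else 0 with hH
  have hKe : ∀ i j : Fin 2 × Fin 2, K i j =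
      (if i.2 = j.2 then S i.1 j.1 else 0) + (if i.1 = j.1 then T i.2 j.2 else 0) := fun i j => by
    simp [hK, Matrix.one_apply]
  refine ⟨S, T, H, hS, hT, ?_, ?_⟩
  · ext ⟨i, i'⟩ ⟨j, j'⟩
    fin_cases i <;> fin_cases i' <;> fin_cases j <;> fin_cases j' <;> simp [hH, hKe, S, T]
  set m : ℝ := 2 * (p + q) + 4 * ‖c‖ with hm
  have a00 := fun i => (h0 i).1
  have a11 := fun i => (h0 i).2.2.1
  have b00 := fun i => (h0 i).2.1
  have b11 := fun i => (h0 i).2.2.2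
  have w1 : (starRingEnd ℂ) ω * ω = 1 := hω1
  have w2 : (starRingEnd ℂ) ω * c = (‖c‖ : ℂ) := hω2
  have w3 : ω * (starRingEnd ℂ) c = (‖c‖ : ℂ) := hω3
  rw [← hK]
  have e1 : (M * ((S * S) ⊗ₖ 1)).trace = ((p + q : ℝ) : ℂ) := by
    simp [S, Matrix.trace, Matrix.mul_apply, Fintype.sum_prod_type, Fin.sum_univ_two,
      a00, a11, b00, b11, hp, hq, mul_comm ω]
    linear_combination (↑p + ↑q : ℂ) * w1
  have e2 : (M * (1 ⊗ₖ (T * T))).trace = ((p + q : ℝ) : ℂ) := by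
    simp [T, Matrix.trace, Matrix.mul_apply, Fintype.sum_prod_type, Fin.sum_univ_two,
      a00, a11, b00, b11, hp, hq]
  have e3 : (M * (H * H)).trace = (m : ℂ) := by
    simp [hH, hKe, S, T, Matrix.trace, Matrix.mul_apply, Fintype.sum_prod_type,
      Fin.sum_univ_two, a00, a11, b00, b11, hp, hq, hpc, hqc, hm]
    linear_combination (-((p : ℂ) + q) * w1 - 2 * w2 - 2 * w3) * (Complex.I * Complex.I) +
      (-((p : ℂ) + q) - 4 * (‖c‖ : ℂ)) * Complex.I_mul_I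
  have e4 : (M * (H * K - K * H)).trace = -2 * Complex.I * (m : ℂ) := by
    simp [hH, hKe, S, T, Matrix.trace, Matrix.mul_apply, Fintype.sum_prod_type,
      Fin.sum_univ_two, a00, a11, b00, b11, hp, hq, hpc, hqc, hm]
    linear_combination (-2 * Complex.I * ((p : ℂ) + q)) * w1 + (-4 * Complex.I) * w2 +
      (-4 * Complex.I) * w3
  rw [e1, e2, e3, e4, Complex.ofReal_re, Complex.ofReal_re, norm_mul, norm_mul, norm_neg,
    Complex.norm_I, Complex.norm_ofNat, Complex.norm_real, Real.norm_eq_abs, mul_pow,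
    sq_abs]
  have hc0 : 0 < ‖c‖ := norm_pos_iff.2 hc
  have hm0 : 0 < m := by rw [hm]; linarith
  rw [hm] at hm0 ⊢
  nlinarith [mul_pos hm0 hc0]

/-- A kernel product vector leaves no crossed coherence, unless the criterion holds. -/
theorem cross_eq_zero {ρ : Matrix (A × B) (A × B) ℂ} (hρ : ρ.PosSemidef)
    (hno : ¬ KeyCriterion ρ) {a : A → ℂ} {b : B → ℂ} (hk : ρ *ᵥ tvec a b = 0)
    (x : A → ℂ) (y : B → ℂ) : star (tvec a y) ⬝ᵥ (ρ *ᵥ tvec x b) = 0 := by
  by_contra hne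
  set u : ℂ → Fin 2 × Fin 2 → A × B → ℂ := fun δ i =>
    if i = (0, 0) then 0 else if i = (0, 1) then tvec a y else if i = (1, 0) then tvec x b
    else δ • tvec x y with hu
  set P : ℝ → Matrix (Fin 2 × Fin 2) (Fin 2 × Fin 2) ℂ := fun δ =>
    Matrix.of fun i j => star (u δ i) ⬝ᵥ (ρ *ᵥ u δ j) with hP
  have hfilt : ∀ δ : ℝ, δ ≠ 0 → ∃ (X : Matrix (Fin 2) A ℂ) (Y : Matrix (Fin 2) B ℂ),
      (X ⊗ₖ Y) * ρ * (X ⊗ₖ Y)ᴴ = P δ := by
    intro δ hδ
    refine ⟨Matrix.of ![(δ⁻¹ : ℂ) • star a, star x], Matrix.of ![star b, (δ : ℂ) • star y], ?_⟩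
    set v : Fin 2 × Fin 2 → A × B → ℂ := fun i =>
      tvec (![(δ⁻¹ : ℂ) • a, x] i.1) (![b, (δ : ℂ) • y] i.2) with hv
    have hXY : (Matrix.of ![(δ⁻¹ : ℂ) • star a, star x] ⊗ₖ
        Matrix.of ![star b, (δ : ℂ) • star y] : Matrix (Fin 2 × Fin 2) (A × B) ℂ) =
          Matrix.of fun i => star (v i) := by
      ext ⟨i, i'⟩ p
      fin_cases i <;> fin_cases i' <;> simp [hv, tvec]
    rw [hXY]
    ext i j
    have hkl : star (tvec a b) ᵥ* ρ = 0 := by
      have := congrArg star hk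
      rwa [star_mulVec, hρ.1.eq, star_zero] at this
    have hent : (Matrix.of (fun i => star (v i)) * ρ * (Matrix.of fun i => star (v i))ᴴ) i j =
        star (v i) ⬝ᵥ (ρ *ᵥ v j) := by
      rw [Matrix.mul_assoc]
      simp [Matrix.mul_apply, Matrix.mulVec, dotProduct]
    rw [hent]
    change _ = star (u δ i) ⬝ᵥ (ρ *ᵥ u δ j)
    have hcase : ∀ k, v k = (if k = (0, 0) then (δ⁻¹ : ℂ) • tvec a b else u δ k) := by
      rintro ⟨k, k'⟩
      fin_cases k <;> fin_cases k' <;>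
        (funext p; simp [hv, hu, tvec] <;> field_simp)
    rw [hcase, hcase]
    split_ifs with hi hj hj <;> subst_vars <;>
      simp [hu, Matrix.mulVec_smul, hk, smul_dotProduct, dotProduct_mulVec, hkl, Matrix.smul_vecMul]
  have hPsd : ∀ δ : ℝ, (P δ).PosSemidef := by
    intro δ
    have : P δ = (Matrix.of fun i => star (u δ i)) * ρ * (Matrix.of fun i => star (u δ i))ᴴ := by
      ext i j
      rw [Matrix.mul_assoc]
      simp [hP, Matrix.mul_apply, Matrix.mulVec, dotProduct]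
    rw [this]
    exact hρ.mul_mul_conjTranspose_same _
  have hu00 : ∀ δ, u δ (0, 0) = 0 := fun δ => by simp [hu]
  have hu11 : u 0 (1, 1) = 0 := by simp [hu]
  obtain ⟨S, T, H, hS, hT, hH, hlt⟩ := two_qubit_gap (M := P 0) (c := P 0 (0, 1) (1, 0))
    (p := (P 0 (0, 1) (0, 1)).re) (q := (P 0 (1, 0) (1, 0)).re)
    (by simpa [hP, hu] using hne)
    (add_nonneg (Complex.le_def.1 (hPsd 0).diag_nonneg).1
      (Complex.le_def.1 (hPsd 0).diag_nonneg).1)
    (fun i => by simp [hP, hu00, hu11]) (Complex.ext rfl (by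
      simpa using ((Complex.le_def.1 ((hPsd 0).diag_nonneg (i := (0, 1)))).2).symm))
    (Complex.ext rfl (by
      simpa using ((Complex.le_def.1 ((hPsd 0).diag_nonneg (i := (1, 0)))).2).symm)) rfl
    (((hPsd 0).1.apply (1, 0) (0, 1)).symm)
  have huc : ∀ i, Continuous fun δ : ℝ => u δ i := fun i => by
    simp only [hu]
    split_ifs <;> fun_prop
  have hPc : Continuous P := by
    refine continuous_pi fun i => continuous_pi fun j => ?_
    simp only [hP, Matrix.of_apply, dotProduct, Matrix.mulVec, Pi.star_apply]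
    exact continuous_finsetSum _ fun p _ => (((continuous_apply p).comp (huc i)).star).mul
      (continuous_finsetSum _ fun q _ => continuous_const.mul ((continuous_apply q).comp (huc j)))
  have hev : ∀ᶠ δ : ℝ in 𝓝[≠] 0, 4 * (P δ * (H * H)).trace.re *
        ((P δ * ((S * S) ⊗ₖ 1)).trace.re + (P δ * (1 ⊗ₖ (T * T))).trace.re) <
      ‖(P δ * (H * (S ⊗ₖ 1 + 1 ⊗ₖ T) - (S ⊗ₖ 1 + 1 ⊗ₖ T) * H)).trace‖ ^ 2 :=
    nhdsWithin_le_nhds ((isOpen_lt (by fun_prop) (by fun_prop)).mem_nhds hlt)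
  obtain ⟨δ, hδlt, hδ⟩ := (hev.and self_mem_nhdsWithin).exists
  obtain ⟨X, Y, hXY⟩ := hfilt δ hδ
  exact hno (keyCriterion_of_filter X Y
    (hXY ▸ keyCriterion_of_uncertainty (hPsd δ) hS hT hH hδlt))

end Vale.P372
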