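import Mathlib.LinearAlgebra.Matrix.Kronecker
import Mathlib.LinearAlgebra.Matrix.PosDef
import Mathlib.LinearAlgebra.UnitaryGroup
import Mathlib.Analysis.Complex.Basic
import Mathlib.Analysis.CStarAlgebra.Matrix

/-!
Definitions for P372: states, separability, PPT, key-distillation protocols
(local operations and public communication) and positivity of the distillable key.
-/

namespace Vale.P372

open Matrix Filter
open scoped Kronecker ComplexOrder BigOperators

/-- Trace norm, as the supremum of `|tr (U X)|` over unitaries `U`. -/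
noncomputable def traceNorm {E : Type} [Fintype E] [DecidableEq E] (X : Matrix E E ℂ) : ℝ :=
  ⨆ U : Matrix.unitaryGroup E ℂ, ‖((U : Matrix E E ℂ) * X).trace‖

/-- A POVM with outcomes in `K`. -/
def IsPOVM {K A : Type} [Fintype K] [Fintype A] [DecidableEq A]
    (M : K → Matrix A A ℂ) : Prop :=
  (∀ k, (M k).PosSemidef) ∧ ∑ k, M k = 1

/-- A key with `ℓ` bits. -/
abbrev Key (ℓ : ℕ) : Type := Fin ℓ → Bool

/-- Finite protocols of local instruments and public messages, ending with local measurements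
of the key registers. In a round the speaker applies Kraus operators indexed by the message,
arbitrary local output spaces being allowed (local ancillas and retained registers). -/
inductive Proto (ℓ : ℕ) : Type → Type → Type 1
  | final {A B : Type} [Fintype A] [Fintype B] [DecidableEq A] [DecidableEq B]
      (MA : Key ℓ → Matrix A A ℂ) (MB : Key ℓ → Matrix B B ℂ)
      (hA : IsPOVM MA) (hB : IsPOVM MB) : Proto ℓ A B
  | alice {A B : Type} [Fintype A] [Fintype B] [DecidableEq A] [DecidableEq B]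
      (T : Type) [Fintype T] (A' : T → Type) [∀ t, Fintype (A' t)]
      (K : ∀ t, Matrix (A' t) A ℂ) (hK : ∑ t, (K t)ᴴ * K t = 1)
      (next : ∀ t, Proto ℓ (A' t) B) : Proto ℓ A B
  | bob {A B : Type} [Fintype A] [Fintype B] [DecidableEq A] [DecidableEq B]
      (T : Type) [Fintype T] (B' : T → Type) [∀ t, Fintype (B' t)]
      (K : ∀ t, Matrix (B' t) B ℂ) (hK : ∑ t, (K t)ᴴ * K t = 1)
      (next : ∀ t, Proto ℓ A (B' t)) : Proto ℓ A B

/-- The complete public transcripts of a protocol. -/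
def Proto.Leaf {ℓ : ℕ} : {A B : Type} → Proto ℓ A B → Type
  | _, _, @Proto.final .. => Unit
  | _, _, @Proto.alice _ _ _ _ _ _ _ T _ _ _ _ _ next => Σ t : T, (next t).Leaf
  | _, _, @Proto.bob _ _ _ _ _ _ _ T _ _ _ _ _ next => Σ t : T, (next t).Leaf

@[instance_reducible, instance] noncomputable def Proto.leafFintype {ℓ : ℕ} :
    {A B : Type} → (P : Proto ℓ A B) → Fintype P.Leaf
  | _, _, @Proto.final .. => inferInstanceAs (Fintype Unit)
  | _, _, @Proto.alice _ _ _ _ _ _ _ _ _ _ _ _ _ next => by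
      have := fun t => Proto.leafFintype (next t)
      unfold Proto.Leaf; infer_instance
  | _, _, @Proto.bob _ _ _ _ _ _ _ _ _ _ _ _ _ next => by
      have := fun t => Proto.leafFintype (next t)
      unfold Proto.Leaf; infer_instance

/-- The subnormalised state of Eve for given key values and transcript; `Ψ` is the coefficient
matrix of the purification, rows for Alice and Bob, columns for Eve. -/
noncomputable def Proto.eveState {ℓ : ℕ} {E : Type} [DecidableEq E] :
    {A B : Type} → (P : Proto ℓ A B) → Matrix (A × B) E ℂ → P.Leaf → Key ℓ → Key ℓ →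
      Matrix E E ℂ
  | _, _, @Proto.final _ _ _ _ _ _ _ MA MB _ _, Ψ, _, kA, kB => (Ψᴴ * (MA kA ⊗ₖ MB kB) * Ψ)ᵀ
  | _, _, @Proto.alice _ _ _ _ _ _ _ _ _ _ _ K _ next, Ψ, l, kA, kB =>
      match (show Σ t, (next t).Leaf from l) with
      | ⟨t, l'⟩ => (next t).eveState ((K t ⊗ₖ 1) * Ψ) l' kA kB
  | _, _, @Proto.bob _ _ _ _ _ _ _ _ _ _ _ K _ next, Ψ, l, kA, kB =>
      match (show Σ t, (next t).Leaf from l) with
      | ⟨t, l'⟩ => (next t).eveState ((1 ⊗ₖ K t) * Ψ) l' kA kB

/-- The protocol has error at most `ε` on the purification `Ψ`: there is a state of Eve and the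
transcript such that the final state is `ε`-close in trace norm to a perfect key tensored with it.
All states are block diagonal in the classical registers, so the trace norm is the sum over the
blocks. -/
def Proto.HasError {ℓ : ℕ} {A B E : Type} [Fintype E] [DecidableEq E] (P : Proto ℓ A B)
    (Ψ : Matrix (A × B) E ℂ) (ε : ℝ) : Prop :=
  ∃ σ : P.Leaf → Matrix E E ℂ, (∀ l, (σ l).PosSemidef) ∧ (∑ l, (σ l).trace) = 1 ∧
    ∑ l, ∑ kA, ∑ kB,
      traceNorm (P.eveState Ψ l kA kB - if kA = kB then ((2 : ℂ) ^ ℓ)⁻¹ • σ l else 0) ≤ ε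

/-- `n` copies of a purification. -/
def copies {A B E : Type} (R : Matrix (A × B) E ℂ) (n : ℕ) :
    Matrix ((Fin n → A) × (Fin n → B)) (Fin n → E) ℂ :=
  fun x e => ∏ i, R (x.1 i, x.2 i) (e i)

/-- A density matrix. -/
def IsState {A : Type} [Fintype A] (ρ : Matrix A A ℂ) : Prop :=
  ρ.PosSemidef ∧ ρ.trace = 1

/-- Separable: a finite convex combination of product states. -/
def IsSeparable {A B : Type} [Fintype A] [Fintype B] (ρ : Matrix (A × B) (A × B) ℂ) : Prop :=
  ∃ (m : ℕ) (w : Fin m → ℝ) (α : Fin m → Matrix A A ℂ) (β : Fin m → Matrix B B ℂ),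
    (∀ i, 0 ≤ w i) ∧ ∑ i, w i = 1 ∧ (∀ i, IsState (α i)) ∧ (∀ i, IsState (β i)) ∧
      ρ = ∑ i, (w i : ℂ) • (α i ⊗ₖ β i)

/-- Partial transpose on the second factor. -/
def partialTranspose {A B : Type} (ρ : Matrix (A × B) (A × B) ℂ) :
    Matrix (A × B) (A × B) ℂ :=
  fun x y => ρ (x.1, y.2) (y.1, x.2)

/-- Positive partial transpose. -/
def IsPPT {A B : Type} [Fintype A] [Fintype B] (ρ : Matrix (A × B) (A × B) ℂ) : Prop :=
  (partialTranspose ρ).PosSemidef

/-- `K_D(ρ) > 0`: for some `δ > 0` there is a sequence of protocols with at least `δ n` key bits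
for all large `n`, whose errors tend to zero for every purification of `ρ`. -/
def HasPositiveKey {A B : Type} [Fintype A] [Fintype B] (ρ : Matrix (A × B) (A × B) ℂ) : Prop :=
  ∃ δ : ℝ, 0 < δ ∧ ∃ (ℓ : ℕ → ℕ) (P : ∀ n, Proto (ℓ n) (Fin n → A) (Fin n → B)),
    (∀ᶠ n : ℕ in atTop, δ * (n : ℝ) ≤ (ℓ n : ℝ)) ∧
      ∀ (E : Type) [Fintype E] [DecidableEq E] (R : Matrix (A × B) E ℂ), R * Rᴴ = ρ →
        ∃ ε : ℕ → ℝ, Tendsto ε atTop (nhds 0) ∧ ∀ n, (P n).HasError (copies R n) (ε n)

/-- The effects `Xᴴ X` of two local filters on each side give these outcome weights. -/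
noncomputable def weight {A B I J : Type} [Fintype A] [Fintype B] [Fintype I] [Fintype J]
    (ρ : Matrix (A × B) (A × B) ℂ) (X : Matrix I A ℂ) (Y : Matrix J B ℂ) : ℝ :=
  (((X ⊗ₖ Y) * ρ * (X ⊗ₖ Y)ᴴ).trace).re

/-- The key criterion: coherence between the two agreeing outcomes, measured through a contraction
`V` of the shields, beats the geometric mean of all four weights. -/
def KeyCriterion {A B : Type} [Fintype A] [Fintype B]
    (ρ : Matrix (A × B) (A × B) ℂ) : Prop :=
  ∃ (k l : ℕ) (X₀ X₁ : Matrix (Fin k) A ℂ) (Y₀ Y₁ : Matrix (Fin l) B ℂ)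
    (V : Matrix (Fin k × Fin l) (Fin k × Fin l) ℂ), (1 - Vᴴ * V).PosSemidef ∧
    weight ρ X₀ Y₀ * weight ρ X₁ Y₁ * weight ρ X₀ Y₁ * weight ρ X₁ Y₀ <
      ‖(V * ((X₀ ⊗ₖ Y₀) * ρ * (X₁ ⊗ₖ Y₁)ᴴ)).trace‖ ^ 4

end Vale.P372
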