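import Vale.Agent.P372.Kernel

/-!
# P372: key from an exact zero of a two-sided local operator

If `ρ (S ⊗ M + N ⊗ T) ρ = 0` with `M`, `N` positive definite and `tr ρ (S ⊗ T) > 0`, the local
filters `√N`, `√M` turn the zero into a violation of the uncertainty bound of separable states.
-/

namespace Vale.P372

open Matrix
open scoped Kronecker ComplexOrder

section

variable {A B : Type} [Fintype A] [Fintype B] [DecidableEq A] [DecidableEq B]

omit [Fintype B] [DecidableEq B] in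
/-- A positive definite matrix is `Xᴴ X` with `X` invertible. -/
lemma exists_invertible_gram {N : Matrix A A ℂ} (hN : N.PosDef) :
    ∃ X : Matrix A A ℂ, IsUnit X.det ∧ Xᴴ * X = N := by
  obtain ⟨X, hX⟩ : ∃ X : Matrix A A ℂ, N = Xᴴ * X := by
    open scoped MatrixOrder in
    exact CStarAlgebra.nonneg_iff_eq_star_mul_self.mp hN.posSemidef.nonneg
  refine ⟨X, ?_, hX.symm⟩
  have hd := (Matrix.isUnit_iff_isUnit_det _).1 hN.isUnit
  rw [hX, Matrix.det_mul] at hd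
  exact isUnit_of_mul_isUnit_right hd

/-- The exact two-sided zero gives the key criterion. -/
theorem keyCriterion_of_exact {ρ : Matrix (A × B) (A × B) ℂ} (hρ : ρ.PosSemidef)
    {S N : Matrix A A ℂ} {T M : Matrix B B ℂ} (hS : S.IsHermitian) (hT : T.IsHermitian)
    (hN : N.PosDef) (hM : M.PosDef) (h0 : ρ * (S ⊗ₖ M + N ⊗ₖ T) * ρ = 0)
    (hpos : 0 < (ρ * (S ⊗ₖ T)).trace.re) : KeyCriterion ρ := by
  obtain ⟨X, hXu, hX⟩ := exists_invertible_gram hN
  obtain ⟨Y, hYu, hY⟩ := exists_invertible_gram hM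
  obtain ⟨p, _, R, hR, hG⟩ := exists_range_factor hρ
  have hu : IsUnit (Rᴴ * R).det := (Matrix.isUnit_iff_isUnit_det _).1 hG.isUnit
  have hRρ : R = ρ * (R * (Rᴴ * R)⁻¹) := by
    rw [← hR, Matrix.mul_assoc, ← Matrix.mul_assoc Rᴴ, Matrix.mul_nonsing_inv _ hu, Matrix.mul_one]
  have hRzero : Rᴴ * (S ⊗ₖ M + N ⊗ₖ T) * R = 0 := by
    conv_lhs => arg 1; arg 1; rw [hRρ]
    conv_lhs => arg 2; rw [hRρ]
    rw [Matrix.conjTranspose_mul, hρ.1.eq]
    calc _ = (R * (Rᴴ * R)⁻¹)ᴴ * (ρ * (S ⊗ₖ M + N ⊗ₖ T) * ρ) * (R * (Rᴴ * R)⁻¹) := by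
          simp only [Matrix.mul_assoc]
      _ = 0 := by rw [h0]; simp
  set S' := X⁻¹ᴴ * S * X⁻¹ with hS'
  set T' := Y⁻¹ᴴ * T * Y⁻¹ with hT'
  set R' := (X ⊗ₖ Y) * R with hR'
  have back : ∀ {C : Type} [Fintype C] [DecidableEq C] (Z : Matrix C C ℂ) (K : Matrix C C ℂ),
      IsUnit Z.det → Zᴴ * (Z⁻¹ᴴ * K * Z⁻¹) * Z = K := by
    intro C _ _ Z K hZ
    have e1 : Zᴴ * Z⁻¹ᴴ = 1 := by
      rw [← Matrix.conjTranspose_mul, Matrix.nonsing_inv_mul _ hZ, Matrix.conjTranspose_one]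
    rw [← Matrix.mul_assoc, ← Matrix.mul_assoc, e1, Matrix.one_mul, Matrix.mul_assoc,
      Matrix.nonsing_inv_mul _ hZ, Matrix.mul_one]
  have key : ∀ (Z : Matrix A A ℂ) (Z' : Matrix B B ℂ),
      R'ᴴ * (Z ⊗ₖ Z') * R' = Rᴴ * ((Xᴴ * Z * X) ⊗ₖ (Yᴴ * Z' * Y)) * R := by
    intro Z Z'
    have : (X ⊗ₖ Y)ᴴ * (Z ⊗ₖ Z') * (X ⊗ₖ Y) = (Xᴴ * Z * X) ⊗ₖ (Yᴴ * Z' * Y) := by
      simp [Matrix.conjTranspose_kronecker, ← Matrix.mul_kronecker_mul]
    rw [← this, hR', Matrix.conjTranspose_mul]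
    simp only [Matrix.mul_assoc]
  have hS'h : S'.IsHermitian := isHermitian_conjTranspose_mul_mul _ hS
  have hT'h : T'.IsHermitian := isHermitian_conjTranspose_mul_mul _ hT
  have hG' : (R'ᴴ * R').PosDef := by
    have := key 1 1
    rw [Matrix.one_kronecker_one, Matrix.mul_one, Matrix.mul_one, Matrix.mul_one, hX, hY] at this
    rw [this]
    refine (hN.kronecker hM).conjTranspose_mul_mul_same fun v w hvw => ?_
    have := congrArg (fun u => (Rᴴ * R)⁻¹ *ᵥ (Rᴴ *ᵥ u)) hvw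
    simpa [Matrix.mulVec_mulVec, Matrix.mul_assoc, Matrix.nonsing_inv_mul _ hu] using this
  have hK : R'ᴴ * (S' ⊗ₖ 1 + 1 ⊗ₖ T') * R' = 0 := by
    rw [Matrix.mul_add, Matrix.add_mul, key, key, hS', hT', back X S hXu, back Y T hYu,
      Matrix.mul_one, Matrix.mul_one, hX, hY, ← hRzero, Matrix.mul_add, Matrix.add_mul]
  refine keyCriterion_of_filter X Y ?_
  refine keyCriterion_of_gram R' ?_ hG' hS'h hT'h ?_
  · rw [hR', Matrix.conjTranspose_mul, ← hR]; simp only [Matrix.mul_assoc]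
  · have h : (((X ⊗ₖ Y) * ρ * (X ⊗ₖ Y)ᴴ) * (S' ⊗ₖ T')).trace = (ρ * (S ⊗ₖ T)).trace := by
      have : (X ⊗ₖ Y)ᴴ * (S' ⊗ₖ T') * (X ⊗ₖ Y) = S ⊗ₖ T := by
        simp [Matrix.conjTranspose_kronecker, ← Matrix.mul_kronecker_mul, hS', hT',
          back X S hXu, back Y T hYu]
      rw [← this, Matrix.mul_assoc, Matrix.trace_mul_comm, ← Matrix.mul_assoc,
        Matrix.trace_mul_comm]
    rw [hK, h]
    simpa using hpos

end

section Real

variable {A B K : Type} [Fintype A] [Fintype B] [Fintype K] [DecidableEq A] [DecidableEq B]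
  [DecidableEq K]

omit [Fintype B] [DecidableEq B] [Fintype K] [DecidableEq K] in
/-- `Γᵀ D Γ` with positive diagonal `D` and invertible `Γ` is positive definite. -/
lemma posDef_map_gram {Γ : Matrix A A ℝ} (d : A → ℝ) (hd : ∀ i, 0 < d i) (hΓ : Γ.det ≠ 0) :
    ((Γᵀ * Matrix.diagonal d * Γ).map Complex.ofRealHom).PosDef := by
  rw [Matrix.map_mul, Matrix.map_mul, Matrix.diagonal_map (map_zero _)]
  have e : (Γᵀ).map Complex.ofRealHom = (Γ.map Complex.ofRealHom)ᴴ := by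
    ext i j; simp
  rw [e]
  refine (Matrix.PosDef.diagonal fun i => Complex.zero_lt_real.2 (hd i)).conjTranspose_mul_mul_same
    ?_
  refine Matrix.mulVec_injective_iff_isUnit.2 ((Matrix.isUnit_iff_isUnit_det _).2 ?_)
  rw [isUnit_iff_ne_zero]
  have h := (Complex.ofRealHom).map_det Γ
  simp only [RingHom.mapMatrix_apply] at h
  rw [← h]
  simpa using hΓ

omit [Fintype K] in
lemma posSemidef_map_gram [Finite K] {X : Type} [Fintype X] (V : Matrix X K ℝ) (d : K → ℝ)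
    (hd : ∀ i, 0 ≤ d i) [Fintype K] :
    ((V * Matrix.diagonal d * Vᵀ).map Complex.ofRealHom).PosSemidef := by
  rw [Matrix.map_mul, Matrix.map_mul, Matrix.diagonal_map (map_zero _)]
  have e : (Vᵀ).map Complex.ofRealHom = (V.map Complex.ofRealHom)ᴴ := by
    ext i j; simp
  rw [e]
  exact (Matrix.PosSemidef.diagonal fun i => Complex.zero_le_real.2 (hd i)).mul_mul_conjTranspose_same
    _

omit [Fintype A] [Fintype B] [DecidableEq A] [DecidableEq B] in
lemma map_kronecker' (S : Matrix A A ℝ) (T : Matrix B B ℝ) :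
    (S ⊗ₖ T).map Complex.ofRealHom = S.map Complex.ofRealHom ⊗ₖ T.map Complex.ofRealHom := by
  ext i j; simp [kroneckerMap_apply]

omit [DecidableEq K] in
/-- The exact criterion for a real matrix `Q L Qᵀ`. -/
theorem keyCriterion_of_exact_real (Q : Matrix (A × B) K ℝ) (L : Matrix K K ℝ)
    (hρ : ((Q * L * Qᵀ).map Complex.ofRealHom).PosSemidef) {S N : Matrix A A ℝ}
    {T M : Matrix B B ℝ} (hS : Sᵀ = S) (hT : Tᵀ = T) (hN : (N.map Complex.ofRealHom).PosDef)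
    (hM : (M.map Complex.ofRealHom).PosDef) (h0 : Qᵀ * (S ⊗ₖ M + N ⊗ₖ T) * Q = 0)
    (hpos : 0 < (L * (Qᵀ * (S ⊗ₖ T) * Q)).trace) :
    KeyCriterion ((Q * L * Qᵀ).map Complex.ofRealHom) := by
  have herm : ∀ {C : Type} (Z : Matrix C C ℝ), Zᵀ = Z → (Z.map Complex.ofRealHom).IsHermitian := by
    intro C Z hZ; ext i j
    have := congrFun (congrFun hZ i) j
    simp [Matrix.conjTranspose_apply] at this ⊢
    exact this
  refine keyCriterion_of_exact hρ (herm S hS) (herm T hT) hN hM ?_ ?_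
  · rw [← map_kronecker', ← map_kronecker', ← Matrix.map_add _ (map_add _), ← Matrix.map_mul,
      ← Matrix.map_mul]
    have : Q * L * Qᵀ * (S ⊗ₖ M + N ⊗ₖ T) * (Q * L * Qᵀ) =
        Q * L * (Qᵀ * (S ⊗ₖ M + N ⊗ₖ T) * Q) * (L * Qᵀ) := by simp only [Matrix.mul_assoc]
    rw [this, h0]
    simp
  · have : (Q * L * Qᵀ * (S ⊗ₖ T)).trace = (L * (Qᵀ * (S ⊗ₖ T) * Q)).trace := by
      rw [Matrix.mul_assoc, Matrix.mul_assoc, Matrix.trace_mul_comm]
      simp only [Matrix.mul_assoc]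
    rw [← map_kronecker', ← Matrix.map_mul]
    have e : ∀ Z : Matrix (A × B) (A × B) ℝ,
        (Z.map Complex.ofRealHom).trace.re = Z.trace := fun Z => by
      simp [Matrix.trace, Complex.re_sum]
    rw [e, this]
    exact hpos

end Real

end Vale.P372
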