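import Vale.Agent.P372.Tiles

/-!
# P372: an uncertainty violation gives the key criterion

Filters close to the identity turn the violation of the second-moment uncertainty relation between
a global observable and a sum of two local ones into the key criterion.
-/

namespace Vale.P372

open Matrix Filter Topology
open scoped Kronecker ComplexOrder

variable {A B I J : Type} [Fintype A] [Fintype B] [Fintype I] [Fintype J]

/-- The criterion may be witnessed with shields of any finite index types. -/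
lemma keyCriterion_of_witness [DecidableEq I] [DecidableEq J] {ρ : Matrix (A × B) (A × B) ℂ}
    (X₀ X₁ : Matrix I A ℂ) (Y₀ Y₁ : Matrix J B ℂ) (V : Matrix (I × J) (I × J) ℂ)
    (hV : (1 - Vᴴ * V).PosSemidef)
    (h : weight ρ X₀ Y₀ * weight ρ X₁ Y₁ * weight ρ X₀ Y₁ * weight ρ X₁ Y₀ <
      ‖(V * ((X₀ ⊗ₖ Y₀) * ρ * (X₁ ⊗ₖ Y₁)ᴴ)).trace‖ ^ 4) :
    KeyCriterion ρ := by
  classical
  set eI := (Fintype.equivFin I).symm
  set eJ := (Fintype.equivFin J).symm
  set p := Equiv.prodCongr eI eJ with hp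
  have hk : ∀ (X : Matrix I A ℂ) (Y : Matrix J B ℂ),
      (X.submatrix eI id) ⊗ₖ (Y.submatrix eJ id) = (X ⊗ₖ Y).submatrix p id := by
    intro X Y; ext i j; rfl
  have ht : ∀ M : Matrix (I × J) (I × J) ℂ, (M.submatrix p p).trace = M.trace := fun M =>
    Equiv.sum_comp p fun i => M i i
  have hm : ∀ (X X' : Matrix (I × J) (A × B) ℂ),
      X.submatrix p id * ρ * (X'.submatrix p id)ᴴ = (X * ρ * X'ᴴ).submatrix p p := fun X X' => by
    rw [Matrix.conjTranspose_submatrix, Matrix.submatrix_mul _ _ p id p Function.bijective_id,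
      Matrix.submatrix_mul _ _ p id id Function.bijective_id, Matrix.submatrix_id_id]
  refine ⟨_, _, X₀.submatrix eI id, X₁.submatrix eI id, Y₀.submatrix eJ id, Y₁.submatrix eJ id,
    V.submatrix p p, ?_, ?_⟩
  · rw [Matrix.conjTranspose_submatrix, Matrix.submatrix_mul_equiv,
      ← Matrix.submatrix_one_equiv p]
    exact hV.submatrix p
  · simp only [weight, hk, hm, Matrix.submatrix_mul_equiv, ht]
    exact h

/-- The criterion for a locally filtered matrix passes to the original one. -/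
lemma keyCriterion_of_filter {A' B' : Type} [Fintype A'] [Fintype B']
    {ρ : Matrix (A × B) (A × B) ℂ} (X : Matrix A' A ℂ) (Y : Matrix B' B ℂ)
    (h : KeyCriterion ((X ⊗ₖ Y) * ρ * (X ⊗ₖ Y)ᴴ)) : KeyCriterion ρ := by
  obtain ⟨k, l, X₀, X₁, Y₀, Y₁, V, hV, hlt⟩ := h
  refine ⟨k, l, X₀ * X, X₁ * X, Y₀ * Y, Y₁ * Y, V, hV, ?_⟩
  simpa only [weight, Matrix.mul_kronecker_mul, Matrix.conjTranspose_mul, Matrix.mul_assoc]
    using hlt

variable [DecidableEq A] [DecidableEq B]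

lemma posSemidef_trace_sub {N : Type} [Fintype N] [DecidableEq N] (G : Matrix N N ℂ) :
    ((((Gᴴ * G).trace.re : ℝ) : ℂ) • (1 : Matrix N N ℂ) - Gᴴ * G).PosSemidef := by
  refine Matrix.PosSemidef.of_dotProduct_mulVec_nonneg
    ((Matrix.isHermitian_one.smul ((Complex.conj_ofReal _) : IsSelfAdjoint _)).sub
      (Matrix.isHermitian_conjTranspose_mul_self G)) fun x => ?_
  have hsq : ∀ y : N → ℂ, star y ⬝ᵥ y = ((∑ i, ‖y i‖ ^ 2 : ℝ) : ℂ) := fun y => by
    simp [dotProduct, Complex.conj_mul']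
  have htr : (Gᴴ * G).trace.re = ∑ k, ∑ i, ‖G k i‖ ^ 2 := by
    rw [Finset.sum_comm]
    simp [Matrix.trace, Matrix.mul_apply, Complex.re_sum, Complex.conj_mul', ← Complex.ofReal_pow]
  rw [Matrix.sub_mulVec, dotProduct_sub, Matrix.smul_mulVec, Matrix.one_mulVec, dotProduct_smul,
    ← Matrix.mulVec_mulVec, dotProduct_mulVec _ Gᴴ, Matrix.vecMul_conjTranspose, star_star,
    hsq, hsq, smul_eq_mul, ← Complex.ofReal_mul, ← Complex.ofReal_sub, Complex.zero_le_real,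
    sub_nonneg, htr, Finset.sum_mul]
  refine Finset.sum_le_sum fun k _ => ?_
  refine le_trans ?_ (Finset.sum_mul_sq_le_sq_mul_sq _ (fun i => ‖G k i‖) fun i => ‖x i‖)
  refine pow_le_pow_left₀ (norm_nonneg _) ?_ 2
  refine (norm_sum_le _ _).trans (le_of_eq ?_)
  simp

lemma im_trace_mul_hermitian {N : Type} [Fintype N] {P Q : Matrix N N ℂ} (hP : P.IsHermitian)
    (hQ : Q.IsHermitian) : (P * Q).trace.im = 0 := by
  refine Complex.conj_eq_iff_im.1 ?_
  rw [starRingEnd_apply, ← Matrix.trace_conjTranspose, Matrix.conjTranspose_mul, hP.eq, hQ.eq,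
    Matrix.trace_mul_comm]

lemma trace_product {N : Type} [Fintype N] [DecidableEq N] (e : ℂ)
    (a u₀ u₁ u₂ σ b v : Matrix N N ℂ) :
    ((1 + e • a + e ^ 2 • u₀ + e ^ 3 • u₁ + e ^ 4 • u₂) * (σ + e • b + e ^ 2 • v)).trace =
      σ.trace + e * ((a * σ).trace + b.trace) +
        e ^ 2 * ((v.trace + (a * b).trace + (u₀ * σ).trace) +
          e * ((a * v).trace + (u₀ * b).trace + (u₁ * σ).trace) +
          e ^ 2 * ((u₀ * v).trace + (u₁ * b).trace + (u₂ * σ).trace) +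
          e ^ 3 * ((u₁ * v).trace + (u₂ * b).trace) + e ^ 4 * (u₂ * v).trace) := by
  simp only [Matrix.mul_add, Matrix.add_mul, Matrix.mul_smul, Matrix.smul_mul, Matrix.one_mul,
    Matrix.trace_add, Matrix.trace_smul, smul_eq_mul]
  ring

lemma trace_filter (ρ : Matrix (A × B) (A × B) ℂ) {S : Matrix A A ℂ} {T : Matrix B B ℂ}
    (hS : S.IsHermitian) (hT : T.IsHermitian) (a b : ℝ) :
    weight ρ (1 + (a : ℂ) • S) (1 + (b : ℂ) • T) =
      ρ.trace.re + 2 * a * (ρ * (S ⊗ₖ 1)).trace.re + 2 * b * (ρ * (1 ⊗ₖ T)).trace.re +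
        a ^ 2 * (ρ * ((S * S) ⊗ₖ 1)).trace.re + b ^ 2 * (ρ * (1 ⊗ₖ (T * T))).trace.re +
        4 * (a * b) * (ρ * (S ⊗ₖ T)).trace.re + 2 * (a * b ^ 2) * (ρ * (S ⊗ₖ (T * T))).trace.re +
        2 * (a ^ 2 * b) * (ρ * ((S * S) ⊗ₖ T)).trace.re +
        a ^ 2 * b ^ 2 * (ρ * ((S * S) ⊗ₖ (T * T))).trace.re := by
  rw [weight, Matrix.trace_mul_comm, ← Matrix.mul_assoc, Matrix.trace_mul_comm,
    Matrix.conjTranspose_kronecker, ← Matrix.mul_kronecker_mul]
  simp only [Matrix.conjTranspose_add, Matrix.conjTranspose_smul, Matrix.conjTranspose_one, hS.eq,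
    hT.eq, Complex.star_def, Complex.conj_ofReal, Matrix.add_mul, Matrix.mul_add, Matrix.smul_mul,
    Matrix.mul_smul, Matrix.one_mul, Matrix.mul_one, Matrix.add_kronecker, Matrix.kronecker_add,
    Matrix.smul_kronecker, Matrix.kronecker_smul, Matrix.one_kronecker_one, Matrix.trace_add,
    Matrix.trace_smul, smul_eq_mul, Complex.add_re, Complex.re_ofReal_mul]
  ring

/-- An uncertainty violation already at unit scale gives the key criterion. -/
lemma keyCriterion_of_gap {σ : Matrix (A × B) (A × B) ℂ} (hσ : σ.PosSemidef)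
    {S : Matrix A A ℂ} {T : Matrix B B ℂ} {H : Matrix (A × B) (A × B) ℂ}
    (hS : S.IsHermitian) (hT : T.IsHermitian) (hH : H.IsHermitian)
    (hgap : (σ * (H * H)).trace.re / 2 +
        2 * ((σ * ((S * S) ⊗ₖ 1)).trace.re + (σ * (1 ⊗ₖ (T * T))).trace.re) <
      -(σ * (H * (S ⊗ₖ 1 + 1 ⊗ₖ T) - (S ⊗ₖ 1 + 1 ⊗ₖ T) * H)).trace.im) :
    KeyCriterion σ := by
  set K := S ⊗ₖ (1 : Matrix B B ℂ) + (1 : Matrix A A ℂ) ⊗ₖ T with hK
  set N := S ⊗ₖ T with hN
  set iH := Complex.I • H with hiH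
  set H2 := (1 / 2 : ℂ) • (H * H) with hH2
  have hKh : K.IsHermitian := by
    simp [hK, Matrix.IsHermitian, Matrix.conjTranspose_kronecker, hS.eq, hT.eq]
  set s := σ.trace.re with hs
  have hs_im : σ.trace.im = 0 := ((Complex.le_def.1 hσ.trace_nonneg).2).symm
  have hspos : 0 < s := by
    refine (Complex.le_def.1 hσ.trace_nonneg).1.lt_of_ne fun h0 => ?_
    have : σ = 0 := hσ.trace_eq_zero_iff.1 (Complex.ext h0.symm hs_im)
    simp [this] at hgap
  -- coefficients of the coherence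
  set a := iH + K with ha
  set u₀ := N + iH * K - H2 with hu₀
  set u₁ := iH * N - H2 * K with hu₁
  set u₂ := -(H2 * N) with hu₂
  set b := -(σ * K) with hb
  set v := σ * N with hv
  set t₁ := (a * σ).trace + b.trace with ht₁
  set k₀ := v.trace + (a * b).trace + (u₀ * σ).trace with hk₀
  set u : ℝ → ℂ := fun e => k₀ +
    (e : ℂ) * ((a * v).trace + (u₀ * b).trace + (u₁ * σ).trace) +
    (e : ℂ) ^ 2 * ((u₀ * v).trace + (u₁ * b).trace + (u₂ * σ).trace) +
    (e : ℂ) ^ 3 * ((u₁ * v).trace + (u₂ * b).trace) + (e : ℂ) ^ 4 * (u₂ * v).trace with hu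
  set P : ℝ → Matrix (A × B) (A × B) ℂ := fun e => 1 + (e : ℂ) • iH - (e : ℂ) ^ 2 • H2 with hP
  have hcoh : ∀ e : ℝ, (P e * (((1 + (e : ℂ) • S) ⊗ₖ (1 + (e : ℂ) • T)) * σ *
      ((1 + ((-e : ℝ) : ℂ) • S) ⊗ₖ (1 + ((-e : ℝ) : ℂ) • T))ᴴ)).trace =
      σ.trace + (e : ℂ) * t₁ + (e : ℂ) ^ 2 * u e := by
    intro e
    have h0 : (1 + (e : ℂ) • S) ⊗ₖ (1 + (e : ℂ) • T) = 1 + (e : ℂ) • K + (e : ℂ) ^ 2 • N := by
      simp only [Matrix.add_kronecker, Matrix.kronecker_add, Matrix.smul_kronecker,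
        Matrix.kronecker_smul, Matrix.one_kronecker_one, hK, hN]
      module
    have h1 : ((1 + ((-e : ℝ) : ℂ) • S) ⊗ₖ (1 + ((-e : ℝ) : ℂ) • T))ᴴ =
        1 - (e : ℂ) • K + (e : ℂ) ^ 2 • N := by
      simp only [Matrix.conjTranspose_kronecker, Matrix.conjTranspose_add,
        Matrix.conjTranspose_smul, Matrix.conjTranspose_one, hS.eq, hT.eq, Complex.star_def,
        map_neg, Complex.conj_ofReal, Matrix.add_kronecker, Matrix.kronecker_add,
        Matrix.smul_kronecker, Matrix.kronecker_smul, Matrix.one_kronecker_one, hK, hN,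
        Complex.ofReal_neg]
      module
    rw [h0, h1, Matrix.mul_assoc (1 + (e : ℂ) • K + (e : ℂ) ^ 2 • N) σ, ← Matrix.mul_assoc]
    have h2 : P e * (1 + (e : ℂ) • K + (e : ℂ) ^ 2 • N) = 1 + (e : ℂ) • a + (e : ℂ) ^ 2 • u₀ +
        (e : ℂ) ^ 3 • u₁ + (e : ℂ) ^ 4 • u₂ := by
      simp only [hP, ha, hu₀, hu₁, hu₂, Matrix.add_mul, Matrix.sub_mul, Matrix.mul_add,
        Matrix.smul_mul, Matrix.mul_smul, Matrix.one_mul, Matrix.mul_one]
      module
    have h3 : σ * (1 - (e : ℂ) • K + (e : ℂ) ^ 2 • N) = σ + (e : ℂ) • b + (e : ℂ) ^ 2 • v := by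
      simp only [hb, hv, Matrix.mul_add, Matrix.mul_sub, Matrix.mul_smul, Matrix.mul_one]
      module
    rw [h2, h3, trace_product]
  have ht₁re : t₁.re = 0 := by
    have := im_trace_mul_hermitian hH hσ.1
    simp [ht₁, ha, hb, hiH, Matrix.add_mul, Matrix.trace_mul_comm σ K, this]
  have hk₀re : k₀.re = -(σ * (H * H)).trace.re / 2 -
      ((σ * ((S * S) ⊗ₖ 1)).trace.re + (σ * (1 ⊗ₖ (T * T))).trace.re) -
      (σ * (H * K - K * H)).trace.im := by
    have hKK : (K * (σ * K)).trace = (σ * ((S * S) ⊗ₖ 1)).trace + (σ * (1 ⊗ₖ (T * T))).trace +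
        2 * (σ * N).trace := by
      rw [Matrix.trace_mul_comm, Matrix.mul_assoc, hK]
      simp only [Matrix.add_mul, Matrix.mul_add, ← Matrix.mul_kronecker_mul, Matrix.one_mul,
        Matrix.mul_one, Matrix.trace_add, hN]
      ring
    have e1 : (H * (σ * K)).trace = (σ * (K * H)).trace := by
      rw [Matrix.trace_mul_comm, Matrix.mul_assoc]
    have e2 : (H * K * σ).trace = (σ * (H * K)).trace := Matrix.trace_mul_comm _ _
    have e3 : (H * H * σ).trace = (σ * (H * H)).trace := Matrix.trace_mul_comm _ _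
    have e4 : (N * σ).trace = (σ * N).trace := Matrix.trace_mul_comm _ _
    simp only [hk₀, ha, hb, hv, hu₀, hiH, hH2, Matrix.add_mul, Matrix.sub_mul, Matrix.smul_mul,
      Matrix.mul_neg, Matrix.mul_sub, Matrix.trace_add, Matrix.trace_sub, Matrix.trace_neg,
      Matrix.trace_smul, smul_eq_mul, hKK, e1, e2, e3, e4]
    simp
    ring
  -- the four weights
  set α := (σ * (S ⊗ₖ 1)).trace.re
  set β := (σ * (1 ⊗ₖ T)).trace.re
  set α₂ := (σ * ((S * S) ⊗ₖ 1)).trace.re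
  set β₂ := (σ * (1 ⊗ₖ (T * T))).trace.re
  set γ := (σ * N).trace.re
  set g₁ := (σ * (S ⊗ₖ (T * T))).trace.re
  set g₂ := (σ * ((S * S) ⊗ₖ T)).trace.re
  set g₃ := (σ * ((S * S) ⊗ₖ (T * T))).trace.re
  set Up : ℝ → ℝ := fun e => α₂ + β₂ + 4 * γ + 2 * e * (g₁ + g₂) + e ^ 2 * g₃ with hUp
  set Um : ℝ → ℝ := fun e => α₂ + β₂ - 4 * γ + 2 * e * (g₁ - g₂) + e ^ 2 * g₃ with hUm
  set n : ℝ → ℝ := fun e => 2 * s * (u e).re + e ^ 2 * (u e).re ^ 2 + (t₁.im + e * (u e).im) ^ 2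
    with hn
  set p : ℝ → ℝ := fun e => s * (Up e + Up (-e)) - (2 * (α + β)) ^ 2 +
    e * (2 * (α + β)) * (Up (-e) - Up e) + e ^ 2 * (Up e * Up (-e)) with hp
  set q : ℝ → ℝ := fun e => s * (Um e + Um (-e)) - (2 * (α - β)) ^ 2 +
    e * (2 * (α - β)) * (Um (-e) - Um e) + e ^ 2 * (Um e * Um (-e)) with hq
  set C := (H2ᴴ * H2).trace.re with hC
  set G : ℝ → ℝ := fun e => 2 * s ^ 2 * n e + e ^ 2 * n e ^ 2 -
    (1 + C * e ^ 4) ^ 2 * (s ^ 2 * (p e + q e) + e ^ 2 * (p e * q e)) -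
    s ^ 4 * (2 * C * e ^ 2 + C ^ 2 * e ^ 6) with hG
  have hG0 : 0 < G 0 := by
    simp only [hG, hn, hp, hq, hUp, hUm, hu]
    simp
    rw [hk₀re]
    nlinarith [mul_lt_mul_of_pos_left hgap (pow_pos hspos 3),
      mul_nonneg (sq_nonneg s) (sq_nonneg t₁.im),
      mul_nonneg (sq_nonneg s) (add_nonneg (sq_nonneg α) (sq_nonneg β))]
  have hGc : Continuous G := by
    simp only [hG, hn, hp, hq, hUp, hUm, hu]
    fun_prop
  obtain ⟨e, hGe, he : e ≠ 0⟩ := ((hGc.continuousAt.eventually (lt_mem_nhds hG0)).filter_mono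
    (nhdsWithin_le_nhds (s := {(0 : ℝ)}ᶜ))).and self_mem_nhdsWithin |>.exists
  have hCe : 0 < 1 + C * e ^ 4 := by
    have : 0 ≤ C := (Complex.le_def.1 (posSemidef_conjTranspose_mul_self H2).trace_nonneg).1
    positivity
  set c := (√(1 + C * e ^ 4))⁻¹ with hc
  have hc2 : c ^ 2 = (1 + C * e ^ 4)⁻¹ := by rw [hc, inv_pow, Real.sq_sqrt hCe.le]
  refine keyCriterion_of_witness (1 + (e : ℂ) • S) (1 + ((-e : ℝ) : ℂ) • S)
    (1 + (e : ℂ) • T) (1 + ((-e : ℝ) : ℂ) • T) ((c : ℂ) • P e) ?_ ?_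
  · have hPP : (P e)ᴴ * P e = 1 + (e : ℂ) ^ 4 • (H2ᴴ * H2) := by
      have hH2h : H2ᴴ = H2 := by simp [hH2, Matrix.conjTranspose_mul, hH.eq]
      simp only [hP, hiH, Matrix.conjTranspose_sub, Matrix.conjTranspose_add,
        Matrix.conjTranspose_smul, Matrix.conjTranspose_one, hH.eq, hH2h, star_pow,
        Complex.star_def, Complex.conj_ofReal, Complex.conj_I, Matrix.sub_mul, Matrix.mul_sub,
        Matrix.add_mul, Matrix.mul_add, Matrix.smul_mul, Matrix.mul_smul, Matrix.one_mul,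
        Matrix.mul_one]
      simp only [hH2, Matrix.smul_mul, Matrix.mul_smul, Matrix.mul_assoc, smul_smul]
      match_scalars <;> ring_nf <;> simp [Complex.I_sq]
    have : 1 - ((c : ℂ) • P e)ᴴ * ((c : ℂ) • P e) =
        ((c ^ 2 * e ^ 4 : ℝ) : ℂ) • ((C : ℂ) • 1 - H2ᴴ * H2) := by
      rw [Matrix.conjTranspose_smul, Complex.star_def, Complex.conj_ofReal, Matrix.smul_mul,
        Matrix.mul_smul, smul_smul, hPP]
      have h1 : (c : ℂ) * c * (1 + C * (e : ℂ) ^ 4) = 1 := by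
        exact_mod_cast show c * c * (1 + C * e ^ 4) = 1 by
          rw [← sq, hc2, inv_mul_cancel₀ hCe.ne']
      push_cast
      match_scalars <;> first | linear_combination -h1 | ring
    rw [this]
    exact (posSemidef_trace_sub H2).smul (Complex.zero_le_real.2 (by positivity))
  · rw [Matrix.smul_mul, Matrix.trace_smul, norm_smul, hcoh, Complex.norm_real,
      Real.norm_eq_abs, trace_filter σ hS hT, trace_filter σ hS hT, trace_filter σ hS hT,
      trace_filter σ hS hT]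
    have hnorm : ‖σ.trace + (e : ℂ) * t₁ + (e : ℂ) ^ 2 * u e‖ ^ 2 = s ^ 2 + e ^ 2 * n e := by
      rw [Complex.sq_norm, Complex.normSq_apply]
      simp [hn, hs_im, ht₁re, ← Complex.ofReal_pow, ← hs]
      ring
    rw [show ∀ x y : ℝ, (x * y) ^ 4 = (x ^ 2) ^ 2 * (y ^ 2) ^ 2 from fun x y => by ring, sq_abs,
      hc2, hnorm, inv_pow, inv_mul_eq_div, lt_div_iff₀ (by positivity)]
    have hG' : 0 < e ^ 2 * G e := mul_pos (by positivity) hGe
    refine lt_of_eq_of_lt ?_ (lt_of_lt_of_eq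
      (lt_add_of_pos_right
        ((s ^ 2 + e ^ 2 * p e) * (s ^ 2 + e ^ 2 * q e) * (1 + C * e ^ 4) ^ 2) hG') ?_)
    · simp only [hp, hq, hUp, hUm]; ring
    · simp only [hG]; ring

/-- Violating the uncertainty relation `|⟨[H, S + T]⟩|² ≤ 4⟨H²⟩(⟨S²⟩ + ⟨T²⟩)` gives the key
criterion. -/
theorem keyCriterion_of_uncertainty {σ : Matrix (A × B) (A × B) ℂ} (hσ : σ.PosSemidef)
    {S : Matrix A A ℂ} {T : Matrix B B ℂ} {H : Matrix (A × B) (A × B) ℂ}
    (hS : S.IsHermitian) (hT : T.IsHermitian) (hH : H.IsHermitian)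
    (hvio : 4 * (σ * (H * H)).trace.re *
        ((σ * ((S * S) ⊗ₖ 1)).trace.re + (σ * (1 ⊗ₖ (T * T))).trace.re) <
      ‖(σ * (H * (S ⊗ₖ 1 + 1 ⊗ₖ T) - (S ⊗ₖ 1 + 1 ⊗ₖ T) * H)).trace‖ ^ 2) :
    KeyCriterion σ := by
  set K := S ⊗ₖ (1 : Matrix B B ℂ) + (1 : Matrix A A ℂ) ⊗ₖ T with hK
  set z := (σ * (H * K - K * H)).trace with hz
  set h := (σ * (H * H)).trace.re
  set w := (σ * ((S * S) ⊗ₖ 1)).trace.re + (σ * (1 ⊗ₖ (T * T))).trace.re with hw
  have hKh : K.IsHermitian := by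
    simp [hK, Matrix.IsHermitian, Matrix.conjTranspose_kronecker, hS.eq, hT.eq]
  have hre : z.re = 0 := by
    have : star z = -z := by
      rw [hz, ← Matrix.trace_conjTranspose, Matrix.conjTranspose_mul, Matrix.conjTranspose_sub,
        Matrix.conjTranspose_mul, Matrix.conjTranspose_mul, hH.eq, hKh.eq, hσ.1.eq,
        Matrix.trace_mul_comm, ← Matrix.trace_neg, ← Matrix.mul_neg, neg_sub]
    have := congr_arg Complex.re this
    simp at this
    linarith
  rw [Complex.sq_norm, Complex.normSq_apply, hre] at hvio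
  obtain ⟨l, hl⟩ : ∃ l : ℝ, h / 2 + 2 * (l ^ 2 * w) < -(l * z.im) := by
    by_cases hw0 : w = 0
    · have hm : z.im ≠ 0 := fun h0 => by simp [hw0, h0] at hvio
      refine ⟨-(|h| + 1) / z.im, ?_⟩
      rw [hw0, div_mul_cancel₀ _ hm]
      simp only [mul_zero, add_zero, neg_neg]
      linarith [le_abs_self h, abs_nonneg h]
    · have hwpos : 0 < w := by
        refine lt_of_le_of_ne ?_ (Ne.symm hw0)
        refine add_nonneg ?_ ?_
        · have : (σ * ((S * S) ⊗ₖ 1)).trace = ((S ⊗ₖ (1 : Matrix B B ℂ)) * σ *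
              (S ⊗ₖ (1 : Matrix B B ℂ))ᴴ).trace := by
            rw [Matrix.trace_mul_comm _ (_)ᴴ, ← Matrix.mul_assoc, Matrix.conjTranspose_kronecker,
              ← Matrix.mul_kronecker_mul, Matrix.trace_mul_comm, hS.eq, Matrix.conjTranspose_one,
              Matrix.mul_one]
          rw [this]
          exact (Complex.le_def.1 (hσ.mul_mul_conjTranspose_same _).trace_nonneg).1
        · have : (σ * (1 ⊗ₖ (T * T))).trace = (((1 : Matrix A A ℂ) ⊗ₖ T) * σ *
              ((1 : Matrix A A ℂ) ⊗ₖ T)ᴴ).trace := by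
            rw [Matrix.trace_mul_comm _ (_)ᴴ, ← Matrix.mul_assoc, Matrix.conjTranspose_kronecker,
              ← Matrix.mul_kronecker_mul, Matrix.trace_mul_comm, hT.eq, Matrix.conjTranspose_one,
              Matrix.mul_one]
          rw [this]
          exact (Complex.le_def.1 (hσ.mul_mul_conjTranspose_same _).trace_nonneg).1
      refine ⟨-z.im / (4 * w), ?_⟩
      field_simp
      nlinarith
  have hsc : ∀ {M : Matrix A A ℂ}, M.IsHermitian → ((l : ℂ) • M).IsHermitian := fun hM => by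
    simp [Matrix.IsHermitian, hM.eq]
  have hsc' : ((l : ℂ) • T).IsHermitian := by simp [Matrix.IsHermitian, hT.eq]
  refine keyCriterion_of_gap hσ (hsc hS) hsc' hH ?_
  have hlin : (σ * (H * (((l : ℂ) • S) ⊗ₖ 1 + 1 ⊗ₖ ((l : ℂ) • T)) -
      (((l : ℂ) • S) ⊗ₖ 1 + 1 ⊗ₖ ((l : ℂ) • T)) * H)).trace = (l : ℂ) * z := by
    rw [Matrix.smul_kronecker, Matrix.kronecker_smul, ← smul_add, ← hK]
    simp [hz, ← smul_sub]
  rw [hlin]
  simp only [Matrix.smul_mul, Matrix.mul_smul, smul_smul, Matrix.smul_kronecker,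
    Matrix.kronecker_smul, Matrix.trace_smul, smul_eq_mul, ← Complex.ofReal_mul,
    Complex.re_ofReal_mul, Complex.im_ofReal_mul]
  nlinarith [hl]

/-- The uncertainty form of the criterion, after local filters `X`, `Y`. -/
theorem keyCriterion_of_filtered_uncertainty {A B C D : Type} [Fintype A] [Fintype B] [Fintype C]
    [Fintype D] [DecidableEq C] [DecidableEq D] {ρ : Matrix (A × B) (A × B) ℂ}
    (hρ : ρ.PosSemidef) (X : Matrix C A ℂ) (Y : Matrix D B ℂ)
    {S : Matrix C C ℂ} {T : Matrix D D ℂ} {H : Matrix (C × D) (C × D) ℂ}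
    (hS : S.IsHermitian) (hT : T.IsHermitian) (hH : H.IsHermitian)
    (hvio : let σ := (X ⊗ₖ Y) * ρ * (X ⊗ₖ Y)ᴴ
      4 * (σ * (H * H)).trace.re *
          ((σ * ((S * S) ⊗ₖ 1)).trace.re + (σ * (1 ⊗ₖ (T * T))).trace.re) <
        ‖(σ * (H * (S ⊗ₖ 1 + 1 ⊗ₖ T) - (S ⊗ₖ 1 + 1 ⊗ₖ T) * H)).trace‖ ^ 2) :
    KeyCriterion ρ :=
  keyCriterion_of_filter X Y
    (keyCriterion_of_uncertainty (hρ.mul_mul_conjTranspose_same _) hS hT hH hvio)

end Vale.P372
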