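import Mathlib

/-!
# P372: a matrix of forms in three variables with one more column than rows drops rank

If a `c × (c+1)` matrix of forms of positive column degrees in three variables had full rank off
the origin, it would be onto in high degrees with the maximal minors spanning its kernel; counting
dimensions gives `(∑ d)² = ∑ d²`, which is false.
-/

namespace Vale.P372

open Matrix MvPolynomial

section Cof

variable {S : Type} [CommRing S] {c : ℕ}

/-- The signed maximal minors. -/
def cof (M : Matrix (Fin c) (Fin (c + 1)) S) (j : Fin (c + 1)) : S :=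
  (-1) ^ (j : ℕ) * (M.submatrix id j.succAbove).det

/-- The matrix with one more row on top. -/
def addRow (w : Fin (c + 1) → S) (M : Matrix (Fin c) (Fin (c + 1)) S) :
    Matrix (Fin (c + 1)) (Fin (c + 1)) S :=
  Matrix.of (Fin.cons w fun i => M i)

lemma det_addRow (w : Fin (c + 1) → S) (M : Matrix (Fin c) (Fin (c + 1)) S) :
    (addRow w M).det = ∑ j, w j * cof M j := by
  rw [Matrix.det_succ_row_zero]
  refine Finset.sum_congr rfl fun j _ => ?_
  have : (addRow w M).submatrix Fin.succ j.succAbove = M.submatrix id j.succAbove := rfl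
  rw [this, cof]
  simp [addRow]
  ring

lemma cof_map {T : Type} [CommRing T] (f : S →+* T) (M : Matrix (Fin c) (Fin (c + 1)) S)
    (j : Fin (c + 1)) : cof (M.map f) j = f (cof M j) := by
  rw [cof, cof, map_mul, map_pow, map_neg, map_one, RingHom.map_det, RingHom.mapMatrix_apply,
    Matrix.submatrix_map]

lemma sum_mul_cof (M : Matrix (Fin c) (Fin (c + 1)) S) (i : Fin c) :
    ∑ j, M i j * cof M j = 0 := by
  rw [← det_addRow]
  exact Matrix.det_zero_of_row_eq (i := 0) (j := i.succ) (Fin.succ_ne_zero i).symm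
    (funext fun j => by simp [addRow])

lemma adjugate_addRow_zero (w : Fin (c + 1) → S) (M : Matrix (Fin c) (Fin (c + 1)) S)
    (j : Fin (c + 1)) : (addRow w M).adjugate j 0 = cof M j := by
  rw [Matrix.adjugate_fin_succ_eq_det_submatrix, cof]
  simp [addRow]
  rfl

lemma cof_mul_eq (w : Fin (c + 1) → S) (M : Matrix (Fin c) (Fin (c + 1)) S)
    (h : Fin (c + 1) → S) (hh : M *ᵥ h = 0) (j : Fin (c + 1)) :
    (∑ k, w k * cof M k) * h j = (∑ k, w k * h k) * cof M j := by
  have h1 := congrFun (congrArg (fun z => z *ᵥ h) (Matrix.adjugate_mul (addRow w M))) j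
  rw [← Matrix.mulVec_mulVec, Matrix.smul_mulVec, Matrix.one_mulVec] at h1
  have h2 : addRow w M *ᵥ h = Pi.single 0 (∑ k, w k * h k) := by
    funext i
    refine Fin.cases ?_ (fun l => ?_) i
    · simp [addRow, Matrix.mulVec, dotProduct]
    · rw [Pi.single_eq_of_ne (Fin.succ_ne_zero l)]
      exact congrFun hh l
  rw [h2, Matrix.mulVec_single, det_addRow] at h1
  simp [adjugate_addRow_zero, mul_comm] at h1
  linear_combination -h1

lemma cof_mul_comm (M : Matrix (Fin c) (Fin (c + 1)) S) (h : Fin (c + 1) → S)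
    (hh : M *ᵥ h = 0) (i j : Fin (c + 1)) : cof M i * h j = h i * cof M j := by
  simpa [Pi.single_apply, ite_mul] using cof_mul_eq (Pi.single i (1 : S)) M h hh j

lemma exists_mulVec_eq (M : Matrix (Fin c) (Fin (c + 1)) S) (v : Fin c → S) (j : Fin (c + 1)) :
    ∃ h : Fin (c + 1) → S, M *ᵥ h = cof M j • v := by
  refine ⟨(addRow (Pi.single j 1) M).adjugate *ᵥ Fin.cons 0 v, funext fun i => ?_⟩
  have h1 := congrFun (congrArg (fun z => z *ᵥ Fin.cons (0 : S) v)
    (Matrix.mul_adjugate (addRow (Pi.single j 1) M))) i.succ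
  rw [← Matrix.mulVec_mulVec, Matrix.smul_mulVec, Matrix.one_mulVec, det_addRow] at h1
  simp only [Pi.smul_apply, smul_eq_mul, Fin.cons_succ] at h1 ⊢
  simpa [addRow, Matrix.mulVec, dotProduct, Pi.single_apply, ite_mul] using h1

end Cof

section Field

variable {K : Type} [Field K] {c : ℕ} {M : Matrix (Fin c) (Fin (c + 1)) K}

/-- Independent rows have a nonzero maximal minor. -/
lemma exists_cof_ne_zero (h : LinearIndependent K M.row) : ∃ j, cof M j ≠ 0 := by
  by_contra hno
  push Not at hno
  have hd : ∀ w, ¬ LinearIndependent K (addRow w M).row := fun w hw => by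
    have h1 := Matrix.linearIndependent_rows_iff_isUnit.1 hw
    rw [Matrix.isUnit_iff_isUnit_det, det_addRow] at h1
    simp [hno] at h1
  have hspan : Submodule.span K (Set.range M.row) = ⊤ := by
    rw [eq_top_iff]
    intro w _
    by_contra hw
    exact hd w (linearIndependent_finCons.2 ⟨h, hw⟩)
  have := finrank_span_eq_card h
  rw [hspan, finrank_top, Module.finrank_fin_fun, Fintype.card_fin] at this
  omega

/-- A functional killed by the vector of minors is a combination of the rows. -/
lemma exists_combination (h : LinearIndependent K M.row) {f : Fin (c + 1) → K}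
    (hf : ∑ j, f j * cof M j = 0) : ∃ β : Fin c → K, ∀ j, ∑ i, β i * M i j = f j := by
  have hd : ¬ LinearIndependent K (addRow f M).row := fun hw => by
    have h1 := Matrix.linearIndependent_rows_iff_isUnit.1 hw
    rw [Matrix.isUnit_iff_isUnit_det, det_addRow, hf] at h1
    simp at h1
  have hmem : f ∈ Submodule.span K (Set.range M.row) := by
    by_contra hw
    exact hd (linearIndependent_finCons.2 ⟨h, hw⟩)
  obtain ⟨β, hβ⟩ := (Submodule.mem_span_range_iff_exists_fun K).1 hmem
  exact ⟨β, fun j => by simpa [Matrix.row] using congrFun hβ j⟩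

end Field

section Drop

/-- Polynomials in three variables. -/
abbrev Poly3 : Type := MvPolynomial (Fin 3) ℂ

variable {c : ℕ}

lemma homogeneousComponent_mul {a : ℕ} {p : Poly3} (hp : p.IsHomogeneous a) (q : Poly3) (m : ℕ)
    (hm : a ≤ m) :
    homogeneousComponent m (p * q) = p * homogeneousComponent (m - a) q := by
  conv_lhs => arg 2; rw [← sum_homogeneousComponent q, Finset.mul_sum]
  rw [map_sum]
  have hterm : ∀ i, homogeneousComponent m (p * homogeneousComponent i q) =
      if i = m - a then p * homogeneousComponent i q else 0 := fun i => by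
    rw [homogeneousComponent_of_mem (hp.mul (homogeneousComponent_isHomogeneous i q))]
    rcases eq_or_ne i (m - a) with h | h
    · rw [if_pos h, if_pos (by omega)]
    · rw [if_neg h, if_neg (by omega)]
  simp only [hterm, Finset.sum_ite_eq']
  split_ifs with h
  · rfl
  · rw [homogeneousComponent_eq_zero (m - a) q (by simp at h; omega), mul_zero]

lemma finrank_homogeneous (k : ℕ) :
    Module.finrank ℂ (homogeneousSubmodule (Fin 3) ℂ k) = (k + 2).choose 2 := by
  classical
  rw [homogeneousSubmodule_eq_finsupp_supported]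
  have hset : {d : Fin 3 →₀ ℕ | d.degree = k} =
      ↑((Finset.univ : Finset (Fin 3)).finsuppAntidiag k) := by
    ext d
    simp [Finsupp.degree_eq_sum]
  rw [hset]
  change Module.finrank ℂ (restrictSupport ℂ _) = _
  rw [Module.finrank_eq_card_basis (basisRestrictSupport ℂ _)]
  simp [Finset.card_finsuppAntidiag_nat_eq_choose]
  rw [Nat.add_comm 2 k, ← Nat.choose_symm (by omega)]
  simp

lemma isHomogeneous_cof {M : Matrix (Fin c) (Fin (c + 1)) Poly3} {d : Fin (c + 1) → ℕ}
    (hM : ∀ i j, (M i j).IsHomogeneous (d j)) (j : Fin (c + 1)) :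
    (cof M j).IsHomogeneous (∑ i, d (j.succAbove i)) := by
  rw [cof]
  have h0 : ((-1 : Poly3) ^ (j : ℕ)).IsHomogeneous 0 := by
    simpa using ((isHomogeneous_one (Fin 3) ℂ).neg).pow (j : ℕ)
  rw [← Nat.zero_add (∑ i, d (j.succAbove i))]
  refine h0.mul ?_
  rw [Matrix.det_apply']
  refine MvPolynomial.IsHomogeneous.sum _ _ _ fun σ _ => ?_
  rw [← Nat.zero_add (∑ i, d (j.succAbove i))]
  refine MvPolynomial.IsHomogeneous.mul ?_
    (MvPolynomial.IsHomogeneous.prod _ _ _ fun i _ => hM _ _)
  rw [← map_intCast (MvPolynomial.C : ℂ →+* Poly3)]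
  exact isHomogeneous_C _ _

/-- A `c × (c+1)` matrix of forms of positive column degrees in three variables drops rank at
some point other than the origin. -/
theorem exists_rank_drop (M : Matrix (Fin c) (Fin (c + 1)) Poly3) (d : Fin (c + 1) → ℕ)
    (hd : ∀ j, 0 < d j) (hM : ∀ i j, (M i j).IsHomogeneous (d j)) (hc : 0 < c) :
    ∃ x : Fin 3 → ℂ, x ≠ 0 ∧ ¬ LinearIndependent ℂ (M.map (eval x)).row := by
  classical
  by_contra hno
  push Not at hno
  set g := cof M with hg
  have hgx : ∀ x : Fin 3 → ℂ, x ≠ 0 → ∃ j, eval x (g j) ≠ 0 := fun x hx => by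
    obtain ⟨j, hj⟩ := exists_cof_ne_zero (hno x hx)
    exact ⟨j, by rwa [cof_map] at hj⟩
  obtain ⟨j₀, hj₀⟩ : ∃ j, g j ≠ 0 := by
    obtain ⟨j, hj⟩ := hgx (Pi.single 0 1) (by simp)
    exact ⟨j, fun h => hj (by rw [h, map_zero])⟩
  set I := Ideal.span (Set.range g) with hI
  have hN : ∀ t : Fin 3, ∃ N : ℕ, X t ^ N ∈ I := fun t => by
    change X t ∈ I.radical
    rw [← vanishingIdeal_zeroLocus_eq_radical (K := ℂ) I, mem_vanishingIdeal_iff]
    intro x hx
    rw [mem_zeroLocus_iff] at hx
    rcases eq_or_ne x 0 with rfl | h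
    · simp
    · obtain ⟨j, hj⟩ := hgx x h
      exact absurd (by simpa [aeval_eq_eval] using hx (g j) (Ideal.subset_span ⟨j, rfl⟩)) hj
  choose Ns hNs using hN
  set N := Ns 0 + Ns 1 + Ns 2 with hNdef
  have hXN : ∀ t, X t ^ N ∈ I := fun t => I.pow_mem_of_pow_mem (hNs t) (by
    fin_cases t <;> simp [hNdef] <;> omega)
  set D := ∑ j, d j with hD
  set k := 3 * N + D + 1 with hk
  have hle : ∀ j, d j ≤ D := fun j => Finset.single_le_sum (fun i _ => Nat.zero_le _)
    (Finset.mem_univ j)
  have hdeg : ∀ j, (g j).IsHomogeneous (D - d j) := fun j => by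
    have : D - d j = ∑ i, d (j.succAbove i) := by rw [hD, Fin.sum_univ_succAbove _ j]; omega
    rw [this]; exact isHomogeneous_cof hM j
  set H := fun m => homogeneousSubmodule (Fin 3) ℂ m with hH
  let L : (Π j, H (k - d j)) →ₗ[ℂ] (Π _i : Fin c, H k) :=
    LinearMap.pi fun i => LinearMap.codRestrict (H k)
      (∑ j, (LinearMap.mulLeft ℂ (M i j)) ∘ₗ (H (k - d j)).subtype ∘ₗ LinearMap.proj j)
      fun h => by
        simp only [LinearMap.coe_sum, Finset.sum_apply]
        refine Submodule.sum_mem _ fun j _ => ?_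
        have : d j + (k - d j) = k := by have := hle j; omega
        have h' := (hM i j).mul (h j).2
        rw [this] at h'
        exact h'
  have hL : ∀ h i, (L h i : Poly3) = ∑ j, M i j * (h j : Poly3) := fun h i => by simp [L]
  have hcomp : ∀ (h : Fin (c + 1) → Poly3) (i : Fin c),
      homogeneousComponent k (∑ j, M i j * h j) =
        ∑ j, M i j * homogeneousComponent (k - d j) (h j) := fun h i => by
    rw [map_sum]
    exact Finset.sum_congr rfl fun j _ =>
      homogeneousComponent_mul (hM i j) _ _ (by have := hle j; omega)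
  have hsurj : LinearMap.range L = ⊤ := by
    rw [LinearMap.range_eq_top]
    intro u
    have hmon : ∀ e : Fin 3 →₀ ℕ, e.degree = k → ∀ r : ℂ, monomial e r ∈ I := fun e he r => by
      obtain ⟨t, ht⟩ : ∃ t, N ≤ e t := by
        by_contra hlt
        push Not at hlt
        have := hlt 0; have := hlt 1; have := hlt 2
        rw [Finsupp.degree_eq_sum, Fin.sum_univ_three] at he
        omega
      have hsplit : e = Finsupp.single t N + (e - Finsupp.single t N) := by
        ext s
        rcases eq_or_ne s t with rfl | h <;> simp_all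
      rw [hsplit, ← one_mul r, ← monomial_mul, ← X_pow_eq_monomial]
      exact I.mul_mem_right _ (hXN t)
    have hu : ∀ i, (u i : Poly3) ∈ I := fun i => by
      rw [(u i : Poly3).as_sum]
      refine I.sum_mem fun e he => hmon e ?_ _
      exact ((u i).2 : (u i : Poly3).IsHomogeneous k).degree_eq_sum_deg_support he ▸ rfl
    choose q hq using fun i => (Ideal.mem_span_range_iff_exists_fun.1 (hu i))
    choose h hh using fun j => exists_mulVec_eq M (fun i => q i j) j
    refine ⟨fun j => ⟨homogeneousComponent (k - d j) (∑ l, h l j),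
      homogeneousComponent_isHomogeneous _ _⟩, funext fun i => Subtype.ext ?_⟩
    rw [hL, ← hcomp (fun j => ∑ l, h l j) i]
    have : ∑ j, M i j * ∑ l, h l j = (u i : Poly3) := by
      rw [← hq i]
      simp only [Finset.mul_sum]
      rw [Finset.sum_comm]
      refine Finset.sum_congr rfl fun l _ => ?_
      have := congrFun (hh l) i
      simp only [Matrix.mulVec, dotProduct, Pi.smul_apply, smul_eq_mul] at this
      rw [this, mul_comm, hg]
    rw [this, homogeneousComponent_eq_self (u i).2]
  let e : H (k - D) →ₗ[ℂ] LinearMap.ker L :=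
    LinearMap.codRestrict _ (LinearMap.pi fun j => LinearMap.codRestrict (H (k - d j))
      (LinearMap.mulLeft ℂ (g j) ∘ₗ (H (k - D)).subtype) fun q => by
        have : (D - d j) + (k - D) = k - d j := by have := hle j; omega
        have h' := (hdeg j).mul q.2
        rw [this] at h'
        exact h')
      fun q => by
        rw [LinearMap.mem_ker]
        refine funext fun i => Subtype.ext ?_
        rw [hL]
        simp [← mul_assoc, ← Finset.sum_mul, hg, sum_mul_cof]
  have he : ∀ q j, ((e q : Π j, H (k - d j)) j : Poly3) = g j * (q : Poly3) := fun q j => rfl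
  have hbij : Function.Bijective e := by
    refine ⟨fun q q' h => Subtype.ext (mul_left_cancel₀ hj₀ ?_), fun h => ?_⟩
    · rw [← he, ← he, h]
    set f : Fin (c + 1) → Poly3 := fun j => ((h : Π j, H (k - d j)) j : Poly3) with hf
    have hker : M *ᵥ f = 0 := funext fun i => by
      have := congrArg Subtype.val (congrFun (LinearMap.mem_ker.1 h.2) i)
      rw [hL] at this
      simpa [Matrix.mulVec, dotProduct, hf] using this
    have hA : ∀ t, ∃ A : Poly3, ∀ i, X t ^ N * f i = g i * A := fun t => by
      obtain ⟨q, hq⟩ := Ideal.mem_span_range_iff_exists_fun.1 (hXN t)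
      refine ⟨∑ j, q j * f j, fun i => ?_⟩
      rw [← hq, Finset.sum_mul, Finset.mul_sum]
      refine Finset.sum_congr rfl fun j _ => ?_
      linear_combination q j * cof_mul_comm M f hker j i
    obtain ⟨A₀, hA₀⟩ := hA 0
    obtain ⟨A₁, hA₁⟩ := hA 1
    have heq : X 1 ^ N * A₀ = X 0 ^ N * A₁ := mul_left_cancel₀ hj₀ (by
      linear_combination X 0 ^ N * hA₁ j₀ - X 1 ^ N * hA₀ j₀)
    have hX0 : ¬ (X 0 : Poly3) ∣ X 1 ^ N := fun hdvd => by
      obtain ⟨r, hr⟩ := hdvd
      simpa using congrArg (eval ![0, 1, 0]) hr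
    obtain ⟨A, hA'⟩ : (X 0 : Poly3) ^ N ∣ A₀ :=
      X_prime.pow_dvd_of_dvd_mul_left N hX0 ⟨A₁, heq⟩
    have hfA : ∀ i, f i = g i * A := fun i => mul_left_cancel₀ (pow_ne_zero N (X_ne_zero 0))
      (by rw [hA₀ i, hA']; ring)
    refine ⟨⟨homogeneousComponent (k - D) A, homogeneousComponent_isHomogeneous _ _⟩,
      Subtype.ext (funext fun j => Subtype.ext ?_)⟩
    rw [he]
    change _ = f j
    rw [show k - D = (k - d j) - (D - d j) by have := hle j; omega,
      ← homogeneousComponent_mul (hdeg j) A _ (by have := hle j; omega), ← hfA,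
      homogeneousComponent_eq_self]
    exact ((h : Π j, H (k - d j)) j).2
  have hfin : ∀ m, Module.Finite ℂ (H m) := fun m =>
    Module.Finite.iff_fg.2 (homogeneousSubmodule_fg (σ := Fin 3) (R := ℂ) m)
  have hrn := L.finrank_range_add_finrank_ker
  rw [hsurj, finrank_top, ← (LinearEquiv.ofBijective e hbij).finrank_eq,
    Module.finrank_pi_fintype, Module.finrank_pi_fintype] at hrn
  have hfr : ∀ m, Module.finrank ℂ (H m) = (m + 2).choose 2 := finrank_homogeneous
  simp only [hfr, Finset.sum_const, Finset.card_univ, Fintype.card_fin,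
    smul_eq_mul] at hrn
  have hch : ∀ m : ℕ, 2 * (((m + 2).choose 2 : ℕ) : ℤ) = ((m : ℤ) + 2) * ((m : ℤ) + 1) := by
    intro m
    have h2 : 2 * (m + 2).choose 2 = (m + 2) * (m + 1) := by
      rw [Nat.choose_two_right, Nat.mul_div_cancel']
      · rfl
      · exact (Nat.even_mul_succ_self (m + 1)).two_dvd.trans (dvd_of_eq (mul_comm _ _))
    exact_mod_cast h2
  have hz : (c : ℤ) * (((k : ℤ) + 2) * ((k : ℤ) + 1)) + ((k : ℤ) - D + 2) * ((k : ℤ) - D + 1) =
      ∑ j, ((k : ℤ) - d j + 2) * ((k : ℤ) - d j + 1) := by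
    have h2 := congrArg (fun n : ℕ => 2 * (n : ℤ)) hrn
    simp only [Nat.cast_add, Nat.cast_mul, Nat.cast_sum, mul_add, Finset.mul_sum,
      mul_left_comm (2 : ℤ) (c : ℤ), hch] at h2
    rw [Nat.cast_sub (show D ≤ k by omega)] at h2
    have hsub : ∀ j, ((k - d j : ℕ) : ℤ) = k - d j := fun j =>
      Nat.cast_sub (by have := hle j; omega)
    simp only [hsub] at h2
    simp only [mul_add]
    exact h2
  have hexp : ∑ j, ((k : ℤ) - d j + 2) * ((k : ℤ) - d j + 1) =
      (c + 1) * (((k : ℤ) + 2) * ((k : ℤ) + 1)) - (2 * k + 3) * D + ∑ j, (d j : ℤ) ^ 2 := by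
    rw [hD, Nat.cast_sum, Finset.mul_sum]
    rw [show ((c : ℤ) + 1) * (((k : ℤ) + 2) * ((k : ℤ) + 1)) =
      ∑ _j : Fin (c + 1), ((k : ℤ) + 2) * ((k : ℤ) + 1) by simp]
    rw [← Finset.sum_sub_distrib, ← Finset.sum_add_distrib]
    exact Finset.sum_congr rfl fun j _ => by ring
  have hsq : ∑ j, (d j : ℤ) ^ 2 < (D : ℤ) ^ 2 := by
    rw [hD, Nat.cast_sum, sq, Finset.sum_mul]
    refine Finset.sum_lt_sum_of_nonempty Finset.univ_nonempty fun j _ => ?_
    rw [sq]
    refine mul_lt_mul_of_pos_left ?_ (by exact_mod_cast hd j)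
    have : Nontrivial (Fin (c + 1)) := Fin.nontrivial_iff_two_le.2 (by omega)
    obtain ⟨i, hi⟩ := exists_ne j
    exact Finset.single_lt_sum (f := fun i => (d i : ℤ)) hi (Finset.mem_univ j) (Finset.mem_univ i)
      (by exact_mod_cast hd i) fun _ _ _ => by positivity
  rw [hexp] at hz
  nlinarith [hz, hsq]

end Drop

end Vale.P372
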