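import Vale.Agent.P372.Vec
import Mathlib.Data.ZMod.Basic
import Mathlib.Algebra.BigOperators.Ring.Finset
import Mathlib.Data.Matrix.Mul

/-!
Characters of binary vectors, averages over binary matrices, truncation.
-/

namespace Vale.P372

open Matrix Finset
open scoped BigOperators

/-- The character of `ZMod 2`. -/
noncomputable def chi (t : ZMod 2) : ℂ := if t = 0 then 1 else -1

lemma chi_add (a b : ZMod 2) : chi (a + b) = chi a * chi b := by
  have h : ∀ a : ZMod 2, a = 0 ∨ a = 1 := by decide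
  rcases h a with rfl | rfl <;> rcases h b with rfl | rfl <;>
    simp [chi, show (1 : ZMod 2) + 1 = 0 by decide]

lemma chi_sum {ι : Type*} (s : Finset ι) (f : ι → ZMod 2) :
    chi (∑ i ∈ s, f i) = ∏ i ∈ s, chi (f i) := by
  induction s using Finset.cons_induction with
  | empty => simp [chi]
  | cons a s ha ih => rw [sum_cons, prod_cons, chi_add, ih]

lemma star_chi (a : ZMod 2) : star (chi a) = chi a := by
  unfold chi; split <;> simp

lemma sum_chi_mul (a : ZMod 2) : ∑ t : ZMod 2, chi (a * t) = if a = 0 then 2 else 0 := by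
  rw [show (univ : Finset (ZMod 2)) = {0, 1} from rfl, sum_insert (by decide), sum_singleton]
  have h : ∀ a : ZMod 2, a = 0 ∨ a = 1 := by decide
  rcases h a with rfl | rfl <;> simp [chi] <;> norm_num

variable {ι M : Type} [Fintype ι] [DecidableEq ι] [Fintype M] [DecidableEq M]

lemma sum_chi_dot (a : ι → ZMod 2) :
    ∑ x : ι → ZMod 2, chi (a ⬝ᵥ x) = if a = 0 then (2 : ℂ) ^ Fintype.card ι else 0 := by
  simp only [dotProduct, chi_sum]
  rw [← Fintype.prod_sum fun i t => chi (a i * t)]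
  simp only [sum_chi_mul]
  split_ifs with h
  · subst h; simp
  · obtain ⟨i, hi⟩ := Function.ne_iff.1 h
    exact prod_eq_zero (mem_univ i) (if_neg hi)

lemma indicator_eq_sum_chi (a : ι → ZMod 2) :
    (if a = 0 then (1 : ℂ) else 0) = ((2 : ℂ) ^ Fintype.card ι)⁻¹ * ∑ x, chi (a ⬝ᵥ x) := by
  rw [sum_chi_dot]; split_ifs <;> simp

lemma add_eq_zero_iff_eq' {a b : ι → ZMod 2} : a + b = 0 ↔ a = b := by
  constructor
  · intro h; funext i
    have := congrFun h i
    revert this
    simp only [Pi.add_apply, Pi.zero_apply]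
    generalize a i = x; generalize b i = y
    revert x y; decide
  · rintro rfl; funext i
    simp only [Pi.add_apply, Pi.zero_apply]
    generalize a i = x; revert x; decide

lemma sum_chi_bilin (v : M → ZMod 2) (x : ι → ZMod 2) :
    ∑ L : Matrix M ι (ZMod 2), chi (v ⬝ᵥ L *ᵥ x) =
      if v = 0 ∨ x = 0 then (Fintype.card (Matrix M ι (ZMod 2)) : ℂ) else 0 := by
  split_ifs with h
  · have : ∀ L : Matrix M ι (ZMod 2), chi (v ⬝ᵥ L *ᵥ x) = 1 := by
      intro L; rcases h with rfl | rfl <;> simp [chi]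
    simp [this]
  · push Not at h
    obtain ⟨i, hi⟩ := Function.ne_iff.1 h.1
    obtain ⟨j, hj⟩ := Function.ne_iff.1 h.2
    let L0 : Matrix M ι (ZMod 2) := Matrix.single i j 1
    have h1 : ∀ a : ZMod 2, a ≠ 0 → a = 1 := by decide
    have hflip : chi (v ⬝ᵥ L0 *ᵥ x) = -1 := by
      have : v ⬝ᵥ L0 *ᵥ x = 1 := by
        simp [L0, dotProduct, Matrix.mulVec, Matrix.single_apply, h1 _ hi, h1 _ hj,
          Finset.sum_ite_eq, ite_and]
      rw [this]; simp [chi]
    have e := Equiv.sum_comp (Equiv.addRight L0)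
      (fun L : Matrix M ι (ZMod 2) => chi (v ⬝ᵥ L *ᵥ x))
    simp only [Equiv.coe_addRight, Matrix.add_mulVec, dotProduct_add, chi_add, hflip,
      mul_neg_one, sum_neg_distrib] at e
    linear_combination (-(1 / 2) : ℂ) * e

lemma dot_vecMul_add (v : M → ZMod 2) (L : Matrix M ι (ZMod 2)) (d x : ι → ZMod 2) :
    (v ᵥ* L + d) ⬝ᵥ x = v ⬝ᵥ L *ᵥ x + d ⬝ᵥ x := by
  rw [add_dotProduct, ← Matrix.dotProduct_mulVec]

/-- A fixed nonzero combination of the rows of a uniform matrix is uniform. -/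
lemma card_vecMul_eq (v : M → ZMod 2) (hv : v ≠ 0) (d : ι → ZMod 2) :
    ((univ.filter fun L : Matrix M ι (ZMod 2) => v ᵥ* L = d).card : ℝ) =
      Fintype.card (Matrix M ι (ZMod 2)) / 2 ^ Fintype.card ι := by
  have h : ((univ.filter fun L : Matrix M ι (ZMod 2) => v ᵥ* L = d).card : ℂ) =
      Fintype.card (Matrix M ι (ZMod 2)) / 2 ^ Fintype.card ι := by
    rw [card_filter]; push_cast
    simp_rw [← add_eq_zero_iff_eq' (a := v ᵥ* _), indicator_eq_sum_chi, ← mul_sum]
    rw [sum_comm]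
    simp_rw [dot_vecMul_add, chi_add, ← sum_mul, sum_chi_bilin]
    simp [hv, dotProduct, chi, div_eq_inv_mul]
  rw [← Complex.ofReal_inj]
  push_cast
  exact h

/-- The syndrome of a fixed nonzero vector under a uniform matrix is uniform. -/
lemma card_syndrome_eq {s : Type} [Fintype s] [DecidableEq s] (f : s → M)
    (hf : Function.Injective f) (e : ι → ZMod 2) (he : e ≠ 0) :
    ((univ.filter fun L : Matrix M ι (ZMod 2) => (L *ᵥ e) ∘ f = 0).card : ℝ) =
      Fintype.card (Matrix M ι (ZMod 2)) / 2 ^ Fintype.card s := by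
  have h : ((univ.filter fun L : Matrix M ι (ZMod 2) => (L *ᵥ e) ∘ f = 0).card : ℂ) =
      Fintype.card (Matrix M ι (ZMod 2)) / 2 ^ Fintype.card s := by
    rw [card_filter]; push_cast
    simp_rw [indicator_eq_sum_chi, ← mul_sum]
    rw [sum_comm]
    have hpad : ∀ (L : Matrix M ι (ZMod 2)) (u : s → ZMod 2),
        ((L *ᵥ e) ∘ f) ⬝ᵥ u = (Function.extend f u 0) ⬝ᵥ (L *ᵥ e) := by
      intro L u
      simp only [dotProduct]
      refine Finset.sum_of_injOn f hf.injOn (by simp) ?_ ?_
      · intro i _ hi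
        rw [Function.extend_apply' _ _ _ (by rintro ⟨a, rfl⟩; exact hi ⟨a, by simp⟩)]
        simp
      · intro a _; simp [hf.extend_apply, mul_comm]
    simp_rw [hpad, sum_chi_bilin]
    have hz : ∀ u : s → ZMod 2, (Function.extend f u 0 = 0 ∨ e = 0) ↔ u = 0 := by
      intro u
      constructor
      · rintro (h | h)
        · funext a; simpa [hf.extend_apply] using congrFun h (f a)
        · exact absurd h he
      · rintro rfl; left; funext i
        by_cases hi : ∃ a, f a = i
        · obtain ⟨a, rfl⟩ := hi; simp [hf.extend_apply]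
        · simp [Function.extend_apply' _ _ _ hi]
    simp [hz, div_eq_inv_mul]
  rw [← Complex.ofReal_inj]
  push_cast
  exact h

/-- Characters summed over a fibre of a linear map. -/
lemma sum_fibre_chi (L : Matrix M ι (ZMod 2)) (c : M → ZMod 2) (d : ι → ZMod 2) :
    ∑ x ∈ univ.filter (fun x => L *ᵥ x = c), chi (d ⬝ᵥ x) =
      (2 : ℂ) ^ Fintype.card ι / 2 ^ Fintype.card M *
        ∑ v ∈ univ.filter (fun v => v ᵥ* L + d = 0), chi (v ⬝ᵥ c) := by
  rw [sum_filter, sum_filter]
  have e : ∀ x : ι → ZMod 2, (if L *ᵥ x = c then chi (d ⬝ᵥ x) else 0) =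
      ((2 : ℂ) ^ Fintype.card M)⁻¹ *
        ∑ v : M → ZMod 2, chi (v ⬝ᵥ c) * chi ((v ᵥ* L + d) ⬝ᵥ x) := by
    intro x
    have := indicator_eq_sum_chi (L *ᵥ x + c)
    simp only [add_eq_zero_iff_eq'] at this
    rw [show (if L *ᵥ x = c then chi (d ⬝ᵥ x) else 0) =
        chi (d ⬝ᵥ x) * (if L *ᵥ x = c then (1 : ℂ) else 0) by split_ifs <;> simp,
      this, mul_left_comm, mul_sum]
    congr 1
    refine sum_congr rfl fun v _ => ?_
    rw [add_dotProduct, chi_add, dot_vecMul_add, chi_add, dotProduct_comm c v,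
      dotProduct_comm (L *ᵥ x) v]
    ring
  simp_rw [e, ← mul_sum]
  rw [sum_comm]
  simp_rw [← mul_sum, sum_chi_dot, mul_ite, mul_zero, mul_sum]
  refine sum_congr rfl fun v _ => ?_
  split_ifs <;> ring

end Vale.P372
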