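import Vale.Agent.P372.Kernel

/-!
# P372: the key criterion is an open condition and passes back through local filters
-/

namespace Vale.P372

open Matrix
open scoped Kronecker ComplexOrder

variable {A B : Type} [Fintype A] [Fintype B]

/-- The key criterion is open in the matrix. -/
theorem isOpen_keyCriterion : IsOpen {ρ : Matrix (A × B) (A × B) ℂ | KeyCriterion ρ} := by
  rw [show {ρ : Matrix (A × B) (A × B) ℂ | KeyCriterion ρ} =
    ⋃ (k : ℕ) (l : ℕ) (X₀ : Matrix (Fin k) A ℂ) (X₁ : Matrix (Fin k) A ℂ)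
      (Y₀ : Matrix (Fin l) B ℂ) (Y₁ : Matrix (Fin l) B ℂ)
      (V : Matrix (Fin k × Fin l) (Fin k × Fin l) ℂ) (_ : (1 - Vᴴ * V).PosSemidef),
      {ρ | weight ρ X₀ Y₀ * weight ρ X₁ Y₁ * weight ρ X₀ Y₁ * weight ρ X₁ Y₀ <
        ‖(V * ((X₀ ⊗ₖ Y₀) * ρ * (X₁ ⊗ₖ Y₁)ᴴ)).trace‖ ^ 4} by
    ext ρ; simp [KeyCriterion]]
  refine isOpen_iUnion fun k => isOpen_iUnion fun l => isOpen_iUnion fun X₀ =>
    isOpen_iUnion fun X₁ => isOpen_iUnion fun Y₀ => isOpen_iUnion fun Y₁ =>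
    isOpen_iUnion fun V => isOpen_iUnion fun _ => ?_
  refine isOpen_lt ?_ ?_
  · simp only [weight]; fun_prop
  · fun_prop

/-- The criterion does not see a positive factor. -/
lemma keyCriterion_of_smul {ρ : Matrix (A × B) (A × B) ℂ} {c : ℝ} (hc : 0 < c)
    (h : KeyCriterion ρ) : KeyCriterion ((c : ℂ) • ρ) := by
  obtain ⟨k, l, X₀, X₁, Y₀, Y₁, V, hV, hlt⟩ := h
  refine ⟨k, l, X₀, X₁, Y₀, Y₁, V, hV, ?_⟩
  simp only [weight, Matrix.mul_smul, Matrix.smul_mul, Matrix.trace_smul, smul_eq_mul,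
    Complex.re_ofReal_mul, norm_mul, Complex.norm_real, Real.norm_eq_abs, abs_of_pos hc] at *
  have := mul_lt_mul_of_pos_left hlt (pow_pos hc 4)
  nlinarith

end Vale.P372
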