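import Vale.Agent.P372.Exact
import Vale.Agent.P372.Open

/-!
# P372: the Horodecki PPT entangled states of a qubit and a four-level system have key

In the coordinates `(μ, 1) ⊗ (1, μ, μ², μ³ + s)` the range consists of all binary quartic forms, and
a witness is a product `S ² m`, `S` of bidegree `(1,1)`, `m` of bidegree `(2,2)`, such that `N m` is
a positive definite form for some positive `N`.
-/

namespace Vale.P372

open Matrix
open scoped Kronecker ComplexOrder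

/-- The position of `|i⟩|k⟩` in the list `|00⟩, …, |03⟩, |10⟩, …, |13⟩`. -/
def pos24 (x : Fin 2 × Fin 4) : Fin 8 := finProdFinEquiv x

/-- The `2 × 4` states of P. Horodecki (1997). -/
noncomputable def horodecki24 (b : ℝ) : Matrix (Fin 2 × Fin 4) (Fin 2 × Fin 4) ℂ :=
  Matrix.of fun x y => ((((7 * b + 1)⁻¹ : ℝ) *
    !![b, 0, 0, 0, 0, b, 0, 0;
       0, b, 0, 0, 0, 0, b, 0;
       0, 0, b, 0, 0, 0, 0, b;
       0, 0, 0, b, 0, 0, 0, 0;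
       0, 0, 0, 0, (1 + b) / 2, 0, 0, √(1 - b ^ 2) / 2;
       b, 0, 0, 0, 0, b, 0, 0;
       0, b, 0, 0, 0, 0, b, 0;
       0, 0, b, 0, √(1 - b ^ 2) / 2, 0, 0, (1 + b) / 2] (pos24 x) (pos24 y) : ℝ) : ℂ)

namespace H24

/-- The same states without radicals: `s = √((1-b)/(1+b))`. -/
def hTab (s : ℝ) : Matrix (Fin 8) (Fin 8) ℝ :=
    !![1 - s ^ 2, 0, 0, 0, 0, 1 - s ^ 2, 0, 0;
       0, 1 - s ^ 2, 0, 0, 0, 0, 1 - s ^ 2, 0;
       0, 0, 1 - s ^ 2, 0, 0, 0, 0, 1 - s ^ 2;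
       0, 0, 0, 1 - s ^ 2, 0, 0, 0, 0;
       0, 0, 0, 0, 1, 0, 0, s;
       1 - s ^ 2, 0, 0, 0, 0, 1 - s ^ 2, 0, 0;
       0, 1 - s ^ 2, 0, 0, 0, 0, 1 - s ^ 2, 0;
       0, 0, 1 - s ^ 2, 0, s, 0, 0, 1]

def hMat (s : ℝ) : Matrix (Fin 2 × Fin 4) (Fin 2 × Fin 4) ℝ := (hTab s).submatrix pos24 pos24

/-- The shifts `μ ^ k ↦ μ ^ (k + 1 - i)` for the two values of `i`. -/
def shift : Fin 2 → Matrix (Fin 4) (Fin 5) ℝ :=
  ![!![0, 1, 0, 0, 0; 0, 0, 1, 0, 0; 0, 0, 0, 1, 0; 0, 0, 0, 0, 1],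
    !![1, 0, 0, 0, 0; 0, 1, 0, 0, 0; 0, 0, 1, 0, 0; 0, 0, 0, 1, 0]]

def shiftE : Matrix (Fin 2 × Fin 4) (Fin 5) ℝ := Matrix.of fun x k => shift x.1 x.2 k

/-- The product of a `(1,1)` and a `(2,2)` form. -/
def lift (S : Matrix (Fin 2) (Fin 2) ℝ) (Z : Matrix (Fin 3) (Fin 3) ℝ) :
    Matrix (Fin 4) (Fin 4) ℝ :=
  !![S 1 1 * Z 0 0,
      S 1 0 * Z 0 0 + S 1 1 * Z 0 1,
      S 1 0 * Z 0 1 + S 1 1 * Z 0 2,
      S 1 0 * Z 0 2;
    S 0 1 * Z 0 0 + S 1 1 * Z 1 0,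
      S 0 0 * Z 0 0 + S 0 1 * Z 0 1 + S 1 0 * Z 1 0 + S 1 1 * Z 1 1,
      S 0 0 * Z 0 1 + S 0 1 * Z 0 2 + S 1 0 * Z 1 1 + S 1 1 * Z 1 2,
      S 0 0 * Z 0 2 + S 1 0 * Z 1 2;
    S 0 1 * Z 1 0 + S 1 1 * Z 2 0,
      S 0 0 * Z 1 0 + S 0 1 * Z 1 1 + S 1 0 * Z 2 0 + S 1 1 * Z 2 1,
      S 0 0 * Z 1 1 + S 0 1 * Z 1 2 + S 1 0 * Z 2 1 + S 1 1 * Z 2 2,
      S 0 0 * Z 1 2 + S 1 0 * Z 2 2;
    S 0 1 * Z 2 0,
      S 0 0 * Z 2 0 + S 0 1 * Z 2 1,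
      S 0 0 * Z 2 1 + S 0 1 * Z 2 2,
      S 0 0 * Z 2 2]

/-- The product of a `(1,1)` and a `(3,3)` form. -/
def lift5 (S : Matrix (Fin 2) (Fin 2) ℝ) (Z : Matrix (Fin 4) (Fin 4) ℝ) :
    Matrix (Fin 5) (Fin 5) ℝ :=
  !![S 1 1 * Z 0 0,
      S 1 0 * Z 0 0 + S 1 1 * Z 0 1,
      S 1 0 * Z 0 1 + S 1 1 * Z 0 2,
      S 1 0 * Z 0 2 + S 1 1 * Z 0 3,
      S 1 0 * Z 0 3;
    S 0 1 * Z 0 0 + S 1 1 * Z 1 0,
      S 0 0 * Z 0 0 + S 0 1 * Z 0 1 + S 1 0 * Z 1 0 + S 1 1 * Z 1 1,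
      S 0 0 * Z 0 1 + S 0 1 * Z 0 2 + S 1 0 * Z 1 1 + S 1 1 * Z 1 2,
      S 0 0 * Z 0 2 + S 0 1 * Z 0 3 + S 1 0 * Z 1 2 + S 1 1 * Z 1 3,
      S 0 0 * Z 0 3 + S 1 0 * Z 1 3;
    S 0 1 * Z 1 0 + S 1 1 * Z 2 0,
      S 0 0 * Z 1 0 + S 0 1 * Z 1 1 + S 1 0 * Z 2 0 + S 1 1 * Z 2 1,
      S 0 0 * Z 1 1 + S 0 1 * Z 1 2 + S 1 0 * Z 2 1 + S 1 1 * Z 2 2,
      S 0 0 * Z 1 2 + S 0 1 * Z 1 3 + S 1 0 * Z 2 2 + S 1 1 * Z 2 3,
      S 0 0 * Z 1 3 + S 1 0 * Z 2 3;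
    S 0 1 * Z 2 0 + S 1 1 * Z 3 0,
      S 0 0 * Z 2 0 + S 0 1 * Z 2 1 + S 1 0 * Z 3 0 + S 1 1 * Z 3 1,
      S 0 0 * Z 2 1 + S 0 1 * Z 2 2 + S 1 0 * Z 3 1 + S 1 1 * Z 3 2,
      S 0 0 * Z 2 2 + S 0 1 * Z 2 3 + S 1 0 * Z 3 2 + S 1 1 * Z 3 3,
      S 0 0 * Z 2 3 + S 1 0 * Z 3 3;
    S 0 1 * Z 3 0,
      S 0 0 * Z 3 0 + S 0 1 * Z 3 1,
      S 0 0 * Z 3 1 + S 0 1 * Z 3 2,
      S 0 0 * Z 3 2 + S 0 1 * Z 3 3,
      S 0 0 * Z 3 3]

lemma slices (S : Matrix (Fin 2) (Fin 2) ℝ) (Z : Matrix (Fin 4) (Fin 4) ℝ) :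
    shiftEᵀ * (S ⊗ₖ Z) * shiftE = ∑ i, ∑ j, S i j • ((shift i)ᵀ * Z * shift j) := by
  ext p q
  simp [shiftE, Matrix.sum_apply, Matrix.mul_apply, kroneckerMap_apply, Fintype.sum_prod_type,
    Fin.sum_univ_two, Fin.sum_univ_four]
  ring

lemma pull (S : Matrix (Fin 2) (Fin 2) ℝ) (Z : Matrix (Fin 4) (Fin 4) ℝ) :
    shiftEᵀ * (S ⊗ₖ Z) * shiftE = lift5 S Z := by
  rw [slices]
  ext p q
  fin_cases p <;> fin_cases q <;>
    simp [shift, lift5, Fin.sum_univ_two, Matrix.mul_apply, Fin.sum_univ_four]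
  all_goals ring

lemma lift_sym {S : Matrix (Fin 2) (Fin 2) ℝ} {Z : Matrix (Fin 3) (Fin 3) ℝ} (hS : Sᵀ = S)
    (hZ : Zᵀ = Z) : (lift S Z)ᵀ = lift S Z := by
  have a : ∀ i j, S i j = S j i := fun i j => (congrFun (congrFun hS j) i)
  have c : ∀ i j, Z i j = Z j i := fun i j => (congrFun (congrFun hZ j) i)
  ext p q
  fin_cases p <;> fin_cases q <;>
    simp [lift, a 1 0, c 1 0, c 2 0, c 2 1] <;> ring

/-- Multiplication of forms commutes. -/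
lemma lift_comm (S N : Matrix (Fin 2) (Fin 2) ℝ) (m : Matrix (Fin 3) (Fin 3) ℝ) :
    lift5 S (lift N m) = lift5 N (lift S m) := by
  ext p q
  fin_cases p <;> fin_cases q <;> simp [lift5, lift]
  all_goals ring

lemma one_kron_conj {C D : Type} [Fintype C] [Fintype D] (S : Matrix (Fin 2) (Fin 2) ℝ)
    (Z : Matrix C C ℝ) (P : Matrix C D ℝ) :
    ((1 : Matrix (Fin 2) (Fin 2) ℝ) ⊗ₖ P)ᵀ * (S ⊗ₖ Z) * ((1 : Matrix (Fin 2) (Fin 2) ℝ) ⊗ₖ P) =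
      S ⊗ₖ (Pᵀ * Z * P) := by
  rw [← Matrix.kroneckerMap_transpose, Matrix.transpose_one, ← Matrix.mul_kronecker_mul,
    ← Matrix.mul_kronecker_mul, Matrix.one_mul, Matrix.mul_one]

def cmat (s : ℝ) : Matrix (Fin 4) (Fin 4) ℝ := !![1, 0, 0, 0; 0, 1, 0, 0; 0, 0, 1, 0; -s, 0, 0, 1]

def qmat (s : ℝ) : Matrix (Fin 2 × Fin 4) (Fin 5) ℝ :=
  ((1 : Matrix (Fin 2) (Fin 2) ℝ) ⊗ₖ cmat (-s)) * shiftE

/-- `qmat` as a table. -/
def qtab (s : ℝ) : Matrix (Fin 8) (Fin 5) ℝ :=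
  !![0, 1, 0, 0, 0; 0, 0, 1, 0, 0; 0, 0, 0, 1, 0; 0, s, 0, 0, 1;
    1, 0, 0, 0, 0; 0, 1, 0, 0, 0; 0, 0, 1, 0, 0; s, 0, 0, 1, 0]

lemma qmat_eq (s : ℝ) : qmat s = (qtab s).submatrix pos24 id := by
  have h : ∀ i k p, qmat s (i, k) p = (cmat (-s) * shift i) k p := by
    intro i k p
    simp [qmat, shiftE, Matrix.mul_apply, Fintype.sum_prod_type, Matrix.one_apply, ite_mul]
  ext ⟨i, k⟩ p
  rw [h]
  fin_cases i <;> fin_cases k <;> fin_cases p <;>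
    simp [cmat, shift, qtab, pos24, finProdFinEquiv, Matrix.mul_apply, Fin.sum_univ_four]

/-- The moment matrix of the state in the quartic basis. -/
def lmat (s : ℝ) : Matrix (Fin 5) (Fin 5) ℝ :=
  !![1, 0, 0, 0, 0; 0, 1 - s ^ 2, 0, 0, -s * (1 - s ^ 2); 0, 0, 1 - s ^ 2, 0, 0;
     0, 0, 0, 1 - s ^ 2, 0; 0, -s * (1 - s ^ 2), 0, 0, (1 - s ^ 2) * (1 + s ^ 2)]

lemma qtab_lmat (s : ℝ) : qtab s * lmat s * (qtab s)ᵀ = hTab s := by
  have h : qtab s * lmat s =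
      !![0, 1 - s ^ 2, 0, 0, -s * (1 - s ^ 2); 0, 0, 1 - s ^ 2, 0, 0; 0, 0, 0, 1 - s ^ 2, 0;
        0, 0, 0, 0, 1 - s ^ 2; 1, 0, 0, 0, 0; 0, 1 - s ^ 2, 0, 0, -s * (1 - s ^ 2);
        0, 0, 1 - s ^ 2, 0, 0; s, 0, 0, 1 - s ^ 2, 0] := by
    ext i p
    fin_cases i <;> fin_cases p <;> simp [qtab, lmat, Matrix.mul_apply, Fin.sum_univ_five]
    all_goals ring
  rw [h]
  ext i j
  fin_cases i <;> fin_cases j <;> simp [qtab, hTab, Matrix.mul_apply, Fin.sum_univ_five]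
  all_goals ring

lemma qmat_lmat (s : ℝ) : qmat s * lmat s * (qmat s)ᵀ = hMat s := by
  rw [qmat_eq, hMat, ← qtab_lmat]
  rfl

def colV (s : ℝ) : Matrix (Fin 8) (Fin 5) ℝ :=
  !![1, 0, 0, 0, 0; 0, 1, 0, 0, 0; 0, 0, 1, 0, 0; 0, 0, 0, 1, 0;
    0, 0, 0, 0, 1; 1, 0, 0, 0, 0; 0, 1, 0, 0, 0; 0, 0, 1, 0, s]

def colW (s : ℝ) : Matrix (Fin 8) (Fin 5) ℝ :=
  !![1, 0, 0, 0, 0; 0, 1, 0, 0, 0; 0, 0, 1, 0, 0; 0, 0, 0, 1, 0;
    0, 1, 0, 0, s; 0, 0, 1, 0, 0; 0, 0, 0, 1, 0; 0, 0, 0, 0, 1]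

def dvec (s : ℝ) : Fin 5 → ℝ := ![1 - s ^ 2, 1 - s ^ 2, 1 - s ^ 2, 1 - s ^ 2, 1]

lemma hMat_gram (s : ℝ) : hMat s =
    ((colV s).submatrix pos24 id) * Matrix.diagonal (dvec s) * ((colV s).submatrix pos24 id)ᵀ := by
  have h : colV s * Matrix.diagonal (dvec s) * (colV s)ᵀ = hTab s := by
    ext i j
    rw [Matrix.mul_apply]
    simp only [Matrix.mul_diagonal, Matrix.transpose_apply, Fin.sum_univ_five]
    fin_cases i <;> fin_cases j <;> simp [colV, dvec, hTab]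
    all_goals ring
  rw [hMat, ← h]
  rfl

/-- The table of the partial transpose. -/
def ptTab (s : ℝ) : Matrix (Fin 8) (Fin 8) ℝ :=
  !![1 - s ^ 2, 0, 0, 0, 0, 0, 0, 0;
    0, 1 - s ^ 2, 0, 0, 1 - s ^ 2, 0, 0, 0;
    0, 0, 1 - s ^ 2, 0, 0, 1 - s ^ 2, 0, 0;
    0, 0, 0, 1 - s ^ 2, 0, 0, 1 - s ^ 2, 0;
    0, 1 - s ^ 2, 0, 0, 1, 0, 0, s;
    0, 0, 1 - s ^ 2, 0, 0, 1 - s ^ 2, 0, 0;
    0, 0, 0, 1 - s ^ 2, 0, 0, 1 - s ^ 2, 0;
    0, 0, 0, 0, s, 0, 0, 1]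

lemma hMat_pt (s : ℝ) :
    partialTranspose ((hMat s).map Complex.ofRealHom) =
      (((colW s).submatrix pos24 id) * Matrix.diagonal (dvec s) *
        ((colW s).submatrix pos24 id)ᵀ).map Complex.ofRealHom := by
  have h : colW s * Matrix.diagonal (dvec s) * (colW s)ᵀ = ptTab s := by
    ext i j
    rw [Matrix.mul_apply]
    simp only [Matrix.mul_diagonal, Matrix.transpose_apply, Fin.sum_univ_five]
    fin_cases i <;> fin_cases j <;>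
      simp [colW, dvec, ptTab]
    all_goals ring
  ext x y
  rw [Matrix.map_apply]
  show Complex.ofRealHom (hMat s (x.1, y.2) (y.1, x.2)) = _
  congr 1
  rw [show (colW s).submatrix pos24 id * Matrix.diagonal (dvec s) *
      ((colW s).submatrix pos24 id)ᵀ = (ptTab s).submatrix pos24 pos24 from by rw [← h]; rfl]
  obtain ⟨i, k⟩ := x; obtain ⟨j, l⟩ := y
  fin_cases i <;> fin_cases k <;> fin_cases j <;> fin_cases l <;>
    simp [hMat, hTab, ptTab, pos24, finProdFinEquiv]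

lemma dvec_nonneg {s : ℝ} (h0 : 0 < s) (h1 : s < 1) (i : Fin 5) : 0 ≤ dvec s i := by
  have : s ^ 2 < 1 := by nlinarith
  fin_cases i <;> simp [dvec] <;> rw [abs_le] <;> constructor <;> linarith

/-- The quartic form `S ² m` paired with the moments, with `T` minus the product `S m`. -/
lemma keyCriterion_of_form {s : ℝ} (h0 : 0 < s) (h1 : s < 1) (S : Matrix (Fin 2) (Fin 2) ℝ)
    (m : Matrix (Fin 3) (Fin 3) ℝ) (hS : Sᵀ = S) (hm : mᵀ = m) (N : Matrix (Fin 2) (Fin 2) ℝ)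
    (hN : (N.map Complex.ofRealHom).PosDef) (Γ : Matrix (Fin 4) (Fin 4) ℝ) (d : Fin 4 → ℝ)
    (hd : ∀ i, 0 < d i) (hΓ : Γ.det ≠ 0) (hM : lift N m = Γᵀ * Matrix.diagonal d * Γ)
    (hneg : (lmat s * (lift5 S (lift S m))).trace < 0) :
    KeyCriterion ((hMat s).map Complex.ofRealHom) := by
  set C := cmat s with hC
  have hCC : C * cmat (-s) = 1 := by
    ext i j
    fin_cases i <;> fin_cases j <;>
      simp [hC, cmat, Matrix.mul_apply, Fin.sum_univ_four]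
  have hCdet : C.det ≠ 0 := by
    intro h
    simpa [h] using congrArg Matrix.det hCC
  have hpull : ∀ (U : Matrix (Fin 2) (Fin 2) ℝ) (Z : Matrix (Fin 4) (Fin 4) ℝ),
      (qmat s)ᵀ * (U ⊗ₖ (Cᵀ * Z * C)) * qmat s = shiftEᵀ * (U ⊗ₖ Z) * shiftE := by
    intro U Z
    have : (cmat (-s))ᵀ * (Cᵀ * Z * C) * cmat (-s) = Z := by
      have e : (cmat (-s))ᵀ * Cᵀ = 1 := by rw [← Matrix.transpose_mul, hCC, Matrix.transpose_one]
      rw [← Matrix.mul_assoc, ← Matrix.mul_assoc, e, Matrix.one_mul, Matrix.mul_assoc, hCC,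
        Matrix.mul_one]
    conv_rhs => rw [← this, ← one_kron_conj]
    rw [qmat, Matrix.transpose_mul]
    simp only [Matrix.mul_assoc]
  have hψ : ((qmat s * lmat s * (qmat s)ᵀ).map Complex.ofRealHom).PosSemidef := by
    rw [qmat_lmat, hMat_gram]
    exact posSemidef_map_gram _ _ (dvec_nonneg h0 h1)
  have hM' : ((Cᵀ * lift N m * C).map Complex.ofRealHom).PosDef := by
    rw [hM, show Cᵀ * (Γᵀ * Matrix.diagonal d * Γ) * C = (Γ * C)ᵀ * Matrix.diagonal d * (Γ * C) by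
      rw [Matrix.transpose_mul]; simp only [Matrix.mul_assoc]]
    exact posDef_map_gram d hd (by rw [Matrix.det_mul]; exact mul_ne_zero hΓ hCdet)
  have hT : (-(Cᵀ * lift S m * C))ᵀ = -(Cᵀ * lift S m * C) := by
    simp only [Matrix.transpose_neg, Matrix.transpose_mul, Matrix.transpose_transpose,
      lift_sym hS hm, Matrix.mul_assoc]
  have hk : ∀ (U : Matrix (Fin 2) (Fin 2) ℝ) (Z : Matrix (Fin 4) (Fin 4) ℝ),
      U ⊗ₖ (-Z) = -(U ⊗ₖ Z) := fun U Z => by ext i j; simp [kroneckerMap_apply]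
  rw [← qmat_lmat]
  refine keyCriterion_of_exact_real (qmat s) (lmat s) hψ hS hT hN hM' ?_ ?_
  · rw [Matrix.mul_add, Matrix.add_mul, hk, Matrix.mul_neg, Matrix.neg_mul, hpull, hpull,
      pull, pull, lift_comm S N m, add_neg_cancel]
  · rw [hk, Matrix.mul_neg, Matrix.neg_mul, hpull, pull, Matrix.mul_neg, Matrix.trace_neg]
    linarith

lemma posDef_one_two : ((1 : Matrix (Fin 2) (Fin 2) ℝ).map Complex.ofRealHom).PosDef := by
  simpa using (Matrix.PosDef.one : (1 : Matrix (Fin 2) (Fin 2) ℂ).PosDef)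

lemma piece_low {s : ℝ} (h0 : 0 < s) (hs : s ≤ 3 / 5) :
    KeyCriterion ((hMat s).map Complex.ofRealHom) := by
  refine keyCriterion_of_form h0 (by linarith) !![-1, 2 / 3 * s; 2 / 3 * s, 1]
    !![1, -s / 2, -2; -s / 2, 49 / 16 + s ^ 2 / 4, s / 2; -2, s / 2, 1] ?_ ?_ 1 posDef_one_two
    !![1, -s / 2, -2, 0; 0, -2, s / 2, 1; 0, 1 / 4, 0, 0; 0, 0, 1 / 4, 0] (fun _ => 1)
    (fun _ => one_pos) ?_ ?_ ?_
  · ext i j; fin_cases i <;> fin_cases j <;> simp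
  · ext i j; fin_cases i <;> fin_cases j <;> simp
  · simp [Matrix.det_succ_row_zero, Fin.sum_univ_succ, Fin.succAbove]
  · ext i j
    fin_cases i <;> fin_cases j <;>
      simp [lift, Matrix.mul_apply, Fin.sum_univ_four] <;>
      ring
  · have e : (lmat s * (lift5 !![-1, 2 / 3 * s; 2 / 3 * s, 1]
        (lift !![-1, 2 / 3 * s; 2 / 3 * s, 1]
          !![1, -s / 2, -2; -s / 2, 49 / 16 + s ^ 2 / 4, s / 2; -2, s / 2, 1]))).trace =
        s ^ 2 * (1 - (1 - s ^ 2) * (29 / 18 + 2 * s ^ 2 / 9)) := by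
      simp [lmat, lift, lift5, Matrix.trace, Fin.sum_univ_five]
      ring
    rw [e]
    have : s ^ 2 ≤ 9 / 25 := by nlinarith
    exact mul_neg_of_pos_of_neg (by positivity) (by nlinarith)

lemma piece_mid {s : ℝ} (hs : 3 / 5 ≤ s) (hs' : s ≤ 151 / 200) :
    KeyCriterion ((hMat s).map Complex.ofRealHom) := by
  refine keyCriterion_of_form (by linarith) (by linarith) !![-5 / 4, 3 / 4; 3 / 4, 1]
    !![16, -5, -26; -5, 28, 5; -26, 5, 16] ?_ ?_ 1 posDef_one_two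
    !![1, -5 / 16, -13 / 8, 0; 0, 1, -130 / 679, -416 / 679; 0, 0, 1, 5 / 44; 0, 0, 0, 1]
    ![16, 679 / 16, 132 / 679, 3 / 44] ?_ ?_ ?_ ?_
  · ext i j; fin_cases i <;> fin_cases j <;> simp
  · ext i j; fin_cases i <;> fin_cases j <;> simp
  · intro i; fin_cases i <;> simp
  · simp [Matrix.det_succ_row_zero, Fin.sum_univ_succ, Fin.succAbove]
  · ext i j
    fin_cases i <;> fin_cases j <;>
      simp [lift, Matrix.mul_apply, Fin.sum_univ_four, Matrix.diagonal_apply] <;>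
      norm_num
  · have e : (lmat s * (lift5 !![-5 / 4, 3 / 4; 3 / 4, 1]
        (lift !![-5 / 4, 3 / 4; 3 / 4, 1]
          !![16, -5, -26; -5, 28, 5; -26, 5, 16]))).trace =
        16 + (1 - s ^ 2) * (26 - 825 / 8 * s + 25 * s ^ 2) := by
      simp [lmat, lift, lift5, Matrix.trace, Fin.sum_univ_five]
      ring
    rw [e]
    nlinarith [mul_nonneg (sub_nonneg.2 hs) (sub_nonneg.2 hs'), sq_nonneg (s - 151 / 200),
      sq_nonneg (s - 3 / 5), mul_nonneg (mul_nonneg (sub_nonneg.2 hs) (sub_nonneg.2 hs'))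
        (by linarith : (0 : ℝ) ≤ s)]

lemma posDef_three_quarters :
    ((!![3 / 4, -1 / 2; -1 / 2, 1] : Matrix (Fin 2) (Fin 2) ℝ).map Complex.ofRealHom).PosDef := by
  have e : (!![3 / 4, -1 / 2; -1 / 2, 1] : Matrix (Fin 2) (Fin 2) ℝ) =
      (!![1, -2 / 3; 0, 1] : Matrix (Fin 2) (Fin 2) ℝ)ᵀ * Matrix.diagonal ![3 / 4, 2 / 3] *
        !![1, -2 / 3; 0, 1] := by
    ext i j
    fin_cases i <;> fin_cases j <;>
      simp [Matrix.mul_apply, Fin.sum_univ_two, Matrix.diagonal_apply] <;> norm_num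
  rw [e]
  exact posDef_map_gram _ (fun i => by fin_cases i <;> simp) (by simp [Matrix.det_fin_two])

lemma piece_high {s : ℝ} (hs : 151 / 200 ≤ s) (hs' : s < 1) :
    KeyCriterion ((hMat s).map Complex.ofRealHom) := by
  refine keyCriterion_of_form (by linarith) hs' !![13 / 8, 1; 1, 0]
    !![30, -36, 19; -36, 33, -13; 19, -13, 10] ?_ ?_ !![3 / 4, -1 / 2; -1 / 2, 1]
    posDef_three_quarters
    !![1, -17 / 10, 37 / 30, -19 / 60; 0, 1, -31 / 48, 23 / 24; 0, 0, 1, -6 / 11; 0, 0, 0, 1]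
    ![30, 24 / 5, 11 / 96, 13 / 264] ?_ ?_ ?_ ?_
  · ext i j; fin_cases i <;> fin_cases j <;> simp
  · ext i j; fin_cases i <;> fin_cases j <;> simp
  · intro i; fin_cases i <;> simp
  · simp [Matrix.det_succ_row_zero, Fin.sum_univ_succ, Fin.succAbove]
  · ext i j
    fin_cases i <;> fin_cases j <;>
      simp [lift, Matrix.mul_apply, Fin.sum_univ_four, Matrix.diagonal_apply] <;>
      norm_num
  · have e : (lmat s * (lift5 !![13 / 8, 1; 1, 0]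
        (lift !![13 / 8, 1; 1, 0]
          !![30, -36, 19; -36, 33, -13; 19, -13, 10]))).trace =
        (1 - s ^ 2) * (3729 / 64 - 195 / 2 * s + 845 / 32 * s ^ 2) := by
      simp [lmat, lift, lift5, Matrix.trace, Fin.sum_univ_five]
      ring
    rw [e]
    exact mul_neg_of_pos_of_neg (by nlinarith) (by nlinarith)

theorem keyCriterion_hMat {s : ℝ} (h0 : 0 < s) (h1 : s < 1) :
    KeyCriterion ((hMat s).map Complex.ofRealHom) := by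
  by_cases ha : s ≤ 3 / 5
  · exact piece_low h0 ha
  by_cases hb : s ≤ 151 / 200
  · exact piece_mid (le_of_not_ge ha) hb
  · exact piece_high (le_of_not_ge hb) h1

end H24

open H24

lemma horodecki24_eq {b : ℝ} (h0 : 0 < b) (h1 : b < 1) :
    ∃ s c : ℝ, 0 < s ∧ s < 1 ∧ 0 < c ∧ c * (8 - 6 * s ^ 2) = 1 ∧
      horodecki24 b = (c : ℂ) • (hMat s).map Complex.ofRealHom := by
  set s := √((1 - b) / (1 + b)) with hs
  have hs2 : s ^ 2 = (1 - b) / (1 + b) := Real.sq_sqrt (by positivity)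
  have hs0 : 0 < s := Real.sqrt_pos.2 (by positivity)
  have hb1 : 0 < 1 + b := by linarith
  have hrad : √(1 - b ^ 2) = s * (1 + b) := by
    rw [Real.sqrt_eq_iff_mul_self_eq (by nlinarith) (by positivity)]
    have : s ^ 2 * (1 + b) = 1 - b := by rw [hs2]; field_simp
    nlinarith
  refine ⟨s, (1 + b) / (2 * (7 * b + 1)), hs0, ?_, by positivity, ?_, ?_⟩
  · nlinarith [hs2, (div_lt_one hb1).2 (by linarith : 1 - b < 1 + b)]
  · rw [hs2]; field_simp; ring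
  · have e : (7 * b + 1)⁻¹ * b = (1 + b) / (2 * (7 * b + 1)) * (1 - s ^ 2) := by
      rw [hs2]; field_simp; ring
    have e1 : (7 * b + 1)⁻¹ * ((1 + b) / 2) = (1 + b) / (2 * (7 * b + 1)) := by field_simp
    have e2 : (7 * b + 1)⁻¹ * (√(1 - b ^ 2) / 2) = (1 + b) / (2 * (7 * b + 1)) * s := by
      rw [hrad]; field_simp
    ext x y
    simp only [horodecki24, hMat, hTab, Matrix.submatrix_apply, Matrix.of_apply, Matrix.smul_apply, Matrix.map_apply,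
      smul_eq_mul, Complex.ofRealHom_eq_coe, ← Complex.ofReal_mul, Complex.ofReal_inj]
    generalize pos24 x = i
    generalize pos24 y = j
    fin_cases i <;> fin_cases j <;> simp [e, e1, e2]

theorem horodecki24_spec {b : ℝ} (h0 : 0 < b) (h1 : b < 1) :
    IsState (horodecki24 b) ∧ IsPPT (horodecki24 b) ∧ KeyCriterion (horodecki24 b) := by
  obtain ⟨s, c, hs0, hs1, hc, hnorm, he⟩ := horodecki24_eq h0 h1
  have hd := dvec_nonneg hs0 hs1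
  refine ⟨⟨?_, ?_⟩, ?_, ?_⟩
  · rw [he, hMat_gram]
    exact (posSemidef_map_gram _ _ hd).smul (Complex.zero_le_real.2 hc.le)
  · rw [he, Matrix.trace_smul]
    have : ((hMat s).map Complex.ofRealHom).trace = ((8 - 6 * s ^ 2 : ℝ) : ℂ) := by
      rw [show ((hMat s).map Complex.ofRealHom).trace = Complex.ofRealHom (hMat s).trace by
        simp [Matrix.trace]]
      simp [Matrix.trace, hMat, hTab, pos24, finProdFinEquiv, Fintype.sum_prod_type, Fin.sum_univ_two,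
        Fin.sum_univ_four]
      ring
    rw [this, smul_eq_mul, ← Complex.ofReal_mul, hnorm, Complex.ofReal_one]
  · have : partialTranspose (horodecki24 b) =
        (c : ℂ) • partialTranspose ((hMat s).map Complex.ofRealHom) := by
      rw [he]; rfl
    rw [IsPPT, this, hMat_pt]
    exact (posSemidef_map_gram _ _ hd).smul (Complex.zero_le_real.2 hc.le)
  · rw [he]; exact keyCriterion_of_smul hc (keyCriterion_hMat hs0 hs1)

end Vale.P372
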