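import Vale.Agent.P372.Fisher
import Vale.Agent.P372.TraceNorm

/-!
# P372: a kernel condition for positive key

Filters that crush one direction of Bob turn an exact vanishing `ρ (S ⊗ M) ρ = 0` into a violation
of the uncertainty relation of separable states.
-/

namespace Vale.P372

open Matrix Filter Topology
open scoped Kronecker ComplexOrder

variable {A B E : Type} [Fintype A] [Fintype B] [Fintype E] [DecidableEq A] [DecidableEq B]
  [DecidableEq E]

/-- The uncertainty violation with the observable chosen from the range of the matrix. -/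
lemma keyCriterion_of_gram {σ : Matrix (A × B) (A × B) ℂ} (R : Matrix (A × B) E ℂ)
    (hR : R * Rᴴ = σ) (hG : (Rᴴ * R).PosDef) {S : Matrix A A ℂ} {T : Matrix B B ℂ}
    (hS : S.IsHermitian) (hT : T.IsHermitian)
    (h : (Rᴴ * (S ⊗ₖ 1 + 1 ⊗ₖ T) * R * (Rᴴ * R)⁻¹ *
        (Rᴴ * (S ⊗ₖ 1 + 1 ⊗ₖ T) * R)).trace.re < 2 * (σ * (S ⊗ₖ T)).trace.re) :
    KeyCriterion σ := by
  have hσ : σ.PosSemidef := hR ▸ posSemidef_self_mul_conjTranspose R
  set K := S ⊗ₖ (1 : Matrix B B ℂ) + (1 : Matrix A A ℂ) ⊗ₖ T with hK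
  set D := (Rᴴ * R)⁻¹ with hD
  set P := R * D * Rᴴ with hP
  have hKh : K.IsHermitian := by
    simp [hK, Matrix.IsHermitian, Matrix.conjTranspose_kronecker, hS.eq, hT.eq]
  have hDh : Dᴴ = D := hG.1.inv.eq
  have hPh : P.IsHermitian := by
    simp [hP, Matrix.IsHermitian, Matrix.conjTranspose_mul, hDh, Matrix.mul_assoc]
  have hu : IsUnit (Rᴴ * R).det := (Matrix.isUnit_iff_isUnit_det _).1 hG.isUnit
  have hPR : P * R = R := by
    rw [hP, Matrix.mul_assoc, Matrix.mul_assoc, hD, Matrix.nonsing_inv_mul _ hu, Matrix.mul_one]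
  have hRP : Rᴴ * P = Rᴴ := by
    simpa [Matrix.conjTranspose_mul, hPh.eq] using congrArg Matrix.conjTranspose hPR
  set H := Complex.I • (K * P - P * K) with hH
  have hHh : H.IsHermitian := by
    simp only [hH, Matrix.IsHermitian, Matrix.conjTranspose_smul, Matrix.conjTranspose_sub,
      Matrix.conjTranspose_mul, hKh.eq, hPh.eq, Complex.star_def, Complex.conj_I]
    module
  set q := (Rᴴ * K * R * D * (Rᴴ * K * R)).trace with hq
  set m := (σ * (K * K)).trace with hm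
  have rot : ∀ Z : Matrix (A × B) (A × B) ℂ, (σ * Z).trace = (Rᴴ * Z * R).trace := fun Z => by
    rw [← hR, Matrix.trace_mul_cycle, Matrix.trace_mul_comm (Z * R), ← Matrix.mul_assoc]
  have hPP : P * P = P := by
    conv_lhs => arg 1; rw [hP]
    rw [Matrix.mul_assoc, hRP, hP]
  have a1 : (σ * (K * P * K)).trace = q := by
    rw [rot, hq, hP]; simp only [Matrix.mul_assoc]
  have a2 : (σ * (P * K * K)).trace = m := by
    rw [rot, hm, rot]; simp only [← Matrix.mul_assoc, hRP]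
  have a3 : (σ * (K * K * P)).trace = m := by
    rw [rot, hm, rot]; simp only [Matrix.mul_assoc, hPR]
  have a4 : (σ * (K * P * K * P)).trace = q := by
    rw [rot, ← a1, rot]; simp only [Matrix.mul_assoc, hPR]
  have a5 : (σ * (P * K * P * K)).trace = q := by
    rw [rot, ← a1, rot]; simp only [← Matrix.mul_assoc, hRP]
  have a6 : (σ * (P * K * K * P)).trace = m := by
    rw [rot, hm, rot]; simp only [← Matrix.mul_assoc, hRP]
    simp only [Matrix.mul_assoc, hPR]
  have hH2 : (σ * (H * H)).trace = m - q := by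
    have : H * H = P * K * K * P + K * P * K - K * P * K * P - P * K * P * K := by
      rw [hH, Matrix.smul_mul, Matrix.mul_smul, smul_smul, Complex.I_mul_I, neg_one_smul]
      simp only [Matrix.mul_sub, Matrix.sub_mul, ← Matrix.mul_assoc]
      rw [Matrix.mul_assoc K P P, hPP]
      abel
    rw [this]
    simp only [Matrix.mul_add, Matrix.mul_sub, Matrix.trace_add, Matrix.trace_sub, a1, a4, a5, a6]
    ring
  have hcom : (σ * (H * K - K * H)).trace = Complex.I * (2 * q - 2 * m) := by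
    have : H * K - K * H =
        Complex.I • (K * P * K + K * P * K - P * K * K - K * K * P) := by
      simp only [hH, Matrix.smul_mul, Matrix.mul_smul, Matrix.mul_sub, Matrix.sub_mul,
        ← Matrix.mul_assoc]
      module
    rw [this]
    simp only [Matrix.mul_smul, Matrix.mul_add, Matrix.mul_sub, Matrix.trace_smul,
      Matrix.trace_add, Matrix.trace_sub, a1, a2, a3, smul_eq_mul]
    ring
  have hmre : m.re = (σ * ((S * S) ⊗ₖ 1)).trace.re + (σ * (1 ⊗ₖ (T * T))).trace.re +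
      2 * (σ * (S ⊗ₖ T)).trace.re := by
    simp only [hm, hK, Matrix.mul_add, Matrix.add_mul, ← Matrix.mul_kronecker_mul, Matrix.one_mul,
      Matrix.mul_one, Matrix.trace_add, Complex.add_re]
    ring
  have h0 : ∀ Z : Matrix (A × B) (A × B) ℂ, 0 ≤ (σ * (Zᴴ * Z)).trace.re := fun Z => by
    rw [← Matrix.mul_assoc, Matrix.trace_mul_comm, ← Matrix.mul_assoc]
    exact (Complex.le_def.1 (hσ.mul_mul_conjTranspose_same Z).trace_nonneg).1
  have hw : 0 ≤ (σ * ((S * S) ⊗ₖ 1)).trace.re + (σ * (1 ⊗ₖ (T * T))).trace.re := by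
    refine add_nonneg ?_ ?_
    · simpa [Matrix.conjTranspose_kronecker, hS.eq, ← Matrix.mul_kronecker_mul] using
        h0 (S ⊗ₖ (1 : Matrix B B ℂ))
    · simpa [Matrix.conjTranspose_kronecker, hT.eq, ← Matrix.mul_kronecker_mul] using
        h0 ((1 : Matrix A A ℂ) ⊗ₖ T)
  refine keyCriterion_of_uncertainty hσ hS hT hHh ?_
  rw [← hK, hH2, hcom, Complex.sq_norm, Complex.normSq_apply]
  simp only [Complex.mul_re, Complex.mul_im, Complex.I_re, Complex.I_im, Complex.sub_re,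
    Complex.sub_im, Complex.re_ofNat, Complex.im_ofNat]
  rw [hmre]
  nlinarith [sq_nonneg (q.im - m.im)]

omit [Fintype E] [DecidableEq E] in
/-- A positive semidefinite matrix is `R Rᴴ` with `Rᴴ R` positive definite. -/
lemma exists_range_factor {M : Matrix A A ℂ} (hM : M.PosSemidef) :
    ∃ (p : A → Prop) (_ : DecidablePred p) (R : Matrix A {i // p i} ℂ),
      R * Rᴴ = M ∧ (Rᴴ * R).PosDef := by
  obtain ⟨W, hW, hMW⟩ := exists_spectral hM.1
  set ev := hM.1.eigenvalues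
  have hWW : Wᴴ * W = 1 := Matrix.mem_unitaryGroup_iff'.1 hW
  classical
  refine ⟨fun i => 0 < ev i, inferInstance,
    Matrix.of fun i j => W i j.1 * (√(ev j.1) : ℂ), ?_, ?_⟩
  · ext i k
    conv_rhs => rw [hMW]
    simp only [Matrix.mul_apply, Matrix.conjTranspose_apply, Matrix.of_apply,
      Matrix.diagonal_apply, mul_ite, mul_zero, Finset.sum_ite_eq', Finset.mem_univ, if_true,
      star_mul', Complex.star_def, Complex.conj_ofReal]
    rw [← Fintype.sum_subtype_add_sum_subtype (fun j => 0 < ev j)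
      (fun j => W i j * (ev j : ℂ) * (starRingEnd ℂ) (W k j))]
    rw [Finset.sum_eq_zero (fun (j : {j // ¬ 0 < ev j}) _ => by
      rw [le_antisymm (not_lt.1 j.2) (hM.eigenvalues_nonneg j.1)]; simp), add_zero]
    refine Finset.sum_congr rfl fun j _ => ?_
    have : ((√(ev j.1) : ℝ) : ℂ) * (√(ev j.1) : ℝ) = (ev j.1 : ℂ) := by
      rw [← Complex.ofReal_mul, Real.mul_self_sqrt j.2.le]
    linear_combination (W i j.1 * (starRingEnd ℂ) (W k j.1)) * this
  · have : (Matrix.of fun i (j : {i // 0 < ev i}) => W i j.1 * (√(ev j.1) : ℂ))ᴴ *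
        (Matrix.of fun i (j : {i // 0 < ev i}) => W i j.1 * (√(ev j.1) : ℂ)) =
        Matrix.diagonal fun j => (ev j.1 : ℂ) := by
      ext j k
      have h1 := congrFun (congrFun hWW j.1) k.1
      simp only [Matrix.mul_apply, Matrix.conjTranspose_apply, Complex.star_def] at h1
      simp only [Matrix.mul_apply, Matrix.conjTranspose_apply, Matrix.of_apply, star_mul',
        Complex.star_def, Complex.conj_ofReal]
      rw [Finset.sum_congr rfl (fun i _ => show (starRingEnd ℂ) (W i j.1) * (√(ev j.1) : ℂ) *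
        (W i k.1 * (√(ev k.1) : ℂ)) = (√(ev j.1) : ℂ) * (√(ev k.1) : ℂ) *
          ((starRingEnd ℂ) (W i j.1) * W i k.1) by ring), ← Finset.mul_sum, h1]
      by_cases hjk : j = k
      · subst hjk; simp [← Complex.ofReal_mul, Real.mul_self_sqrt j.2.le]
      · simp [hjk, Subtype.coe_injective.ne hjk]
    rw [this]
    exact Matrix.PosDef.diagonal fun j => Complex.zero_lt_real.2 j.2

/-- `ρ (S ⊗ M) ρ = 0` for a Hermitian `S` and a positive `M` that is injective on the range of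
`ρ`, and a nonzero mean of `S ⊗ ηηᴴ`: then `ρ` meets the key criterion. -/
theorem keyCriterion_of_kernel {ρ : Matrix (A × B) (A × B) ℂ} (hρ : ρ.PosSemidef)
    {S : Matrix A A ℂ} (hS : S.IsHermitian) {M : Matrix B B ℂ} (hM : M.PosSemidef) (η : B → ℂ)
    (hzero : ρ * (S ⊗ₖ M) * ρ = 0)
    (hinj : ∀ w, ((1 : Matrix A A ℂ) ⊗ₖ M) *ᵥ (ρ *ᵥ w) = 0 → ρ *ᵥ w = 0)
    (hη : (ρ * (S ⊗ₖ vecMulVec η (star η))).trace.re ≠ 0) :
    KeyCriterion ρ := by
  obtain ⟨p, _, R, hR, hG⟩ := exists_range_factor hρ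
  obtain ⟨L, hL⟩ : ∃ L : Matrix B B ℂ, M = Lᴴ * L := by
    open scoped MatrixOrder in
    exact CStarAlgebra.nonneg_iff_eq_star_mul_self.mp hM.nonneg
  set W := vecMulVec η (star η) with hW
  set γ := (ρ * (S ⊗ₖ W)).trace.re with hγ
  have hu : IsUnit (Rᴴ * R).det := (Matrix.isUnit_iff_isUnit_det _).1 hG.isUnit
  have hRρ : R = ρ * (R * (Rᴴ * R)⁻¹) := by
    rw [← hR, Matrix.mul_assoc, ← Matrix.mul_assoc Rᴴ, Matrix.mul_nonsing_inv _ hu, Matrix.mul_one]
  have hRzero : Rᴴ * (S ⊗ₖ M) * R = 0 := by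
    conv_lhs => arg 1; arg 1; rw [hRρ]
    conv_lhs => arg 2; rw [hRρ]
    rw [Matrix.conjTranspose_mul, hρ.1.eq]
    calc _ = (R * (Rᴴ * R)⁻¹)ᴴ * (ρ * (S ⊗ₖ M) * ρ) * (R * (Rᴴ * R)⁻¹) := by
          simp only [Matrix.mul_assoc]
      _ = 0 := by rw [hzero]; simp
  set G₀ := Rᴴ * ((1 : Matrix A A ℂ) ⊗ₖ M) * R with hG₀
  set G₁ := Rᴴ * ((1 : Matrix A A ℂ) ⊗ₖ W) * R with hG₁
  have h1M : ((1 : Matrix A A ℂ) ⊗ₖ M).PosSemidef := Matrix.PosSemidef.one.kronecker hM
  have hWp : W.PosSemidef := posSemidef_vecMulVec_self_star η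
  have hG₀p : G₀.PosDef := by
    refine Matrix.PosDef.of_dotProduct_mulVec_pos (h1M.conjTranspose_mul_mul_same R).1
      fun v hv => ?_
    refine lt_of_le_of_ne ((h1M.conjTranspose_mul_mul_same R).dotProduct_mulVec_nonneg v)
      fun h0 => hv ?_
    have h1 : ((1 : Matrix A A ℂ) ⊗ₖ M) *ᵥ (R *ᵥ v) = 0 := by
      refine (h1M.dotProduct_mulVec_zero_iff _).1 ?_
      rw [h0, star_mulVec, ← dotProduct_mulVec, Matrix.mulVec_mulVec, Matrix.mulVec_mulVec]
    have h2 : R *ᵥ v = 0 := by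
      rw [hRρ, ← Matrix.mulVec_mulVec] at h1 ⊢
      exact hinj _ h1
    have h3 : (Rᴴ * R) *ᵥ v = 0 := by rw [← Matrix.mulVec_mulVec, h2, Matrix.mulVec_zero]
    by_contra hv'
    have := hG.dotProduct_mulVec_pos hv'
    rw [h3, dotProduct_zero] at this
    exact this.false
  set G : ℝ → Matrix {i // p i} {i // p i} ℂ := fun e => G₀ + ((e ^ 2 : ℝ) : ℂ) • G₁ with hGe
  have hGpos : ∀ e, (G e).PosDef := fun e => hG₀p.add_posSemidef
    (((Matrix.PosSemidef.one.kronecker hWp).conjTranspose_mul_mul_same R).smul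
      (Complex.zero_le_real.2 (sq_nonneg e)))
  set N := Rᴴ * (S ⊗ₖ W + (γ : ℂ) • ((1 : Matrix A A ℂ) ⊗ₖ W)) * R with hN
  set f : ℝ → ℝ := fun e => e ^ 2 * (N * (G e)⁻¹ * N).trace.re with hf
  have hfc : ContinuousAt f 0 := by
    have hdet : (G 0).det ≠ 0 := ((Matrix.isUnit_iff_isUnit_det _).1 (hGpos 0).isUnit).ne_zero
    have hinv : ContinuousAt (fun e => (G e)⁻¹) 0 := by
      have hGc : Continuous G := by simp only [hGe]; fun_prop
      simp only [Matrix.inv_def, Ring.inverse_eq_inv']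
      exact ((hGc.matrix_det).continuousAt.inv₀ hdet).smul hGc.matrix_adjugate.continuousAt
    have hc : Continuous fun X : Matrix {i // p i} {i // p i} ℂ => (N * X * N).trace.re := by
      fun_prop
    exact (continuousAt_id.pow 2).mul (hc.continuousAt.comp hinv)
  have hpos : (0 : ℝ) < 2 * γ ^ 2 := by positivity
  have hf0 : f 0 < 2 * γ ^ 2 := by simpa [hf] using hpos
  obtain ⟨e, hfe, he : e ≠ 0⟩ := ((hfc.eventually (gt_mem_nhds hf0)).filter_mono
    (nhdsWithin_le_nhds (s := {(0 : ℝ)}ᶜ))).and self_mem_nhdsWithin |>.exists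
  set V : Matrix Unit B ℂ := (e : ℂ) • Matrix.replicateRow Unit (star η) with hV
  set Y := Matrix.fromRows L V with hY
  set T : Matrix (B ⊕ Unit) (B ⊕ Unit) ℂ :=
    Matrix.fromBlocks 0 0 0 ((γ : ℂ) • 1) with hT
  have hVV : Vᴴ * V = ((e ^ 2 : ℝ) : ℂ) • W := by
    ext i j
    simp [hV, hW, Matrix.mul_apply, vecMulVec_apply, sq]
    ring
  have hYY : Yᴴ * Y = M + ((e ^ 2 : ℝ) : ℂ) • W := by
    rw [hY, Matrix.conjTranspose_fromRows_eq_fromCols_conjTranspose,
      Matrix.fromCols_mul_fromRows, hVV, hL]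
  have hYTY : Yᴴ * T * Y = ((γ * e ^ 2 : ℝ) : ℂ) • W := by
    rw [hY, hT, Matrix.conjTranspose_fromRows_eq_fromCols_conjTranspose, Matrix.mul_assoc,
      Matrix.fromBlocks_mul_fromRows, Matrix.fromCols_mul_fromRows]
    simp [Matrix.smul_mul, Matrix.mul_smul, hVV, ← Complex.coe_smul, smul_smul]
  have hTh : T.IsHermitian := by
    simp [hT, Matrix.IsHermitian, Matrix.fromBlocks_conjTranspose]
  set R' := ((1 : Matrix A A ℂ) ⊗ₖ Y) * R with hR'
  have key : ∀ (Z : Matrix A A ℂ) (Z' : Matrix (B ⊕ Unit) (B ⊕ Unit) ℂ),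
      R'ᴴ * (Z ⊗ₖ Z') * R' = Rᴴ * (Z ⊗ₖ (Yᴴ * Z' * Y)) * R := by
    intro Z Z'
    have : ((1 : Matrix A A ℂ) ⊗ₖ Y)ᴴ * (Z ⊗ₖ Z') * ((1 : Matrix A A ℂ) ⊗ₖ Y) =
        Z ⊗ₖ (Yᴴ * Z' * Y) := by
      simp [Matrix.conjTranspose_kronecker, ← Matrix.mul_kronecker_mul]
    rw [← this, hR', Matrix.conjTranspose_mul]
    simp only [Matrix.mul_assoc]
  have hG' : R'ᴴ * R' = G e := by
    have := key 1 1
    rw [Matrix.one_kronecker_one, Matrix.mul_one, Matrix.mul_one] at this
    rw [this, hYY, Matrix.kronecker_add, Matrix.kronecker_smul]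
    simp only [hGe, hG₀, hG₁, Matrix.mul_add, Matrix.add_mul, Matrix.mul_smul, Matrix.smul_mul]
  have hN' : R'ᴴ * (S ⊗ₖ 1 + 1 ⊗ₖ T) * R' = ((e ^ 2 : ℝ) : ℂ) • N := by
    rw [Matrix.mul_add, Matrix.add_mul, key, key, Matrix.mul_one, hYY, hYTY]
    simp only [hN, Matrix.kronecker_add, Matrix.kronecker_smul, Matrix.mul_add, Matrix.add_mul,
      Matrix.mul_smul, Matrix.smul_mul, hRzero, zero_add, smul_add, smul_smul]
    congr 2
    push_cast; ring
  refine keyCriterion_of_filter (1 : Matrix A A ℂ) Y ?_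
  refine keyCriterion_of_gram R' ?_ (hG' ▸ hGpos e) hS hTh ?_
  · rw [hR', Matrix.conjTranspose_mul, ← hR]; simp only [Matrix.mul_assoc]
  · have hrhs : ((((1 : Matrix A A ℂ) ⊗ₖ Y) * ρ * ((1 : Matrix A A ℂ) ⊗ₖ Y)ᴴ) *
        (S ⊗ₖ T)).trace.re = γ * e ^ 2 * γ := by
      have : ((1 : Matrix A A ℂ) ⊗ₖ Y)ᴴ * (S ⊗ₖ T) * ((1 : Matrix A A ℂ) ⊗ₖ Y) =
          S ⊗ₖ (Yᴴ * T * Y) := by
        simp [Matrix.conjTranspose_kronecker, ← Matrix.mul_kronecker_mul]
      rw [Matrix.mul_assoc, Matrix.trace_mul_comm, ← Matrix.mul_assoc, Matrix.trace_mul_comm,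
        this, hYTY, Matrix.kronecker_smul, Matrix.mul_smul, Matrix.trace_smul, smul_eq_mul,
        Complex.re_ofReal_mul]
    rw [hG', hN', hrhs]
    simp only [Matrix.smul_mul, Matrix.mul_smul, Matrix.trace_smul, smul_eq_mul, smul_smul,
      ← Complex.ofReal_mul, Complex.re_ofReal_mul]
    have he2 : 0 < e ^ 2 := by positivity
    have := mul_lt_mul_of_pos_left hfe he2
    simp only [hf] at this
    nlinarith

end Vale.P372
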