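import Vale.Agent.P372.Code
import Mathlib.Analysis.SpecialFunctions.Pow.Continuity
import Mathlib.Analysis.Complex.Exponential
import Mathlib.Analysis.SpecialFunctions.Log.Base

/-!
Block length and code rates.
-/

namespace Vale.P372

open Matrix Finset Filter Topology
open scoped BigOperators

lemma rate_condition (η ε α : ℝ) (hη0 : 0 < η) (hη1 : η ≤ 1) (hε0 : 0 ≤ ε) (hε1 : ε ≤ 1)
    (hα0 : 0 < α) (hα1 : α < 1) (hkey : ε ^ (1 - α) / α < η ^ 2 / 5) :
    (1 + √(1 - η ^ 2)) * ((1 - ε) ^ (1 - α) + ε ^ (1 - α)) ^ α⁻¹ < 2 := by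
  set u := ε ^ (1 - α) with hu
  have hu0 : 0 ≤ u := Real.rpow_nonneg hε0 _
  have hb : ((1 - ε) ^ (1 - α) + u) ^ α⁻¹ ≤ Real.exp (u / α) := by
    have h1 : (1 - ε) ^ (1 - α) + u ≤ Real.exp u := by
      have := Real.add_one_le_exp u
      have h : (1 - ε) ^ (1 - α) ≤ 1 := Real.rpow_le_one (by linarith) (by linarith) (by linarith)
      linarith
    refine (Real.rpow_le_rpow (add_nonneg (Real.rpow_nonneg (by linarith) _) hu0) h1
      (by positivity)).trans (le_of_eq ?_)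
    rw [← Real.exp_mul, div_eq_mul_inv]
  have hsq : √(1 - η ^ 2) ≤ 1 - η ^ 2 / 2 := by
    rw [Real.sqrt_le_left (by nlinarith)]
    nlinarith [sq_nonneg (η ^ 2)]
  have hy : 0 ≤ u / α := by positivity
  have hη2 : η ^ 2 ≤ 1 := by nlinarith
  have hexp : Real.exp (u / α) ≤ 1 / (1 - u / α) :=
    Real.exp_bound_div_one_sub_of_interval hy (by linarith)
  calc (1 + √(1 - η ^ 2)) * ((1 - ε) ^ (1 - α) + u) ^ α⁻¹
      ≤ (2 - η ^ 2 / 2) * (1 / (1 - u / α)) := by
        refine mul_le_mul (by linarith) (hb.trans hexp)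
          (Real.rpow_nonneg (add_nonneg (Real.rpow_nonneg (by linarith) _) hu0) _) (by linarith)
    _ < 2 := by
        rw [mul_one_div, div_lt_iff₀ (by linarith)]
        nlinarith


/-- A good block length exists once `t^4` beats the product of the four weights. -/
lemma exists_block (t a d : ℝ) (ht : 0 < t) (ha : t ^ 2 ≤ a) (hd : 0 ≤ d) (hlt : a * d < t ^ 4) :
    ∃ m : ℕ, 0 < m ∧ ∃ α : ℝ, 0 < α ∧ α < 1 ∧
      (1 + √(1 - ((t ^ 2) ^ m / (a ^ m + d ^ m)) ^ 2)) *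
        ((1 - d ^ m / (a ^ m + d ^ m)) ^ (1 - α) + (d ^ m / (a ^ m + d ^ m)) ^ (1 - α)) ^ α⁻¹ < 2 := by
  have ha0 : 0 < a := lt_of_lt_of_le (by positivity) ha
  have hda : d < a := by
    by_contra h
    push Not at h
    have : t ^ 4 ≤ a * d := calc
      t ^ 4 = t ^ 2 * t ^ 2 := by ring
      _ ≤ a * a := mul_le_mul ha ha (by positivity) ha0.le
      _ ≤ a * d := mul_le_mul_of_nonneg_left h ha0.le
    linarith
  set ρ := d / a with hρ
  set σ := (t ^ 2 / a) ^ 2 with hσ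
  have hρ0 : 0 ≤ ρ := div_nonneg hd ha0.le
  have hρσ : ρ < σ := by
    rw [hρ, hσ, div_pow, div_lt_div_iff₀ ha0 (by positivity)]
    nlinarith
  have hc : Tendsto (fun α : ℝ => ρ ^ (1 - α)) (𝓝[>] 0) (𝓝 ρ) := by
    have h1 : ContinuousAt (fun y : ℝ => ρ ^ y) 1 :=
      Real.continuousAt_const_rpow' (by norm_num)
    have h2 : Tendsto (fun α : ℝ => 1 - α) (𝓝[>] 0) (𝓝 1) := by
      have := (continuous_const.sub continuous_id).tendsto' (0 : ℝ) 1 (by norm_num : (1 : ℝ) - 0 = 1)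
      exact this.mono_left nhdsWithin_le_nhds
    have := h1.tendsto.comp h2
    rwa [Real.rpow_one] at this
  obtain ⟨α, hα, hα0, hα1⟩ := ((hc.eventually_lt_const hρσ).and
    (Ioo_mem_nhdsGT (show (0 : ℝ) < 1 by norm_num))).exists
  have hσ0 : 0 < σ := by positivity
  have hq : ρ ^ (1 - α) / σ < 1 := (div_lt_one hσ0).2 hα
  have hq0 : 0 ≤ ρ ^ (1 - α) / σ := by positivity
  obtain ⟨m, hm⟩ := exists_pow_lt_of_lt_one (show 0 < α / 20 by positivity) hq
  have hm' : (ρ ^ (1 - α) / σ) ^ (m + 1) < α / 20 :=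
    lt_of_le_of_lt (pow_le_pow_of_le_one hq0 hq.le (Nat.le_succ m)) hm
  refine ⟨m + 1, m.succ_pos, α, hα0, hα1, ?_⟩
  generalize hn : m + 1 = n at hm' ⊢
  have hS : 0 < a ^ n + d ^ n := by positivity
  set η := (t ^ 2) ^ n / (a ^ n + d ^ n) with hη
  set ε := d ^ n / (a ^ n + d ^ n) with hε
  have hε0 : 0 ≤ ε := by positivity
  have hε1 : ε ≤ 1 := by rw [hε, div_le_one hS]; nlinarith [pow_pos ha0 n]
  have hη0 : 0 < η := by positivity
  have hta : (t ^ 2) ^ n ≤ a ^ n := pow_le_pow_left₀ (by positivity) ha n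
  have hη1 : η ≤ 1 := by rw [hη, div_le_one hS]; nlinarith [pow_nonneg hd n]
  have hεle : ε ≤ ρ ^ n := by
    rw [hε, hρ, div_pow]
    exact div_le_div_of_nonneg_left (by positivity) (by positivity) (by nlinarith [pow_nonneg hd n])
  have hηge : (t ^ 2 / a) ^ n / 2 ≤ η := by
    rw [hη, div_pow, div_div]
    refine div_le_div_of_nonneg_left (by positivity) hS ?_
    have : d ^ n ≤ a ^ n := pow_le_pow_left₀ hd hda.le n
    linarith
  have hkey : ε ^ (1 - α) / α < η ^ 2 / 5 := by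
    have h1 : ε ^ (1 - α) ≤ (ρ ^ (1 - α)) ^ n := by
      refine (Real.rpow_le_rpow hε0 hεle (by linarith)).trans (le_of_eq ?_)
      rw [← Real.rpow_natCast, ← Real.rpow_natCast, ← Real.rpow_mul hρ0, ← Real.rpow_mul hρ0,
        mul_comm]
    have h2 : (ρ ^ (1 - α)) ^ n < α / 20 * σ ^ n := by
      rw [div_pow, div_lt_iff₀ (pow_pos hσ0 n)] at hm'; exact hm'
    have h3 : σ ^ n / 4 ≤ η ^ 2 := by
      have h4 : σ ^ n / 4 = ((t ^ 2 / a) ^ n / 2) ^ 2 := by
        rw [hσ, ← pow_mul, mul_comm, pow_mul]; ring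
      rw [h4]; exact pow_le_pow_left₀ (by positivity) hηge 2
    rw [div_lt_iff₀ hα0]
    have : α / 20 * σ ^ n ≤ η ^ 2 / 5 * α := by nlinarith
    linarith
  exact rate_condition η ε α hη0 hη1 hε0 hε1 hα0 hα1 hkey

lemma union_bound (g B A κ : ℝ) (k r s : ℕ) (c : ℝ) (hg : 1 ≤ g) (hB : 0 ≤ B) (hA : 0 ≤ A)
    (hc : 0 ≤ c) (hr : (2 : ℝ) ^ r ≤ g ^ k) (hs : (2 : ℝ) ^ s ≤ 2 * B ^ k) (hcA : c ≤ A ^ k)
    (he : g * B * A * (g * g) = 2) (hκ : 1 / g ≤ κ) :
    (2 : ℝ) ^ (r + s) * c / 2 ^ k ≤ 2 * κ ^ k := by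
  have h0 : 0 ≤ g * B * A := by positivity
  have h1 : g * B * A / 2 ≤ κ := by
    refine le_trans ?_ hκ
    rw [div_le_div_iff₀ two_pos (by linarith)]
    nlinarith [mul_le_mul_of_nonneg_left hg (mul_nonneg h0 (show (0 : ℝ) ≤ g by linarith))]
  calc (2 : ℝ) ^ (r + s) * c / 2 ^ k ≤ g ^ k * (2 * B ^ k) * A ^ k / 2 ^ k := by
        rw [pow_add]; gcongr
    _ = 2 * (g * B * A / 2) ^ k := by simp only [div_pow, mul_pow]; ring
    _ ≤ 2 * κ ^ k :=
        mul_le_mul_of_nonneg_left (pow_le_pow_left₀ (by positivity) h1 k) zero_le_two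

/-- Rates: exponentially good codes at a positive key rate. -/
theorem exists_rates (η ε α : ℝ) (hη0 : 0 ≤ η) (hη1 : η ≤ 1) (hε0 : 0 ≤ ε) (hε1 : ε ≤ 1)
    (hα0 : 0 < α) (hα1 : α < 1)
    (h : (1 + √(1 - η ^ 2)) * ((1 - ε) ^ (1 - α) + ε ^ (1 - α)) ^ α⁻¹ < 2) :
    ∃ R κ : ℝ, 0 < R ∧ 0 ≤ κ ∧ κ < 1 ∧ ∃ s : ℕ → ℕ,
      ∀ (ι : Type) [Fintype ι] [DecidableEq ι] (r : ℕ), (r : ℝ) ≤ R * Fintype.card ι →
        ∃ (L : Matrix (Fin r ⊕ Fin (s (Fintype.card ι))) ι (ZMod 2))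
          (Tp Tq : Finset (ι → ZMod 2)),
          ∑ a ∈ (goodPhase L Tp)ᶜ, prodw (phaseW η) a +
            ∑ a ∈ (goodBit L Tq)ᶜ, prodw (fun t => if t = 0 then 1 - ε else ε) a ≤
              5 * κ ^ Fintype.card ι := by
  set b := (1 - ε) ^ (1 - α) + ε ^ (1 - α) with hb
  set q : ZMod 2 → ℝ := fun t => if t = 0 then 1 - ε else ε with hq
  have hq0 : ∀ t, 0 ≤ q t := fun t => by simp only [hq]; split <;> linarith
  have hq1 : q 0 + q 1 = 1 := by simp [hq]
  set a2 := 1 + √(1 - η ^ 2) with ha2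
  have ha : (phaseW η 0 ^ (1 - (1 / 2 : ℝ)) + phaseW η 1 ^ (1 - (1 / 2 : ℝ))) ^ 2 = a2 := by
    have e : (1 : ℝ) - 1 / 2 = 1 / 2 := by norm_num
    rw [e, ← Real.sqrt_eq_rpow, ← Real.sqrt_eq_rpow]
    simp only [phaseW, if_true, show (1 : ZMod 2) ≠ 0 by decide, if_false]
    rw [add_sq, Real.sq_sqrt (by linarith), Real.sq_sqrt (by linarith), mul_assoc,
      ← Real.sqrt_mul (by linarith), show (1 + η) / 2 * ((1 - η) / 2) = (1 - η ^ 2) / 4 by ring,
      Real.sqrt_div' _ (by norm_num), show √(4 : ℝ) = 2 by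
        rw [show (4 : ℝ) = 2 ^ 2 by norm_num, Real.sqrt_sq (by norm_num)]]
    ring
  have ha2pos : 1 ≤ a2 := by have := Real.sqrt_nonneg (1 - η ^ 2); linarith
  have hbpos : 1 ≤ b := by
    have h1 : 1 - ε ≤ (1 - ε) ^ (1 - α) :=
      Real.self_le_rpow_of_le_one (by linarith) (by linarith) (by linarith)
    have h2 : ε ≤ ε ^ (1 - α) := Real.self_le_rpow_of_le_one hε0 hε1 (by linarith)
    linarith
  have hbb : 1 ≤ b ^ α⁻¹ := Real.one_le_rpow hbpos (by positivity)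
  set x := a2 * b ^ α⁻¹ with hx
  have hx0 : 0 < x := by positivity
  set g := (2 / x) ^ ((6 : ℝ)⁻¹) with hg
  have hg1 : 1 < g := Real.one_lt_rpow ((one_lt_div hx0).2 h) (by norm_num)
  have hg6 : g ^ 6 * x = 2 := by
    rw [hg, ← Real.rpow_natCast, ← Real.rpow_mul (by positivity)]
    norm_num
    field_simp
  set A := a2 * g with hA
  set B := b ^ α⁻¹ * g with hB
  set B' := B * g with hB'
  have hg0 : 0 < g := by linarith
  have hApos : 0 < A := by positivity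
  have hBpos : 0 < B := by positivity
  have hB'1 : 1 < B' := by rw [hB', hB]; nlinarith
  set R := Real.logb 2 g with hR
  have hRpos : 0 < R := Real.logb_pos (by norm_num) hg1
  set κ := max (1 / √g) (max (1 / g ^ α) (1 / g)) with hκ
  have hsg : 1 < √g := by rw [← Real.sqrt_one]; exact Real.sqrt_lt_sqrt zero_le_one hg1
  have hga : 1 < g ^ α := Real.one_lt_rpow hg1 hα0
  have hκ0 : 0 ≤ κ := le_max_of_le_left (by positivity)
  have hκ1 : κ < 1 := by
    simp only [hκ, max_lt_iff]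
    exact ⟨(div_lt_one (by positivity)).2 hsg, (div_lt_one (by positivity)).2 hga,
      (div_lt_one hg0).2 hg1⟩
  refine ⟨R, κ, hRpos, hκ0, hκ1, fun k => Nat.find (pow_unbounded_of_one_lt (B' ^ k) one_lt_two), ?_⟩
  intro ι _ _ r hr
  set k := Fintype.card ι with hk
  set s := Nat.find (pow_unbounded_of_one_lt (B' ^ k) (one_lt_two (α := ℝ))) with hs
  have hs1 : B' ^ k < (2 : ℝ) ^ s := Nat.find_spec (pow_unbounded_of_one_lt (B' ^ k) one_lt_two)
  have hs2 : (2 : ℝ) ^ s ≤ 2 * B' ^ k := by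
    rcases Nat.eq_zero_or_pos s with h0 | h0
    · rw [h0]; nlinarith [one_le_pow₀ (M₀ := ℝ) hB'1.le (n := k)]
    · have := Nat.find_min (pow_unbounded_of_one_lt (B' ^ k) (one_lt_two (α := ℝ)))
        (show s - 1 < s by omega)
      push Not at this
      rw [show s = s - 1 + 1 by omega, pow_succ]
      linarith
  have hr2 : (2 : ℝ) ^ r ≤ g ^ k := by
    rw [← Real.rpow_natCast 2 r]
    refine (Real.rpow_le_rpow_of_exponent_le one_le_two hr).trans (le_of_eq ?_)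
    rw [Real.rpow_mul (by norm_num), hR, Real.rpow_logb (by norm_num) (by norm_num) hg0,
      Real.rpow_natCast]
  set θ := (1 / A) ^ k with hθ
  set θ' := (1 / B) ^ k with hθ'
  obtain ⟨L, hL⟩ := exists_good_matrix (ι := ι) (r := r) (s := s) (phaseW_nonneg hη0 hη1)
    (phaseW_sum η) hq0 hq1 θ θ'
  refine ⟨L, typ (phaseW η) θ, typ q θ', hL.trans ?_⟩
  have hpk : ∀ y, 0 ≤ y → y ≤ κ → y ^ k ≤ κ ^ k := fun y h0 h1 => pow_le_pow_left₀ h0 h1 k
  have t1 : ∑ c ∈ (typ (ι := ι) (phaseW η) θ)ᶜ, prodw (phaseW η) c ≤ κ ^ k := by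
    refine (typ_tail_le (phaseW_nonneg hη0 hη1) (by positivity)
      (show (0 : ℝ) < 1 / 2 by norm_num) (by norm_num)).trans ?_
    refine le_trans (le_of_eq ?_) (hpk (1 / √g) (by positivity) (le_max_left _ _))
    rw [hθ, ← hk, ← Real.rpow_pow_comm (by positivity), ← mul_pow]
    congr 1
    set p := phaseW η 0 ^ (1 - (1 / 2 : ℝ)) + phaseW η 1 ^ (1 - (1 / 2 : ℝ)) with hp
    have hp0 : 0 ≤ p := add_nonneg (Real.rpow_nonneg (phaseW_nonneg hη0 hη1 _) _)
      (Real.rpow_nonneg (phaseW_nonneg hη0 hη1 _) _)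
    rw [← Real.sqrt_eq_rpow, hA, ← ha, Real.sqrt_div' _ (by positivity), Real.sqrt_one,
      Real.sqrt_mul (sq_nonneg p), Real.sqrt_sq hp0]
    have : p ≠ 0 := fun h0 => by rw [h0] at ha; norm_num at ha; linarith
    field_simp
  have t2 : ∑ c ∈ (typ (ι := ι) q θ')ᶜ, prodw q c ≤ κ ^ k := by
    refine (typ_tail_le hq0 (by positivity) hα0 hα1).trans ?_
    refine le_trans (le_of_eq ?_) (hpk (1 / g ^ α) (by positivity)
      (le_max_of_le_right (le_max_left _ _)))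
    rw [hθ', ← hk, ← Real.rpow_pow_comm (by positivity), ← mul_pow]
    congr 1
    rw [Real.div_rpow zero_le_one hBpos.le, Real.one_rpow, hB,
      Real.mul_rpow (by positivity) hg0.le, ← Real.rpow_mul (by linarith),
      inv_mul_cancel₀ hα0.ne', Real.rpow_one, show q 0 = 1 - ε from if_pos rfl,
      show q 1 = ε from if_neg (by decide), ← hb]
    field_simp
  have c1 : ((typ (ι := ι) (phaseW η) θ).card : ℝ) ≤ A ^ k := by
    have := typ_card_mul_le (ι := ι) (phaseW_nonneg hη0 hη1) (phaseW_sum η) θ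
    rw [hθ, _root_.one_div_pow, mul_one_div, div_le_one (pow_pos hApos k)] at this
    rw [hθ, _root_.one_div_pow]
    exact this
  have c2 : ((typ (ι := ι) q θ').card : ℝ) ≤ B ^ k := by
    have := typ_card_mul_le (ι := ι) hq0 hq1 θ'
    rw [hθ', _root_.one_div_pow, mul_one_div, div_le_one (pow_pos hBpos k)] at this
    rw [hθ', _root_.one_div_pow]
    exact this
  have e : g * (b ^ α⁻¹ * g * g) * (a2 * g) * (g * g) = 2 := by
    linear_combination hg6 - g ^ 6 * hx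
  have t3 : (2 : ℝ) ^ (r + s) * (typ (ι := ι) (phaseW η) θ).card / 2 ^ k ≤ 2 * κ ^ k :=
    union_bound g B' A κ k r s _ hg1.le (by positivity) hApos.le (Nat.cast_nonneg _) hr2 hs2 c1
      (by rw [hB', hB, hA]; exact e) (le_max_of_le_right (le_max_right _ _))
  have t4 : ((typ (ι := ι) q θ').card : ℝ) / 2 ^ s ≤ κ ^ k := by
    calc ((typ (ι := ι) q θ').card : ℝ) / 2 ^ s ≤ B ^ k / B' ^ k := by gcongr
      _ = (1 / g) ^ k := by
          rw [← div_pow, hB', div_mul_eq_div_div, div_self hBpos.ne']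
      _ ≤ _ := hpk _ (by positivity) (le_max_of_le_right (le_max_right _ _))
  linarith

end Vale.P372
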