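import Vale.Agent.P372.Branch
import Vale.Agent.P372.Param

/-!
The criterion gives a positive key rate.
-/

namespace Vale.P372

open Matrix Finset Filter Topology
open scoped BigOperators ComplexOrder Kronecker

variable {n m N rem : ℕ} (e : Fin n ≃ (Fin N × Q m) ⊕ Fin rem)

lemma sum_W (p : Out → Out → ℝ) (hp1 : ∑ a, ∑ b, p a b = 1) {ι : Type} [Fintype ι] [DecidableEq ι] :
    ∑ t : ι → Out × Out, W p t = 1 := by
  simp only [W]
  rw [← Fintype.prod_sum fun (_ : ι) (o : Out × Out) => p o.1 o.2]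
  exact prod_eq_one fun _ _ => (Fintype.sum_prod_type _).trans hp1

lemma W_nonneg {p : Out → Out → ℝ} (hp : ∀ a b, 0 ≤ p a b) {ι : Type} [Fintype ι]
    (t : ι → Out × Out) : 0 ≤ W p t := prod_nonneg fun _ _ => hp _ _

lemma sum_mass_weighted (p : Out → Out → ℝ) (w : (Fin N → Bool) → ℝ) :
    ∑ m1, ∑ m2, mass e p m1 m2 * w m2 = ∑ t : Fin n → Out × Out,
      W p t * w (f2 e (f1 e fun i => (t i).1) fun i => (t i).2) := by
  have h : ∀ m1 m2, mass e p m1 m2 * w m2 = ∑ t : Fin n → Out × Out,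
      if f1 e (fun i => (t i).1) = m1 then
        (if f2 e m1 (fun i => (t i).2) = m2 then W p t * w m2 else 0) else 0 := by
    intro m1 m2
    rw [mass, sum_mul, sum_filter]
    refine sum_congr rfl fun t _ => ?_
    simp only [cond_iff, ite_and]
  simp only [h]
  rw [sum_congr rfl fun m1 _ => sum_comm, sum_comm]
  refine sum_congr rfl fun t _ => ?_
  simp

lemma sum_mass (p : Out → Out → ℝ) (hp1 : ∑ a, ∑ b, p a b = 1) :
    ∑ m1, ∑ m2, mass e p m1 m2 = 1 := by
  have := sum_mass_weighted e p fun _ => 1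
  simpa [sum_W p hp1] using this

lemma sum_mass_small (hm : 0 < m) (p : Out → Out → ℝ) (hp : ∀ a b, 0 ≤ p a b)
    (hp1 : ∑ a, ∑ b, p a b = 1) :
    ∑ m1, ∑ m2, mass e p m1 m2 * (1 / 2 : ℝ) ^ Fintype.card (Sub m2) ≤
      (1 - (p (some 0) (some 0) * p (some 1) (some 1)) ^ m / 2) ^ N := by
  rw [sum_mass_weighted e p fun m2 => (1 / 2 : ℝ) ^ Fintype.card (Sub m2)]
  let F : Fin N → (Q m → Out × Out) → ℝ := fun _ u =>
    W p u * if (cls fun q => (u q).1).isSome && (cls fun q => (u q).2).isSome then 1 / 2 else 1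
  have hterm : ∀ t : Fin n → Out × Out, W p t *
      (1 / 2 : ℝ) ^ Fintype.card (Sub (f2 e (f1 e fun i => (t i).1) fun i => (t i).2)) =
      (∏ j, F j (blk e t j)) * ∏ r, (fun (_ : Fin rem) (o : Out × Out) => p o.1 o.2) r
        (t (e.symm (Sum.inr r))) := by
    intro t
    rw [Fintype.card_subtype, ← prod_const, prod_filter, W, prod_regroup e, prod_mul_distrib]
    simp only [W, blk, f1, f2]
    rw [mul_right_comm]
    rfl
  rw [sum_congr rfl fun t _ => hterm t, sum_regroup e F (fun (_ : Fin rem) (o : Out × Out) => p o.1 o.2),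
    prod_eq_one (fun (_ : Fin rem) _ => (Fintype.sum_prod_type _).trans hp1), mul_one]
  let u0 : Q m → Out × Out := fun q => (some q.2, some q.2)
  have hF : ∀ j, ∑ u, F j u ≤ 1 - (p (some 0) (some 0) * p (some 1) (some 1)) ^ m / 2 := by
    intro j
    have hu0 : W p u0 = (p (some 0) (some 0) * p (some 1) (some 1)) ^ m := by
      rw [W, Fintype.prod_prod_type]
      simp [u0, show (univ : Finset (ZMod 2)) = {0, 1} from rfl]
    have c1 : cls (fun q => (u0 q).1) = some 0 := by rw [cls_eq_some hm]; intro q; simp [u0]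
    have c2 : cls (fun q => (u0 q).2) = some 0 := by rw [cls_eq_some hm]; intro q; simp [u0]
    have hle : ∀ u, F j u ≤ W p u - if u = u0 then W p u / 2 else 0 := by
      intro u
      have := W_nonneg hp u
      by_cases h : u = u0
      · subst h
        simp only [F, c1, c2, Option.isSome_some, Bool.and_self, if_true]
        linarith
      · simp only [F, if_neg h, sub_zero]
        split <;> linarith
    refine (sum_le_sum fun u _ => hle u).trans (le_of_eq ?_)
    rw [sum_sub_distrib, sum_W p hp1, sum_ite_eq', if_pos (mem_univ _), hu0]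
  refine (prod_le_prod (fun j _ => sum_nonneg fun u _ => mul_nonneg (W_nonneg hp u)
    (by split <;> norm_num)) fun j _ => hF j).trans (le_of_eq ?_)
  simp

/-- Decoding and hashing rules for one string length. -/
structure Rules (r N : ℕ) where
  sl : (Fin N → Bool) → ℕ
  L : ∀ m2, Matrix (Fin r ⊕ Fin (sl m2)) (Sub m2) (ZMod 2)
  T : ∀ m2 : Fin N → Bool, Finset (Sub m2 → ZMod 2)

variable {r : ℕ} {J E : Type} [Fintype J] [Fintype E] [DecidableEq E]

lemma sum_trace_leaf (c : Rules r N) (ψ : Out → Out → Matrix J E ℂ) (p : Out → Out → ℝ)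
    (hp : ∀ a b, nsq (ψ a b) = p a b) (hp1 : ∑ a, ∑ b, p a b = 1) :
    ∑ m1, ∑ m2, ∑ m3, (∑ k, ∑ k', leafState e c.sl c.L c.T ψ m1 m2 m3 k k').trace = 1 := by
  have h : ∀ m1 m2, ∑ m3, (∑ k, ∑ k', leafState e c.sl c.L c.T ψ m1 m2 m3 k k').trace =
      ((mass e p m1 m2 : ℝ) : ℂ) := by
    intro m1 m2
    simp only [leafState_eq, Matrix.trace_sum, apply_ite Matrix.trace, Matrix.trace_zero, gam_trace,
      nsq_tens_W ψ p hp, mass, Complex.ofReal_sum]
    rw [sum_congr rfl fun m3 _ => sum_congr rfl fun k _ => sum_comm]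
    rw [sum_congr rfl fun m3 _ => sum_comm, sum_comm]
    refine sum_congr rfl fun t _ => ?_
    simp [ite_and]
  simp only [h]
  exact_mod_cast congrArg (Complex.ofReal) (sum_mass e p hp1)

theorem hasPositiveKey_of_keyCriterion {A B : Type} [Fintype A] [Fintype B]
    {ρ : Matrix (A × B) (A × B) ℂ} (hρ : IsState ρ) (h : KeyCriterion ρ) : HasPositiveKey ρ := by
  classical
  obtain ⟨D⟩ := exists_copyData hρ h
  set a := D.p (some 0) (some 0) * D.p (some 1) (some 1) with ha
  set d := D.p (some 0) (some 1) * D.p (some 1) (some 0) with hd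
  obtain ⟨m, hm, α, hα0, hα1, hcond⟩ :=
    exists_block D.t a d D.ht D.hta (mul_nonneg (D.hp _ _) (D.hp _ _)) D.hlt
  set η := (D.t ^ 2) ^ m / (a ^ m + d ^ m) with hη
  set ε := d ^ m / (a ^ m + d ^ m) with hε
  have hd0 : 0 ≤ d := mul_nonneg (D.hp _ _) (D.hp _ _)
  have ha0 : 0 < a := lt_of_lt_of_le (pow_pos D.ht 2) D.hta
  have hS : 0 < a ^ m + d ^ m := by positivity
  have hta : (D.t ^ 2) ^ m ≤ a ^ m := pow_le_pow_left₀ (by positivity) D.hta m
  have hη0 : 0 ≤ η := by positivity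
  have hη1 : η ≤ 1 := by rw [hη, div_le_one hS]; linarith [pow_nonneg hd0 m]
  have hε0 : 0 ≤ ε := by positivity
  have hε1 : ε ≤ 1 := by rw [hε, div_le_one hS]; linarith [pow_pos ha0 m]
  obtain ⟨R, κ, hR, hκ0, hκ1, s, hcodes⟩ := exists_rates η ε α hη0 hη1 hε0 hε1 hα0 hα1 hcond
  set c0 := 1 - a ^ m / 2 with hc0
  have ham : a ^ m ≤ 1 := by
    have h1 : D.p (some 0) (some 0) ≤ 1 ∧ D.p (some 1) (some 1) ≤ 1 := by
      constructor <;>
      · rw [← D.hp1]
        exact le_trans (single_le_sum (fun b _ => D.hp _ b) (mem_univ _))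
          (single_le_sum (f := fun a => ∑ b, D.p a b) (fun a _ => sum_nonneg fun b _ => D.hp a b)
            (mem_univ _))
    exact pow_le_one₀ ha0.le (mul_le_one₀ h1.1 (D.hp _ _) h1.2)
  have hc01 : c0 < 1 := by have := pow_pos ha0 m; linarith
  have hc00 : 0 < c0 := by linarith
  set g := 1 / √c0 with hg
  have hsc : 0 < √c0 := Real.sqrt_pos.2 hc00
  have hg1 : 1 < g := by
    rw [hg, lt_div_iff₀ hsc, one_mul, ← Real.sqrt_one]; exact Real.sqrt_lt_sqrt hc00.le hc01
  set β := Real.logb 2 g with hβ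
  have hβ0 : 0 < β := Real.logb_pos (by norm_num) hg1
  have hgpow : (2 : ℝ) ^ β = g := Real.rpow_logb (by norm_num) (by norm_num) (by linarith)
  let N : ℕ → ℕ := fun n => n / (2 * m)
  have heq : ∀ n, Fintype.card (Fin n) = Fintype.card ((Fin (N n) × Q m) ⊕ Fin (n % (2 * m))) := by
    intro n
    simp only [Fintype.card_fin, Fintype.card_sum, Fintype.card_prod, ZMod.card, N]
    rw [mul_comm m 2, mul_comm (n / (2 * m))]
    exact (Nat.div_add_mod n (2 * m)).symm
  let en : ∀ n, Fin n ≃ (Fin (N n) × Q m) ⊕ Fin (n % (2 * m)) := fun n =>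
    Fintype.equivOfCardEq (heq n)
  let ℓ : ℕ → ℕ := fun n => ⌊R * β * N n⌋₊
  have hrules : ∀ n, ∃ c : Rules (ℓ n) (N n), ∀ m2, β * N n ≤ Fintype.card (Sub m2) →
      ∃ Tp, ∑ x ∈ (goodPhase (c.L m2) Tp)ᶜ, prodw (phaseW η) x +
        ∑ x ∈ (goodBit (c.L m2) (c.T m2))ᶜ, prodw (fun t => if t = 0 then 1 - ε else ε) x ≤
          5 * κ ^ Fintype.card (Sub m2) := by
    intro n
    have : ∀ m2 : Fin (N n) → Bool, ∃ (L : Matrix (Fin (ℓ n) ⊕ Fin (s (Fintype.card (Sub m2))))
        (Sub m2) (ZMod 2)) (Tq : Finset (Sub m2 → ZMod 2)), β * N n ≤ Fintype.card (Sub m2) →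
        ∃ Tp, ∑ x ∈ (goodPhase L Tp)ᶜ, prodw (phaseW η) x +
          ∑ x ∈ (goodBit L Tq)ᶜ, prodw (fun t => if t = 0 then 1 - ε else ε) x ≤
            5 * κ ^ Fintype.card (Sub m2) := by
      intro m2
      by_cases hb : β * N n ≤ Fintype.card (Sub m2)
      · obtain ⟨L, Tp, Tq, hL⟩ := hcodes (Sub m2) (ℓ n) (by
          refine (Nat.floor_le (by positivity)).trans ?_
          rw [mul_assoc]; exact mul_le_mul_of_nonneg_left hb hR.le)
        exact ⟨L, Tq, fun _ => ⟨Tp, hL⟩⟩
      · exact ⟨0, ∅, fun h => absurd h hb⟩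
    choose L T hLT using this
    exact ⟨⟨fun m2 => s (Fintype.card (Sub m2)), L, T⟩, hLT⟩
  choose c hc using hrules
  refine ⟨R * β / (4 * m), by positivity, ℓ, fun n =>
    classicalProto (powInst D.F) (powInst_isometry D.F D.hF) (powInst D.G) (powInst_isometry D.G D.hG)
      (f1 (en n)) (f2 (en n)) (f3 (en n) (c n).sl (c n).L) (gA (en n) (c n).sl (c n).L)
      (gB (en n) (c n).sl (c n).L (c n).T), ?_, ?_⟩
  · rw [Filter.eventually_atTop]
    obtain ⟨K, hK⟩ := exists_nat_ge (4 * (m : ℝ) / (R * β) + 4 * m)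
    refine ⟨K, fun n hn => ?_⟩
    have hn' : 4 * (m : ℝ) / (R * β) + 4 * m ≤ n := hK.trans (by exact_mod_cast hn)
    have h4 : 4 * (m : ℝ) / (R * β) ≤ n := by linarith [show (0 : ℝ) ≤ 4 * m by positivity]
    have hN : (n : ℝ) / (2 * m) - 1 ≤ N n := by
      have h1 : n < 2 * m * (N n + 1) := Nat.lt_mul_div_succ n (by positivity)
      have h2 : (n : ℝ) < 2 * m * ((N n : ℝ) + 1) := by exact_mod_cast h1
      rw [sub_le_iff_le_add, div_le_iff₀ (by positivity)]
      linarith
    have hfl : R * β * N n < (ℓ n : ℝ) + 1 := Nat.lt_floor_add_one _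
    have hRβ : 0 < R * β := by positivity
    have h5 : 1 + R * β ≤ R * β * n / (4 * m) := by
      rw [le_div_iff₀ (by positivity)]
      calc (1 + R * β) * (4 * m) = R * β * (4 * m / (R * β) + 4 * m) := by field_simp
        _ ≤ R * β * n := mul_le_mul_of_nonneg_left hn' hRβ.le
    have h6 : R * β * n / (2 * m) - R * β ≤ R * β * N n := by
      have := mul_le_mul_of_nonneg_left hN hRβ.le
      rw [mul_sub, mul_one, ← mul_div_assoc] at this
      linarith
    have h7 : R * β * n / (2 * m) = 2 * (R * β * n / (4 * m)) := by ring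
    have h8 : R * β / (4 * m) * n = R * β * n / (4 * m) := by ring
    linarith
  intro E _ _ Ru hRu
  obtain ⟨J, _, ψ, hgam, hnsq, hi0, hi1, hi2, hi3⟩ := D.dilation E Ru hRu
  refine ⟨fun n => 30 * √κ ^ ⌊β * N n⌋₊ + 2 * √c0 ^ N n, ?_, fun n => ?_⟩
  · have hNt : Tendsto N atTop atTop := Nat.tendsto_div_const_atTop (by omega)
    have hNr : Tendsto (fun n => β * (N n : ℝ)) atTop atTop :=
      (tendsto_natCast_atTop_atTop.comp hNt).const_mul_atTop hβ0
    have h1 := (tendsto_pow_atTop_nhds_zero_of_lt_one (Real.sqrt_nonneg κ)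
      (by rw [← Real.sqrt_one]; exact Real.sqrt_lt_sqrt hκ0 hκ1)).comp
      (tendsto_nat_floor_atTop.comp hNr)
    have h2 := (tendsto_pow_atTop_nhds_zero_of_lt_one (Real.sqrt_nonneg c0)
      (by rw [← Real.sqrt_one]; exact Real.sqrt_lt_sqrt hc00.le hc01)).comp hNt
    simpa using (h1.const_mul 30).add (h2.const_mul 2)
  have hG : ∀ (x : Fin n → Out) (y : Fin n → Out),
      gam (slice ((powInst D.F ⊗ₖ powInst D.G) * copies Ru n) x y) =
        gam (tens fun i => ψ (x i) (y i)) := by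
    intro x y
    ext z w
    rw [gam_slice_copies, gam_tens]
    exact prod_congr rfl fun i _ => by rw [hgam]
  refine classical_hasError _ _ _ _ _ _ _ _ _ _ _ hG _
    (fun m1 m2 m3 => ∑ k, ∑ k', leafState (en n) (c n).sl (c n).L (c n).T ψ m1 m2 m3 k k')
    (fun m1 m2 m3 => posSemidef_sum _ fun k _ => posSemidef_sum _ fun k' _ => ?_)
    (sum_trace_leaf (en n) (c n) ψ D.p hnsq D.hp1) ?_
  · rw [leafState_eq]
    refine posSemidef_sum _ fun t _ => ?_
    split
    · exact gam_posSemidef _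
    · exact Matrix.PosSemidef.zero
  change ∑ m1, ∑ m2, branchErr (en n) (c n).sl (c n).L (c n).T ψ m1 m2 ≤ _
  set K0 := ⌊β * N n⌋₊ with hK0
  have hbranch : ∀ m1 m2, branchErr (en n) (c n).sl (c n).L (c n).T ψ m1 m2 ≤
      mass (en n) D.p m1 m2 * (30 * √κ ^ K0) +
        2 * g ^ (N n) * (mass (en n) D.p m1 m2 * (1 / 2 : ℝ) ^ Fintype.card (Sub m2)) := by
    intro m1 m2
    have hmass0 : 0 ≤ mass (en n) D.p m1 m2 := sum_nonneg fun t _ => W_nonneg D.hp t
    have hA : 0 ≤ mass (en n) D.p m1 m2 * (30 * √κ ^ K0) := by positivity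
    have hB : 0 ≤ 2 * g ^ (N n) *
        (mass (en n) D.p m1 m2 * (1 / 2 : ℝ) ^ Fintype.card (Sub m2)) := by positivity
    by_cases hb : β * N n ≤ Fintype.card (Sub m2)
    · refine le_trans ?_ (le_add_of_nonneg_right hB)
      by_cases hsub : ∀ j, m2 j = true → m1 j = true
      · obtain ⟨Tp, hTp⟩ := hc n m2 hb
        refine (branchErr_le_code (en n) (c n).sl (c n).L (c n).T hm ψ D.p D.t hnsq D.hp1 hi0 hi1
          hi2 hi3 η ε _ rfl hS hη hε hη1 hη0 m1 m2 hsub Tp).trans
          (mul_le_mul_of_nonneg_left ?_ hmass0)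
        set K := Fintype.card (Sub m2) with hK
        have hx0 : 0 ≤ ∑ x ∈ (goodPhase ((c n).L m2) Tp)ᶜ, prodw (phaseW η) x :=
          sum_nonneg fun x _ => prodw_nonneg (phaseW_nonneg hη0 hη1) x
        have hy0 : 0 ≤ ∑ x ∈ (goodBit ((c n).L m2) ((c n).T m2))ᶜ,
            prodw (fun t => if t = 0 then 1 - ε else ε) x :=
          sum_nonneg fun x _ => prodw_nonneg (fun t => by split <;> linarith) x
        have h5 : √(5 * κ ^ K) ≤ 3 * √κ ^ K := by
          rw [Real.sqrt_le_left (by positivity), mul_pow, ← pow_mul, mul_comm K, pow_mul,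
            Real.sq_sqrt hκ0]
          nlinarith [pow_nonneg hκ0 K]
        have h6 : κ ^ K ≤ √κ ^ K := by
          refine pow_le_pow_left₀ hκ0 ?_ K
          exact Real.le_sqrt_of_sq_le (by nlinarith)
        have h7 : √κ ^ K ≤ √κ ^ K0 := by
          refine pow_le_pow_of_le_one (Real.sqrt_nonneg _) ?_ ?_
          · exact Real.sqrt_le_one.2 hκ1.le
          · exact Nat.floor_le_of_le hb
        have h8 := Real.sqrt_le_sqrt (le_trans (le_add_of_nonneg_right hy0) hTp)
        linarith [pow_nonneg (Real.sqrt_nonneg κ) K0]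
      · push Not at hsub
        obtain ⟨j, hj2, hj1⟩ := hsub
        have h0 : mass (en n) D.p m1 m2 = 0 := by
          refine sum_eq_zero fun t ht => ?_
          obtain ⟨h1, h2⟩ := (mem_filter.1 ht).2 j
          rw [hj2] at h2
          cases hm1 : m1 j <;> simp_all
        have := branchErr_le_mass (en n) (c n).sl (c n).L (c n).T ψ D.p hnsq m1 m2
        rw [h0] at this ⊢
        linarith
    · refine le_trans ?_ (le_add_of_nonneg_left hA)
      refine (branchErr_le_mass (en n) (c n).sl (c n).L (c n).T ψ D.p hnsq m1 m2).trans ?_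
      have h1 : 1 ≤ g ^ (N n) * (1 / 2 : ℝ) ^ Fintype.card (Sub m2) := by
        rw [one_div (2 : ℝ), inv_pow, le_mul_inv_iff₀ (by positivity), one_mul, ← hgpow, ← Real.rpow_natCast,
          ← Real.rpow_natCast, ← Real.rpow_mul (by norm_num)]
        exact Real.rpow_le_rpow_of_exponent_le one_le_two (not_le.1 hb).le
      calc 2 * mass (en n) D.p m1 m2 ≤ 2 * (mass (en n) D.p m1 m2 *
            (g ^ (N n) * (1 / 2 : ℝ) ^ Fintype.card (Sub m2))) :=
            mul_le_mul_of_nonneg_left (le_mul_of_one_le_right hmass0 h1) zero_le_two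
        _ = _ := by ring
  refine (sum_le_sum fun m1 _ => sum_le_sum fun m2 _ => hbranch m1 m2).trans ?_
  simp only [sum_add_distrib, ← mul_sum, ← sum_mul]
  rw [sum_mass (en n) D.p D.hp1, one_mul]
  refine add_le_add le_rfl ?_
  calc 2 * g ^ N n * ∑ m1, ∑ m2, mass (en n) D.p m1 m2 * (1 / 2 : ℝ) ^ Fintype.card (Sub m2)
      ≤ 2 * g ^ N n * c0 ^ N n :=
        mul_le_mul_of_nonneg_left (sum_mass_small (en n) hm D.p D.hp D.hp1) (by positivity)
    _ = 2 * √c0 ^ N n := by
        rw [mul_assoc, ← mul_pow, hg, one_div_mul_eq_div, Real.div_sqrt]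

end Vale.P372
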