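import Vale.Agent.P372.Characterisation

/-!
# P372: key and metrological usefulness

A bit of key, twisted back, violates the uncertainty relation of separable states: the observable
`Z ⊗ 1 + 1 ⊗ Z` on the key bits is probed by the twisted coherence between `00` and `11`.
-/

namespace Vale.P372

open Matrix
open scoped Kronecker ComplexOrder BigOperators

/-- The second-moment uncertainty bound of separable states is violated after local filters. -/
def ViolatesUncertainty {A B : Type} [Fintype A] [Fintype B]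
    (ρ : Matrix (A × B) (A × B) ℂ) : Prop :=
  ∃ (k l : ℕ) (X : Matrix (Fin k) A ℂ) (Y : Matrix (Fin l) B ℂ) (S : Matrix (Fin k) (Fin k) ℂ)
    (T : Matrix (Fin l) (Fin l) ℂ) (H : Matrix (Fin k × Fin l) (Fin k × Fin l) ℂ),
    S.IsHermitian ∧ T.IsHermitian ∧ H.IsHermitian ∧
    (let σ := (X ⊗ₖ Y) * ρ * (X ⊗ₖ Y)ᴴ;
      4 * (σ * (H * H)).trace.re *
          ((σ * ((S * S) ⊗ₖ 1)).trace.re + (σ * (1 ⊗ₖ (T * T))).trace.re) <
        ‖(σ * (H * (S ⊗ₖ 1 + 1 ⊗ₖ T) - (S ⊗ₖ 1 + 1 ⊗ₖ T) * H)).trace‖ ^ 2)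

variable {C D A B : Type} [Fintype A] [Fintype B] [Fintype C] [Fintype D]

lemma violatesUncertainty_of_witness [DecidableEq C] [DecidableEq D]
    {ρ : Matrix (A × B) (A × B) ℂ} (X : Matrix C A ℂ) (Y : Matrix D B ℂ) (S : Matrix C C ℂ)
    (T : Matrix D D ℂ) (H : Matrix (C × D) (C × D) ℂ) (hS : S.IsHermitian) (hT : T.IsHermitian)
    (hH : H.IsHermitian)
    (h : let σ := (X ⊗ₖ Y) * ρ * (X ⊗ₖ Y)ᴴ
      4 * (σ * (H * H)).trace.re *
          ((σ * ((S * S) ⊗ₖ 1)).trace.re + (σ * (1 ⊗ₖ (T * T))).trace.re) <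
        ‖(σ * (H * (S ⊗ₖ 1 + 1 ⊗ₖ T) - (S ⊗ₖ 1 + 1 ⊗ₖ T) * H)).trace‖ ^ 2) :
    ViolatesUncertainty ρ := by
  classical
  set eC := (Fintype.equivFin C).symm
  set eD := (Fintype.equivFin D).symm
  set p := Equiv.prodCongr eC eD with hp
  refine ⟨_, _, X.submatrix eC id, Y.submatrix eD id, S.submatrix eC eC, T.submatrix eD eD,
    H.submatrix p p, hS.submatrix _, hT.submatrix _, hH.submatrix _, ?_⟩
  have hk : (X.submatrix eC id) ⊗ₖ (Y.submatrix eD id) = (X ⊗ₖ Y).submatrix p id := by
    ext i j; rfl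
  have hS1 : (S.submatrix eC eC) ⊗ₖ (1 : Matrix (Fin (Fintype.card D)) (Fin (Fintype.card D)) ℂ) =
      (S ⊗ₖ (1 : Matrix D D ℂ)).submatrix p p := by
    rw [← Matrix.submatrix_one_equiv eD]; ext i j; rfl
  have hS2 : ((S * S).submatrix eC eC) ⊗ₖ
      (1 : Matrix (Fin (Fintype.card D)) (Fin (Fintype.card D)) ℂ) =
      ((S * S) ⊗ₖ (1 : Matrix D D ℂ)).submatrix p p := by
    rw [← Matrix.submatrix_one_equiv eD]; ext i j; rfl
  have hT1 : (1 : Matrix (Fin (Fintype.card C)) (Fin (Fintype.card C)) ℂ) ⊗ₖ (T.submatrix eD eD) =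
      ((1 : Matrix C C ℂ) ⊗ₖ T).submatrix p p := by
    rw [← Matrix.submatrix_one_equiv eC]; ext i j; rfl
  have hT2 : (1 : Matrix (Fin (Fintype.card C)) (Fin (Fintype.card C)) ℂ) ⊗ₖ
      ((T * T).submatrix eD eD) =
      ((1 : Matrix C C ℂ) ⊗ₖ (T * T)).submatrix p p := by
    rw [← Matrix.submatrix_one_equiv eC]; ext i j; rfl
  have hadd : ∀ M N : Matrix (C × D) (C × D) ℂ,
      M.submatrix p p + N.submatrix p p = (M + N).submatrix p p := fun _ _ => rfl
  have hsub : ∀ M N : Matrix (C × D) (C × D) ℂ,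
      M.submatrix p p - N.submatrix p p = (M - N).submatrix p p := fun _ _ => rfl
  have ht : ∀ M : Matrix (C × D) (C × D) ℂ, (M.submatrix p p).trace = M.trace := fun M =>
    Equiv.sum_comp p fun i => M i i
  have hm : (X ⊗ₖ Y).submatrix p id * ρ * ((X ⊗ₖ Y).submatrix p id)ᴴ =
      ((X ⊗ₖ Y) * ρ * (X ⊗ₖ Y)ᴴ).submatrix p p := by
    rw [Matrix.conjTranspose_submatrix, Matrix.submatrix_mul _ _ p id p Function.bijective_id,
      Matrix.submatrix_mul _ _ p id id Function.bijective_id, Matrix.submatrix_id_id]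
  simp only [hk, hm, Matrix.submatrix_mul_equiv, hS1, hS2, hT1, hT2, hadd, hsub, ht]
  exact h

/-- A matrix on `(Bool × A) × (Bool × B)` given by its blocks. -/
def bmat (F : Bool × Bool → Bool × Bool → Matrix (A × B) (A × B) ℂ) :
    Matrix ((Bool × A) × (Bool × B)) ((Bool × A) × (Bool × B)) ℂ :=
  fun p q => F (p.1.1, p.2.1) (q.1.1, q.2.1) (p.1.2, p.2.2) (q.1.2, q.2.2)

lemma bmat_mul (F G : Bool × Bool → Bool × Bool → Matrix (A × B) (A × B) ℂ) :
    bmat F * bmat G = bmat fun i k => ∑ j, F i j * G j k := by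
  ext p q
  simp only [bmat, Matrix.mul_apply, Matrix.sum_apply, Fintype.sum_prod_type]
  refine Finset.sum_congr rfl fun a _ => ?_
  rw [Finset.sum_comm]

lemma trace_bmat (F : Bool × Bool → Bool × Bool → Matrix (A × B) (A × B) ℂ) :
    (bmat F).trace = ∑ i, (F i i).trace := by
  simp only [bmat, Matrix.trace, Matrix.diag_apply, Fintype.sum_prod_type]
  refine Finset.sum_congr rfl fun a _ => ?_
  rw [Finset.sum_comm]

/-- One bit with error at most one tenth gives a violation of the uncertainty bound. -/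
theorem violatesUncertainty_of_oneBit {ρ : Matrix (A × B) (A × B) ℂ} {ℓ : ℕ} (hℓ : 0 < ℓ)
    (P : Proto ℓ A B) {E : Type} [Fintype E] [DecidableEq E] (R : Matrix (A × B) E ℂ)
    (hR : R * Rᴴ = ρ) {ε : ℝ} (hε : ε ≤ 1 / 10) (herr : P.HasError R ε) :
    ViolatesUncertainty ρ := by
  classical
  obtain ⟨s, X, Y, V, hs, hV, wn, -, -, b01, b10, bsum, bc⟩ :=
    exists_bit_filters hℓ P R hR hε herr
  set N : Bool × Bool → Bool × Bool → Matrix (A × B) (A × B) ℂ := fun i j =>
    (X i.1 ⊗ₖ Y i.2) * ρ * (X j.1 ⊗ₖ Y j.2)ᴴ with hN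
  set z := (V * N (false, false) (true, true)).trace with hz
  have hz0 : 0 < ‖z‖ := lt_of_lt_of_le (by positivity) bc
  set ω : ℂ := Complex.I * star z / (‖z‖ : ℂ) with hω
  have hωz : ω * z = Complex.I * (‖z‖ : ℂ) := by
    rw [hω, div_mul_eq_mul_div, mul_assoc, show star z * z = (‖z‖ : ℂ) ^ 2 from Complex.conj_mul' z,
      sq, ← mul_assoc, mul_div_assoc, div_self (by exact_mod_cast hz0.ne'), mul_one]
  have hω1 : star ω * ω = 1 := by
    have h : ((‖z‖ : ℂ)) ≠ 0 := by exact_mod_cast hz0.ne'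
    rw [hω, star_div₀, star_mul', star_star,
      show star (‖z‖ : ℂ) = (‖z‖ : ℂ) from Complex.conj_ofReal _,
      show star Complex.I = -Complex.I from Complex.conj_I]
    field_simp
    rw [Complex.I_sq, mul_assoc, show z * star z = (‖z‖ : ℂ) ^ 2 from Complex.mul_conj' z]
    ring
  have hω2 : ω * star ω = 1 := by rw [mul_comm]; exact hω1
  set HB : Bool × Bool → Bool × Bool → Matrix (A × B) (A × B) ℂ := fun i j =>
    if i = (false, false) ∧ j = (true, true) then star ω • Vᴴ
    else if i = (true, true) ∧ j = (false, false) then ω • V else 0 with hHB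
  set Z : Matrix (Bool × A) (Bool × A) ℂ := Matrix.diagonal fun p => if p.1 then -1 else 1 with hZ
  set Z' : Matrix (Bool × B) (Bool × B) ℂ := Matrix.diagonal fun p => if p.1 then -1 else 1 with hZ'
  set LB : Bool × Bool → Bool × Bool → Matrix (A × B) (A × B) ℂ := fun i j =>
    if i = j then (((if i.1 then -1 else 1) + (if i.2 then -1 else 1) : ℂ)) • 1 else 0 with hLB
  have hL : Z ⊗ₖ (1 : Matrix (Bool × B) (Bool × B) ℂ) +
      (1 : Matrix (Bool × A) (Bool × A) ℂ) ⊗ₖ Z' = bmat LB := by
    ext ⟨⟨i, a⟩, ⟨j, b⟩⟩ ⟨⟨i', a'⟩, ⟨j', b'⟩⟩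
    by_cases h1 : i = i' <;> by_cases h2 : j = j' <;> by_cases h3 : a = a' <;>
      by_cases h4 : b = b' <;> simp [hZ, hZ', hLB, bmat, Matrix.one_apply, h1, h2, h3, h4]
  have hsq : Z * Z = 1 ∧ Z' * Z' = 1 := by
    constructor <;>
    · simp only [hZ, hZ', Matrix.diagonal_mul_diagonal]
      rw [← Matrix.diagonal_one]; congr 1; funext p; split_ifs <;> norm_num
  have hH : (bmat HB).IsHermitian := by
    ext p q
    simp only [Matrix.conjTranspose_apply, bmat, hHB]
    generalize (p.1.1, p.2.1) = i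
    generalize (q.1.1, q.2.1) = j
    fin_cases i <;> fin_cases j <;> simp
  set Xs : Matrix (Bool × A) A ℂ := fun p a => X p.1 p.2 a with hXs
  set Ys : Matrix (Bool × B) B ℂ := fun p b => Y p.1 p.2 b with hYs
  have hσ : (Xs ⊗ₖ Ys) * ρ * (Xs ⊗ₖ Ys)ᴴ = bmat N := by
    have hk : ∀ (p : (Bool × A) × (Bool × B)) (x : A × B),
        (Xs ⊗ₖ Ys) p x = X p.1.1 p.1.2 x.1 * Y p.2.1 p.2.2 x.2 := fun _ _ => rfl
    ext p q
    simp only [hN, bmat, Matrix.mul_apply, Matrix.conjTranspose_apply, hk]; rfl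
  refine violatesUncertainty_of_witness Xs Ys Z Z' (bmat HB)
    (Matrix.isHermitian_diagonal_of_self_adjoint _ (funext fun p => by
      simp only [Pi.star_apply]; split_ifs <;> simp))
    (Matrix.isHermitian_diagonal_of_self_adjoint _ (funext fun p => by
      simp only [Pi.star_apply]; split_ifs <;> simp)) hH ?_
  simp only [hσ, hL, hsq.1, hsq.2, Matrix.one_kronecker_one, Matrix.mul_one]
  -- the coherence
  have hT1 : (bmat N * (bmat HB * bmat LB - bmat LB * bmat HB)).trace = 8 * (ω * z).im * Complex.I := by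
    have hN' : (N (true, true) (false, false)) = (N (false, false) (true, true))ᴴ := by
      have hρ : ρᴴ = ρ := by rw [← hR, Matrix.conjTranspose_mul, Matrix.conjTranspose_conjTranspose]
      simp only [hN, Matrix.conjTranspose_mul, Matrix.conjTranspose_conjTranspose, hρ,
        Matrix.mul_assoc]
    rw [Matrix.mul_sub, bmat_mul, bmat_mul, bmat_mul, bmat_mul, Matrix.trace_sub, trace_bmat, trace_bmat]
    simp only [Fintype.sum_prod_type, Fintype.sum_bool, hHB, hLB, Prod.mk.injEq, Bool.true_eq_false,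
      Bool.false_eq_true, and_false, false_and, and_true, true_and, if_false, if_true,
      Matrix.mul_zero, Matrix.zero_mul, smul_zero, add_zero, zero_add, Matrix.trace_zero, Matrix.mul_smul,
      Matrix.smul_mul, Matrix.mul_one, Matrix.one_mul, smul_smul, Matrix.trace_smul, smul_eq_mul]
    rw [hN', show ((N (false, false) (true, true))ᴴ * Vᴴ).trace = star z by
        rw [← Matrix.conjTranspose_mul, Matrix.trace_conjTranspose],
      Matrix.trace_mul_comm (N (false, false) (true, true)) V, ← hz]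
    have h2 : star ω * star z = -(Complex.I * (‖z‖ : ℂ)) := by
      rw [← star_mul', hωz]; simp
    simp only [Complex.mul_im, Complex.I_re, Complex.I_im, Complex.ofReal_re, Complex.ofReal_im,
      hωz, zero_mul, one_mul, zero_add]
    linear_combination (-4 : ℂ) * h2 + 2 * hωz
  have hT2 : (bmat N * (bmat HB * bmat HB)).trace.re ≤
      weight ρ (X false) (Y false) + weight ρ (X true) (Y true) := by
    have hV2 : (1 - V * Vᴴ).PosSemidef := by
      rw [show 1 - V * Vᴴ = (1 - V * Vᴴ)ᴴ * (1 - V * Vᴴ) + V * (1 - Vᴴ * V) * Vᴴ by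
        simp only [Matrix.conjTranspose_sub, Matrix.conjTranspose_one, Matrix.conjTranspose_mul,
          Matrix.conjTranspose_conjTranspose, Matrix.mul_sub, Matrix.sub_mul, Matrix.mul_one,
          Matrix.one_mul, Matrix.mul_assoc]
        abel]
      exact (Matrix.posSemidef_conjTranspose_mul_self _).add (hV.mul_mul_conjTranspose_same V)
    have hle : ∀ (i : Bool × Bool) (W : Matrix (A × B) (A × B) ℂ), (1 - W).PosSemidef →
        (N i i * W).trace.re ≤ weight ρ (X i.1) (Y i.2) := by
      intro i W hW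
      obtain ⟨D, hD⟩ := exists_gram hW
      have h : 0 ≤ (N i i * (1 - W)).trace.re := by
        rw [← hD, ← Matrix.mul_assoc, Matrix.trace_mul_comm, ← Matrix.mul_assoc]
        have hρ : ρ.PosSemidef := by rw [← hR]; exact posSemidef_self_mul_conjTranspose R
        exact (Complex.nonneg_iff.1 ((hρ.mul_mul_conjTranspose_same _).mul_mul_conjTranspose_same
          D).trace_nonneg).1
      rw [Matrix.mul_sub, Matrix.mul_one, Matrix.trace_sub, Complex.sub_re] at h
      exact sub_nonneg.1 h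
    rw [bmat_mul, bmat_mul, trace_bmat]
    simp only [Fintype.sum_prod_type, Fintype.sum_bool, hHB, Prod.mk.injEq, Bool.true_eq_false,
      Bool.false_eq_true, and_false, false_and, and_true, true_and, if_false, if_true,
      Matrix.mul_zero, Matrix.zero_mul, smul_zero, add_zero, zero_add, Matrix.trace_zero,
      Matrix.smul_mul, Matrix.mul_smul, smul_smul, hω1, hω2, one_smul, Complex.add_re]
    linarith [hle (false, false) (Vᴴ * V) hV, hle (true, true) (V * Vᴴ) hV2]
  have hT3 : (bmat N).trace.re = weight ρ (X false) (Y false) + weight ρ (X true) (Y true) +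
      weight ρ (X false) (Y true) + weight ρ (X true) (Y false) := by
    simp only [trace_bmat, Fintype.sum_prod_type, Fintype.sum_bool, hN, weight, Complex.add_re]
    ring
  rw [hT1, hωz, hT3]
  set W := weight ρ (X false) (Y false) + weight ρ (X true) (Y true) +
    weight ρ (X false) (Y true) + weight ρ (X true) (Y false) with hW
  have hW0 : 0 ≤ W := by
    have := wn false false; have := wn true true; have := wn false true; have := wn true false
    positivity
  have hH0 : (bmat N * (bmat HB * bmat HB)).trace.re ≤ 11 / 10 * s := by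
    linarith [wn false true, wn true false]
  simp only [Complex.mul_im, Complex.I_re, Complex.I_im, Complex.ofReal_re, Complex.ofReal_im,
    zero_mul, one_mul, zero_add, norm_mul, Complex.norm_I, mul_one, Complex.norm_ofNat,
    Complex.norm_real, Real.norm_eq_abs, abs_norm]
  calc 4 * (bmat N * (bmat HB * bmat HB)).trace.re * (W + W) ≤
        4 * (11 / 10 * s) * (11 / 10 * s + 11 / 10 * s) := by
        refine mul_le_mul (by linarith) (by linarith) (by linarith) (by positivity)
    _ < (8 * (2 / 5 * s)) ^ 2 := by nlinarith [pow_pos hs 2]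
    _ ≤ _ := pow_le_pow_left₀ (by positivity) (by linarith) 2

/-- The key rate is positive iff some number of copies, after local filters, violates the
uncertainty bound of separable states. -/
theorem hasPositiveKey_iff_uncertainty {A B : Type} [Fintype A] [Fintype B]
    {ρ : Matrix (A × B) (A × B) ℂ} (hρ : IsState ρ) :
    HasPositiveKey ρ ↔ ∃ n, ViolatesUncertainty (power ρ n) := by
  classical
  refine ⟨fun h => ?_, fun ⟨n, k, l, X, Y, S, T, H, hS, hT, hH, hv⟩ => (hasPositiveKey_iff hρ).2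
    ⟨n, keyCriterion_of_filtered_uncertainty (power_isState hρ n).1 X Y hS hT hH hv⟩⟩
  obtain ⟨R, hR⟩ := exists_purification hρ.1
  obtain ⟨n, ℓ, P, hl, he⟩ := (hasPositiveKey_iff_oneBit hρ hR).1 h
  exact ⟨n, violatesUncertainty_of_oneBit hl P _ (copies_mul_conjTranspose hR n) le_rfl he⟩

end Vale.P372
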