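import Vale.Agent.P372.Product

/-!
# P372: rank-four PPT states of two qutrits without product vectors in their range have key
-/

namespace Vale.P372

open Matrix
open scoped Kronecker ComplexOrder

section Vectors

variable {A B : Type}

lemma tvec_smul_right (x : A → ℂ) (c : ℂ) (y : B → ℂ) : tvec x (c • y) = c • tvec x y := by
  funext p; simp [tvec]; ring

lemma tvec_smul_left (x : A → ℂ) (c : ℂ) (y : B → ℂ) : tvec (c • x) y = c • tvec x y := by
  funext p; simp [tvec]; ring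

lemma tvec_add_right (x : A → ℂ) (y y' : B → ℂ) : tvec x (y + y') = tvec x y + tvec x y' := by
  funext p; simp [tvec]; ring

lemma tvec_sub_left (x x' : A → ℂ) (y : B → ℂ) : tvec (x - x') y = tvec x y - tvec x' y := by
  funext p; simp [tvec]; ring

lemma tvec_ne_zero {x : A → ℂ} {y : B → ℂ} (hx : x ≠ 0) (hy : y ≠ 0) : tvec x y ≠ 0 := by
  obtain ⟨i, hi⟩ := Function.ne_iff.1 hx
  obtain ⟨j, hj⟩ := Function.ne_iff.1 hy
  exact Function.ne_iff.2 ⟨(i, j), mul_ne_zero hi hj⟩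

/-- Two independent vectors of `ℂ³` have a one-dimensional orthogonal complement. -/
lemma exists_perp {u v : Fin 3 → ℂ} (hu : u ≠ 0) (hv : ∀ c : ℂ, v ≠ c • u) :
    ∃ p : Fin 3 → ℂ, p ≠ 0 ∧ star u ⬝ᵥ p = 0 ∧ star v ⬝ᵥ p = 0 ∧
      ∀ z, star u ⬝ᵥ z = 0 → star v ⬝ᵥ z = 0 → ∃ c : ℂ, c • p = z := by
  set f := (Matrix.of ![star u, star v] : Matrix (Fin 2) (Fin 3) ℂ).mulVecLin with hf
  have hfv : ∀ z, f z = ![star u ⬝ᵥ z, star v ⬝ᵥ z] := fun z => by
    funext t; fin_cases t <;> rfl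
  have huu : star u ⬝ᵥ u ≠ 0 := fun h0 => hu (by rwa [dotProduct_star_self_eq_zero] at h0)
  set c := (star u ⬝ᵥ v) / (star u ⬝ᵥ u) with hc
  set y := v - c • u with hy
  have hyu : star u ⬝ᵥ y = 0 := by
    rw [hy, dotProduct_sub, dotProduct_smul, smul_eq_mul, hc, div_mul_cancel₀ _ huu, sub_self]
  have hyv : star v ⬝ᵥ y ≠ 0 := by
    intro h0
    have hz : star y ⬝ᵥ y = 0 := by
      conv_lhs => arg 1; rw [hy]
      rw [star_sub, star_smul, sub_dotProduct, smul_dotProduct, hyu, h0, smul_zero, sub_zero]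
    rw [dotProduct_star_self_eq_zero, hy, sub_eq_zero] at hz
    exact hv c hz
  have hsurj : LinearMap.range f = ⊤ := by
    rw [LinearMap.range_eq_top]
    intro t
    refine ⟨(t 0 / (star u ⬝ᵥ u)) • u +
      ((t 1 - t 0 / (star u ⬝ᵥ u) * (star v ⬝ᵥ u)) / (star v ⬝ᵥ y)) • y, ?_⟩
    rw [hfv]
    funext j
    fin_cases j <;> simp [dotProduct_add, dotProduct_smul, hyu, smul_eq_mul, huu, hyv]
  have hker1 : Module.finrank ℂ (LinearMap.ker f) = 1 := by
    have := f.finrank_range_add_finrank_ker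
    rw [hsurj, finrank_top, Module.finrank_fin_fun, Module.finrank_fin_fun] at this
    omega
  have : Nontrivial (LinearMap.ker f) := Module.nontrivial_of_finrank_eq_succ hker1
  obtain ⟨p, hp⟩ := exists_ne (0 : LinearMap.ker f)
  have hpf : f p = 0 := p.2
  rw [hfv] at hpf
  refine ⟨p, fun h => hp (Subtype.ext h), congrFun hpf 0, congrFun hpf 1, fun z hzu hzv => ?_⟩
  obtain ⟨c', hc'⟩ := exists_smul_eq_of_finrank_eq_one hker1 hp
    ⟨z, by rw [LinearMap.mem_ker, hfv, hzu, hzv]; simp⟩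
  exact ⟨c', congrArg Subtype.val hc'⟩

end Vectors

section State

/-- The hypotheses on the state: rank four, PPT, no product vector in the range. -/
structure RankFourPPT (ρ : Matrix (Fin 3 × Fin 3) (Fin 3 × Fin 3) ℂ)
    (R : Matrix (Fin 3 × Fin 3) (Fin 4) ℂ) : Prop where
  factor : R * Rᴴ = ρ
  inj : ∀ g, R *ᵥ g = 0 → g = 0
  ppt : IsPPT ρ
  noProd : ∀ g x y, R *ᵥ g = tvec x y → R *ᵥ g = 0

variable {ρ : Matrix (Fin 3 × Fin 3) (Fin 3 × Fin 3) ℂ} {R : Matrix (Fin 3 × Fin 3) (Fin 4) ℂ}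

lemma RankFourPPT.psd (h : RankFourPPT ρ R) : ρ.PosSemidef :=
  h.factor ▸ posSemidef_self_mul_conjTranspose R

lemma RankFourPPT.mulVec_eq (h : RankFourPPT ρ R) (v : Fin 3 × Fin 3 → ℂ) :
    ρ *ᵥ v = R *ᵥ (Rᴴ *ᵥ v) := by
  rw [Matrix.mulVec_mulVec, h.factor]

lemma RankFourPPT.ker_iff (h : RankFourPPT ρ R) (v : Fin 3 × Fin 3 → ℂ) :
    ρ *ᵥ v = 0 ↔ Rᴴ *ᵥ v = 0 := by
  rw [h.mulVec_eq]
  exact ⟨fun h0 => h.inj _ h0, fun h0 => by rw [h0, Matrix.mulVec_zero]⟩

lemma partialTranspose_form (ρ : Matrix (Fin 3 × Fin 3) (Fin 3 × Fin 3) ℂ)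
    (a η x f : Fin 3 → ℂ) : star (tvec a η) ⬝ᵥ (ρ *ᵥ tvec x f) =
      star (tvec a (star f)) ⬝ᵥ (partialTranspose ρ *ᵥ tvec x (star η)) := by
  simp only [dotProduct, Matrix.mulVec, partialTranspose, tvec, Fintype.sum_prod_type,
    Finset.mul_sum, Pi.star_apply, star_mul', star_star]
  refine Finset.sum_congr rfl fun i _ => ?_
  rw [Finset.sum_comm]
  conv_rhs => rw [Finset.sum_comm]
  refine Finset.sum_congr rfl fun k _ => ?_
  rw [Finset.sum_comm]
  exact Finset.sum_congr rfl fun j _ => Finset.sum_congr rfl fun l _ => by ring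

/-- A kernel product vector kills the crossed coherences. -/
lemma RankFourPPT.cross (h : RankFourPPT ρ R) {x y : Fin 3 → ℂ} (hk : ρ *ᵥ tvec x y = 0)
    (a f : Fin 3 → ℂ) : star (tvec a y) ⬝ᵥ (ρ *ᵥ tvec x f) = 0 := by
  have hΓ : partialTranspose ρ *ᵥ tvec x (star y) = 0 := by
    refine (Matrix.PosSemidef.dotProduct_mulVec_zero_iff h.ppt _).1 ?_
    rw [← partialTranspose_form, hk, dotProduct_zero]
  rw [partialTranspose_form, hΓ, dotProduct_zero]

lemma dot_tvec_apply (a η : Fin 3 → ℂ) (w : Fin 3 × Fin 3 → ℂ) :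
    star (tvec a η) ⬝ᵥ w = star η ⬝ᵥ (fun j => star a ⬝ᵥ (fun i => w (i, j))) := by
  simp only [dotProduct, tvec, Pi.star_apply, star_mul', Fintype.sum_prod_type, Finset.mul_sum]
  rw [Finset.sum_comm]
  exact Finset.sum_congr rfl fun j _ => Finset.sum_congr rfl fun i _ => by ring

lemma dot_tvec_apply' (a η : Fin 3 → ℂ) (w : Fin 3 × Fin 3 → ℂ) :
    star (tvec a η) ⬝ᵥ w = star a ⬝ᵥ (fun i => star η ⬝ᵥ (fun j => w (i, j))) := by
  simp only [dotProduct, tvec, Pi.star_apply, star_mul', Fintype.sum_prod_type, Finset.mul_sum]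
  exact Finset.sum_congr rfl fun i _ => Finset.sum_congr rfl fun j _ => by ring

/-- A first factor has at most one kernel partner. -/
lemma RankFourPPT.partner_unique (h : RankFourPPT ρ R) {x y y' : Fin 3 → ℂ} (hx : x ≠ 0)
    (hy : y ≠ 0) (hk : ρ *ᵥ tvec x y = 0) (hk' : ρ *ᵥ tvec x y' = 0) :
    ∃ c : ℂ, y' = c • y := by
  by_contra hc
  obtain ⟨q, hq0, hqy, hqy', hq⟩ := exists_perp hy (by simpa using hc)
  set w := ρ *ᵥ tvec x q with hw
  have hrow : ∀ i, ∃ c : ℂ, c • q = fun j => w (i, j) := fun i => by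
    have e : ∀ η : Fin 3 → ℂ, star η ⬝ᵥ (fun j => w (i, j)) =
        star (tvec (Pi.single i 1) η) ⬝ᵥ w := fun η => by
      rw [dot_tvec_apply']
      simp [dotProduct, Pi.single_apply]
    exact hq _ (by rw [e, hw, h.cross hk]) (by rw [e, hw, h.cross hk'])
  choose c hc' using hrow
  have hw0 : w = 0 := by
    rw [hw, h.mulVec_eq]
    refine h.noProd _ c q ?_
    rw [← h.mulVec_eq, ← hw]
    funext p
    simpa [tvec] using (congrFun (hc' p.1) p.2).symm
  have hqk : Rᴴ *ᵥ tvec x q = 0 := (h.ker_iff _).1 hw0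
  have hall : ∀ f, Rᴴ *ᵥ tvec x f = 0 := by
    intro f
    funext k
    set r : Fin 3 → ℂ := fun j => star ((Rᴴ *ᵥ tvec x (Pi.single j 1)) k) with hr
    have e : ∀ z, (Rᴴ *ᵥ tvec x z) k = star r ⬝ᵥ z := fun z => by
      simp only [hr, Matrix.mulVec, dotProduct, tvec, Fintype.sum_prod_type, Pi.star_apply,
        star_star, Pi.single_apply, mul_ite, mul_one, mul_zero, Finset.sum_ite_eq',
        Finset.mem_univ, if_true, Finset.sum_mul]
      rw [Finset.sum_comm]
      exact Finset.sum_congr rfl fun j _ => Finset.sum_congr rfl fun i _ => by ring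
    have hz : ∀ {z}, Rᴴ *ᵥ tvec x z = 0 → star z ⬝ᵥ r = 0 := fun {z} h0 => by
      rw [Matrix.star_dotProduct, ← e, h0]; simp
    obtain ⟨t, ht⟩ := hq r (hz ((h.ker_iff _).1 hk)) (hz ((h.ker_iff _).1 hk'))
    have ht0 : t = 0 := by
      have h0 := hz hqk
      rw [← ht, dotProduct_smul, smul_eq_mul] at h0
      exact (mul_eq_zero.1 h0).resolve_right fun h0 => hq0 (by
        rwa [dotProduct_star_self_eq_zero] at h0)
    rw [e, ← ht, ht0]; simp
  obtain ⟨i, hi⟩ := Function.ne_iff.1 hx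
  rw [Pi.zero_apply] at hi
  set a : Fin 3 → ℂ := Pi.single (i + 1) 1 with ha
  have hax : ∀ c : ℂ, a ≠ c • x := fun c h0 => by
    have h1 := congrFun h0 i
    simp [ha, Pi.single_apply, hi] at h1
    simp [h1, ha] at h0
  obtain ⟨p, hp0, hpx, hpa, hp⟩ := exists_perp hx hax
  set F := (Matrix.of fun j k => star a ⬝ᵥ fun i => R (i, j) k :
    Matrix (Fin 3) (Fin 4) ℂ).mulVecLin
  obtain ⟨g, hg, hg0⟩ := Submodule.exists_mem_ne_zero_of_ne_bot
    (LinearMap.ker_ne_bot_of_finrank_lt (f := F) (by simp))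
  have hga : ∀ j, star a ⬝ᵥ (fun i => (R *ᵥ g) (i, j)) = 0 := fun j => by
    have h0 := congrFun (LinearMap.mem_ker.1 hg) j
    rw [Pi.zero_apply] at h0
    rw [← h0]
    simp only [F, Matrix.mulVecLin_apply, Matrix.mulVec, dotProduct, Matrix.of_apply,
      Finset.mul_sum, Finset.sum_mul, mul_assoc]
    exact Finset.sum_comm
  have hgx : ∀ j, star x ⬝ᵥ (fun i => (R *ᵥ g) (i, j)) = 0 := fun j => by
    have h0 : star (tvec x (Pi.single j 1)) ⬝ᵥ (R *ᵥ g) = 0 := by
      rw [dotProduct_mulVec]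
      have := congrArg star (hall (Pi.single j 1))
      rw [Matrix.star_mulVec, Matrix.conjTranspose_conjTranspose, star_zero] at this
      rw [this, zero_dotProduct]
    rw [dot_tvec_apply] at h0
    simpa [dotProduct, Pi.single_apply] using h0
  choose d hd using fun j => hp _ (hgx j) (hga j)
  refine hg0 (h.inj g (h.noProd g p d ?_))
  funext q'
  have := (congrFun (hd q'.2) q'.1).symm
  simpa [tvec, mul_comm] using this

/-- The same hypotheses for the state with the two sides exchanged. -/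
lemma RankFourPPT.swap (h : RankFourPPT ρ R) :
    RankFourPPT (ρ.submatrix Prod.swap Prod.swap) (R.submatrix Prod.swap id) := by
  refine ⟨?_, fun g hg => h.inj g ?_, ?_, fun g x y hg => ?_⟩
  · rw [← h.factor]; rfl
  · funext p; exact congrFun hg p.swap
  · have : partialTranspose (ρ.submatrix Prod.swap Prod.swap) =
        ((partialTranspose ρ)ᵀ).submatrix Prod.swap Prod.swap := rfl
    rw [IsPPT, this]
    exact (Matrix.PosSemidef.transpose h.ppt).submatrix _
  · have h0 : R *ᵥ g = 0 := h.noProd g y x (funext fun p => by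
      have := congrFun hg p.swap
      simpa [tvec, Matrix.mulVec, dotProduct, mul_comm] using this)
    funext p
    exact congrFun h0 p.swap

lemma swap_mulVec_tvec (ρ : Matrix (Fin 3 × Fin 3) (Fin 3 × Fin 3) ℂ) (x y : Fin 3 → ℂ) :
    ρ.submatrix Prod.swap Prod.swap *ᵥ tvec y x = fun p => (ρ *ᵥ tvec x y) p.swap := by
  funext p
  simp only [Matrix.mulVec, dotProduct, Matrix.submatrix_apply, tvec]
  refine (Equiv.sum_comp (Equiv.prodComm (Fin 3) (Fin 3))
    (fun q => ρ p.swap q * (x q.1 * y q.2))).symm.trans ?_ |>.symm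
  exact Finset.sum_congr rfl fun q _ => by simp [mul_comm]

/-- A second factor has at most one kernel partner. -/
lemma RankFourPPT.partner_unique' (h : RankFourPPT ρ R) {x x' y : Fin 3 → ℂ} (hx : x ≠ 0)
    (hy : y ≠ 0) (hk : ρ *ᵥ tvec x y = 0) (hk' : ρ *ᵥ tvec x' y = 0) :
    ∃ c : ℂ, x' = c • x :=
  h.swap.partner_unique hy hx (by rw [swap_mulVec_tvec, hk]; rfl)
    (by rw [swap_mulVec_tvec, hk']; rfl)

end State

section Roots

/-- A homogeneous binary form over `ℂ` of positive degree, given by polynomials, has a zero. -/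
lemma exists_binary_root {f : ℂ → ℂ → ℂ} {k : ℕ} (hk : 0 < k) (p q : Polynomial ℂ)
    (hp : ∀ s, f 1 s = p.eval s) (hq : ∀ s, f s 1 = q.eval s)
    (hhom : ∀ u v s : ℂ, f (s * u) (s * v) = s ^ k * f u v) :
    ∃ u v : ℂ, (u ≠ 0 ∨ v ≠ 0) ∧ f u v = 0 := by
  by_contra hno
  have hc : ∀ r : Polynomial ℂ, (∀ s, r.eval s ≠ 0) → ∀ s, r.eval s = r.eval 1 := by
    intro r hr s
    have hdeg : r.degree ≤ 0 := by
      by_contra hd
      obtain ⟨z, hz⟩ := IsAlgClosed.exists_root r (fun h0 => hd (le_of_eq h0))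
      exact hr z hz
    rw [Polynomial.eq_C_of_degree_le_zero hdeg]
    simp
  have h1 : ∀ s, f 1 s = f 1 1 := fun s => by
    rw [hp, hp, hc p (fun z hz => hno ⟨1, z, Or.inl one_ne_zero, by rw [hp, hz]⟩)]
  have h2 : ∀ s, f s 1 = f 1 1 := fun s => by
    rw [hq, hq, hc q (fun z hz => hno ⟨z, 1, Or.inr one_ne_zero, by rw [hq, hz]⟩)]
  have h3 := hhom 1 (1 / 2) 2
  rw [show (2 : ℂ) * (1 / 2) = 1 by norm_num, mul_one, h1 (1 / 2), h2 2] at h3
  have h4 : ((2 : ℂ) ^ k - 1) * f 1 1 = 0 := by linear_combination -h3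
  rcases mul_eq_zero.1 h4 with h5 | h5
  · have : (2 : ℕ) ^ k = 1 := by exact_mod_cast sub_eq_zero.1 h5
    exact absurd this (Nat.one_lt_two_pow hk.ne').ne'
  · exact hno ⟨1, 1, Or.inl one_ne_zero, h5⟩

/-- The combination of two scalar matrices with coefficients in an algebra. -/
def comb {m n S : Type} [CommRing S] [Algebra ℂ S] (X Y : Matrix m n ℂ) (u v : S) : Matrix m n S :=
  u • X.map (algebraMap ℂ S) + v • Y.map (algebraMap ℂ S)

lemma comb_eval {m n : Type} (X Y : Matrix m n ℂ) (p q : Polynomial ℂ) (s : ℂ) :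
    (comb X Y p q).map (Polynomial.evalRingHom s) = comb X Y (p.eval s) (q.eval s) := by
  ext i j; simp [comb]

lemma comb_mul {m n : Type} (X Y : Matrix m n ℂ) (u v s : ℂ) :
    comb X Y (s * u) (s * v) = s • comb X Y u v := by
  ext i j; simp [comb]; ring

/-- The observability matrix of a row and a square matrix. -/
def obsA {S : Type} [CommRing S] (w : Matrix (Fin 1) (Fin 3) S) (M : Matrix (Fin 3) (Fin 3) S) :
    Matrix (Fin 3) (Fin 3) S :=
  Matrix.of fun r => ![w 0, (w * M) 0, (w * M * M) 0] r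

lemma obsA_map {S T : Type} [CommRing S] [CommRing T] (φ : S →+* T)
    (w : Matrix (Fin 1) (Fin 3) S) (M : Matrix (Fin 3) (Fin 3) S) :
    (obsA w M).map φ = obsA (w.map φ) (M.map φ) := by
  simp only [obsA, ← Matrix.map_mul]
  ext i j; fin_cases i <;> rfl

lemma obsA_det_smul (w : Matrix (Fin 1) (Fin 3) ℂ) (M : Matrix (Fin 3) (Fin 3) ℂ) (s : ℂ) :
    (obsA (s • w) (s • M)).det = s ^ 6 * (obsA w M).det := by
  have : obsA (s • w) (s • M) = Matrix.of fun i j => (![s, s ^ 2, s ^ 3] i) * obsA w M i j := by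
    ext i j
    fin_cases i <;> simp [obsA, Matrix.smul_mul, Matrix.mul_smul, smul_smul] <;> ring_nf <;> simp
  rw [this, Matrix.det_mul_column, Fin.prod_univ_three]
  simp; ring_nf; simp

/-- Rows `x₀`, the cross product `n` of the rows of `K`, and `N n`. -/
def obsB {S : Type} [CommRing S] (x₀ : Fin 3 → S) (K : Matrix (Fin 2) (Fin 3) S)
    (N : Matrix (Fin 3) (Fin 3) S) : Matrix (Fin 3) (Fin 3) S :=
  Matrix.of fun r => ![x₀, crossProduct (K 0) (K 1), N *ᵥ crossProduct (K 0) (K 1)] r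

lemma obsB_map {S T : Type} [CommRing S] [CommRing T] (φ : S →+* T) (x₀ : Fin 3 → S)
    (K : Matrix (Fin 2) (Fin 3) S) (N : Matrix (Fin 3) (Fin 3) S) :
    (obsB x₀ K N).map φ = obsB (φ ∘ x₀) (K.map φ) (N.map φ) := by
  ext i j
  fin_cases i
  · rfl
  · fin_cases j <;> simp [obsB, cross_apply]
  · fin_cases j <;> simp [obsB, cross_apply, Matrix.mulVec, dotProduct, Fin.sum_univ_three]

lemma obsB_det_smul (x₀ : Fin 3 → ℂ) (K : Matrix (Fin 2) (Fin 3) ℂ)
    (N : Matrix (Fin 3) (Fin 3) ℂ) (s : ℂ) :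
    (obsB x₀ (s • K) (s • N)).det = s ^ 5 * (obsB x₀ K N).det := by
  have hcr : crossProduct ((s • K) 0) ((s • K) 1) = s ^ 2 • crossProduct (K 0) (K 1) := by
    simp [Pi.smul_def, sq]
    ext j; fin_cases j <;> simp [cross_apply] <;> ring
  have : obsB x₀ (s • K) (s • N) =
      Matrix.of fun i j => (![1, s ^ 2, s ^ 3] i) * obsB x₀ K N i j := by
    ext i j
    fin_cases i <;>
      simp [obsB, hcr, Matrix.smul_mulVec, Matrix.mulVec_smul, smul_smul] <;> ring_nf <;> simp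
  rw [this, Matrix.det_mul_column, Fin.prod_univ_three]
  simp; ring_nf; simp

end Roots

section Kernel

variable {ρ : Matrix (Fin 3 × Fin 3) (Fin 3 × Fin 3) ℂ} {R : Matrix (Fin 3 × Fin 3) (Fin 4) ℂ}

/-- The linear map `x ↦ Rᴴ (x ⊗ y)`. -/
def partnerMap (R : Matrix (Fin 3 × Fin 3) (Fin 4) ℂ) (y : Fin 3 → ℂ) :
    Matrix (Fin 4) (Fin 3) ℂ :=
  Matrix.of fun k i => ∑ j, star (R (i, j) k) * y j

lemma partnerMap_mulVec (y x : Fin 3 → ℂ) : partnerMap R y *ᵥ x = Rᴴ *ᵥ tvec x y := by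
  funext k
  simp only [partnerMap, Matrix.mulVec, dotProduct, Matrix.of_apply, Finset.sum_mul, tvec,
    Fintype.sum_prod_type, Matrix.conjTranspose_apply]
  exact Finset.sum_congr rfl fun i _ => Finset.sum_congr rfl fun j _ => by ring

lemma partnerMap_comb (q q' : Fin 3 → ℂ) (u v : ℂ) :
    partnerMap R (u • q + v • q') = comb (partnerMap R q) (partnerMap R q') u v := by
  ext k i
  simp only [partnerMap, comb, Matrix.add_apply, Matrix.smul_apply, Matrix.map_apply,
    Algebra.algebraMap_self, RingHom.id_apply, Matrix.of_apply, smul_eq_mul, Finset.mul_sum,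
    Pi.add_apply, Pi.smul_apply, ← Finset.sum_add_distrib]
  exact Finset.sum_congr rfl fun j _ => by ring

lemma exists_quotient_map {m : ℕ} (W : Submodule ℂ (Fin 4 → ℂ))
    (hW : Module.finrank ℂ W + m = 4) :
    ∃ Ω : Matrix (Fin m) (Fin 4) ℂ, ∀ z, Ω *ᵥ z = 0 ↔ z ∈ W := by
  have hq : Module.finrank ℂ ((Fin 4 → ℂ) ⧸ W) = m := by
    have := Submodule.finrank_quotient_add_finrank W
    rw [Module.finrank_fin_fun] at this
    omega
  set e := (Module.finBasisOfFinrankEq ℂ _ hq).equivFun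
  refine ⟨LinearMap.toMatrix' (e.toLinearMap ∘ₗ W.mkQ), fun z => ?_⟩
  rw [← Matrix.toLin'_apply, Matrix.toLin'_toMatrix']
  simp [Submodule.Quotient.mk_eq_zero]

lemma exists_section (B : Matrix (Fin 4) (Fin 3) ℂ) :
    ∃ L : Matrix (Fin 3) (Fin 4) ℂ,
      ∀ z ∈ LinearMap.range B.mulVecLin, B *ᵥ (L *ᵥ z) = z := by
  obtain ⟨g, hg⟩ := B.mulVecLin.rangeRestrict.exists_rightInverse_of_surjective
    (LinearMap.range_eq_top.2 B.mulVecLin.surjective_rangeRestrict)
  obtain ⟨L, hL⟩ := LinearMap.exists_extend g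
  refine ⟨LinearMap.toMatrix' L, fun z hz => ?_⟩
  rw [← Matrix.toLin'_apply (LinearMap.toMatrix' L), Matrix.toLin'_toMatrix',
    show L z = g ⟨z, hz⟩ from LinearMap.congr_fun hL ⟨z, hz⟩]
  exact congrArg Subtype.val (LinearMap.congr_fun hg ⟨z, hz⟩)

/-- The kernel contains a product vector. -/
lemma exists_kernel_product (R : Matrix (Fin 3 × Fin 3) (Fin 4) ℂ) :
    ∃ x y : Fin 3 → ℂ, x ≠ 0 ∧ y ≠ 0 ∧ Rᴴ *ᵥ tvec x y = 0 := by
  set e : Fin 3 → ℂ := Pi.single 2 1 with he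
  set B := partnerMap R e with hB
  by_cases hBi : ∃ x, x ≠ 0 ∧ B *ᵥ x = 0
  · obtain ⟨x, hx, hx0⟩ := hBi
    exact ⟨x, e, hx, by simp [he], by rw [← partnerMap_mulVec]; exact hx0⟩
  have hBk : LinearMap.ker B.mulVecLin = ⊥ := by
    rw [Submodule.eq_bot_iff]
    intro x hx
    by_contra hx0
    exact hBi ⟨x, hx0, hx⟩
  have hfr : Module.finrank ℂ (LinearMap.range B.mulVecLin) + 1 = 4 := by
    have := B.mulVecLin.finrank_range_add_finrank_ker
    rw [hBk, finrank_bot, Module.finrank_fin_fun] at this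
    omega
  obtain ⟨Ω, hΩ⟩ := exists_quotient_map _ hfr
  obtain ⟨L, hL⟩ := exists_section B
  set q : Fin 3 → ℂ := Pi.single 0 1
  set q' : Fin 3 → ℂ := Pi.single 1 1
  set C := partnerMap R q
  set C' := partnerMap R q'
  set f : ℂ → ℂ → ℂ := fun u v =>
    (obsA (comb (Ω * C) (Ω * C') u v) (comb (L * C) (L * C') u v)).det with hf
  obtain ⟨u, v, huv, hroot⟩ := exists_binary_root (f := f) (k := 6) (by norm_num)
    (obsA (comb (Ω * C) (Ω * C') 1 Polynomial.X)
      (comb (L * C) (L * C') 1 Polynomial.X)).det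
    (obsA (comb (Ω * C) (Ω * C') Polynomial.X 1)
      (comb (L * C) (L * C') Polynomial.X 1)).det
    (fun s => by
      rw [← Polynomial.coe_evalRingHom, RingHom.map_det, RingHom.mapMatrix_apply, obsA_map,
        comb_eval, comb_eval]
      simp [hf])
    (fun s => by
      rw [← Polynomial.coe_evalRingHom, RingHom.map_det, RingHom.mapMatrix_apply, obsA_map,
        comb_eval, comb_eval]
      simp [hf])
    (fun u v s => by simp only [hf, comb_mul, obsA_det_smul])
  set y := u • q + v • q' with hy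
  have hy2 : y 2 = 0 := by simp [hy, q, q']
  set w := comb (Ω * C) (Ω * C') u v with hw
  set M := comb (L * C) (L * C') u v with hM
  have hwC : w = Ω * partnerMap R y := by
    rw [hw, partnerMap_comb]; simp [comb, Matrix.mul_add]; rfl
  have hMC : M = L * partnerMap R y := by
    rw [hM, partnerMap_comb]; simp [comb, Matrix.mul_add]; rfl
  obtain ⟨x₀, hx₀, hx₀'⟩ := Matrix.exists_mulVec_eq_zero_iff.2 hroot
  have hlow : ∀ k : ℕ, k < 3 → (w * M ^ k) *ᵥ x₀ = 0 := by
    intro k hk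
    funext j
    fin_cases j
    interval_cases k
    · simpa [obsA, Matrix.mulVec, dotProduct] using congrFun hx₀' 0
    · simpa [obsA, Matrix.mulVec, dotProduct, pow_one] using congrFun hx₀' 1
    · simpa [obsA, Matrix.mulVec, dotProduct, pow_two, Matrix.mul_assoc] using congrFun hx₀' 2
  have hhigh : ∀ k : ℕ, (w * M ^ k) *ᵥ x₀ = 0 := by
    intro k
    have hdeg : ((Polynomial.X : Polynomial ℂ) ^ k %ₘ M.charpoly).natDegree < 3 := by
      have h3 := M.charpoly_natDegree_eq_dim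
      simp only [Fintype.card_fin] at h3
      exact lt_of_lt_of_eq (Polynomial.natDegree_modByMonic_lt _ M.charpoly_monic
        (fun h1 => by rw [h1] at h3; simp at h3)) h3
    rw [Matrix.pow_eq_aeval_mod_charpoly, Polynomial.aeval_eq_sum_range' hdeg, Matrix.mul_sum,
      Matrix.sum_mulVec]
    refine Finset.sum_eq_zero fun i hi => ?_
    rw [Matrix.mul_smul, Matrix.smul_mulVec, hlow i (Finset.mem_range.1 hi), smul_zero]
  set K : Submodule ℂ (Fin 3 → ℂ) :=
    ⨅ k : ℕ, LinearMap.ker (w * M ^ k).mulVecLin with hK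
  have hinv : ∀ z ∈ K, M.mulVecLin z ∈ K := by
    intro z hz
    simp only [hK, Submodule.mem_iInf, LinearMap.mem_ker, Matrix.mulVecLin_apply] at hz ⊢
    intro k
    rw [Matrix.mulVec_mulVec, Matrix.mul_assoc, ← pow_succ]
    exact hz (k + 1)
  have hx₀K : x₀ ∈ K := by
    simp only [hK, Submodule.mem_iInf, LinearMap.mem_ker, Matrix.mulVecLin_apply]
    exact hhigh
  have : Nontrivial K := ⟨⟨⟨x₀, hx₀K⟩, 0, fun h0 => hx₀ (congrArg Subtype.val h0)⟩⟩
  obtain ⟨c, hc⟩ := Module.End.exists_eigenvalue (M.mulVecLin.restrict hinv)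
  obtain ⟨x, hx⟩ := hc.exists_hasEigenvector
  have hxe : M *ᵥ (x : Fin 3 → ℂ) = c • (x : Fin 3 → ℂ) := congrArg Subtype.val hx.apply_eq_smul
  have hxw : w *ᵥ (x : Fin 3 → ℂ) = 0 := by
    have h0 := x.2
    simp only [hK, Submodule.mem_iInf, LinearMap.mem_ker, Matrix.mulVecLin_apply] at h0
    simpa using h0 0
  have hmem : partnerMap R y *ᵥ (x : Fin 3 → ℂ) ∈ LinearMap.range B.mulVecLin := by
    rw [← hΩ, Matrix.mulVec_mulVec, ← hwC, hxw]
  refine ⟨x, y - c • e, fun h0 => hx.2 (Subtype.ext h0), fun h0 => ?_, ?_⟩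
  · have h2 := congrFun h0 2
    simp [hy2, he] at h2
    have h00 := congrFun h0 0
    have h11 := congrFun h0 1
    simp [hy, q, q', h2] at h00 h11
    rcases huv with hu | hv
    · exact hu h00
    · exact hv h11
  · have hkey : partnerMap R y *ᵥ (x : Fin 3 → ℂ) = c • (B *ᵥ (x : Fin 3 → ℂ)) := by
      conv_lhs => rw [← hL _ hmem, Matrix.mulVec_mulVec _ L, ← hMC, hxe, Matrix.mulVec_smul]
    have e2 : tvec (x : Fin 3 → ℂ) (y - c • e) = tvec (x : Fin 3 → ℂ) y - c • tvec ↑x e := by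
      funext p; simp [tvec]; ring
    rw [e2, Matrix.mulVec_sub, Matrix.mulVec_smul, ← partnerMap_mulVec, ← partnerMap_mulVec,
      ← hB, hkey, sub_self]

/-- A second kernel product vector, with both factors independent of the first. -/
lemma RankFourPPT.exists_second (h : RankFourPPT ρ R) {x₀ y₀ : Fin 3 → ℂ} (hx₀ : x₀ ≠ 0)
    (hy₀ : y₀ ≠ 0) (hk : ρ *ᵥ tvec x₀ y₀ = 0) :
    ∃ x y : Fin 3 → ℂ, x ≠ 0 ∧ ρ *ᵥ tvec x y = 0 ∧ (∀ c : ℂ, x ≠ c • x₀) ∧
      ∀ c : ℂ, y ≠ c • y₀ := by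
  suffices hs : ∃ x y : Fin 3 → ℂ, x ≠ 0 ∧ ρ *ᵥ tvec x y = 0 ∧ ∀ c : ℂ, y ≠ c • y₀ by
    obtain ⟨x, y, hx, hxy, hyc⟩ := hs
    refine ⟨x, y, hx, hxy, fun c hc => ?_, hyc⟩
    have hc0 : c ≠ 0 := fun h0 => hx (by simp [hc, h0])
    rw [hc, tvec_smul_left, Matrix.mulVec_smul, smul_eq_zero] at hxy
    obtain ⟨d, hd⟩ := h.partner_unique hx₀ hy₀ hk (hxy.resolve_left hc0)
    exact hyc d hd
  set B := partnerMap R y₀ with hB
  have hBker : ∀ z, B *ᵥ z = 0 → ∃ c : ℂ, z = c • x₀ := fun z hz =>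
    h.partner_unique' hx₀ hy₀ hk ((h.ker_iff _).2 (by rw [← partnerMap_mulVec]; exact hz))
  have hBx : B *ᵥ x₀ = 0 := by rw [hB, partnerMap_mulVec]; exact (h.ker_iff _).1 hk
  have hkerB : LinearMap.ker B.mulVecLin = ℂ ∙ x₀ := by
    ext z
    rw [LinearMap.mem_ker, Matrix.mulVecLin_apply, Submodule.mem_span_singleton]
    constructor
    · intro hz; obtain ⟨c, hc⟩ := hBker z hz; exact ⟨c, hc.symm⟩
    · rintro ⟨c, rfl⟩; rw [Matrix.mulVec_smul, hBx, smul_zero]
  have hfr : Module.finrank ℂ (LinearMap.range B.mulVecLin) + 2 = 4 := by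
    have := B.mulVecLin.finrank_range_add_finrank_ker
    rw [hkerB, finrank_span_singleton hx₀, Module.finrank_fin_fun] at this
    omega
  obtain ⟨Ω, hΩ⟩ := exists_quotient_map _ hfr
  obtain ⟨L, hL⟩ := exists_section B
  obtain ⟨i, hi⟩ := Function.ne_iff.1 hy₀
  set q : Fin 3 → ℂ := Pi.single (i + 1) 1 with hq
  set q' : Fin 3 → ℂ := Pi.single (i + 2) 1 with hq'
  have hindep : ∀ u v c : ℂ, u • q + v • q' = c • y₀ → u = 0 ∧ v = 0 := by
    intro u v c hc
    have h0 := congrFun hc i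
    rw [Pi.zero_apply] at hi
    simp [hq, hq', Pi.single_apply, hi] at h0
    have h1 := congrFun hc (i + 1)
    have h2 := congrFun hc (i + 2)
    simp [hq, hq', Pi.single_apply, h0] at h1 h2
    exact ⟨h1, h2⟩
  set C := partnerMap R q
  set C' := partnerMap R q'
  set f : ℂ → ℂ → ℂ := fun u v =>
    (obsB x₀ (comb (Ω * C) (Ω * C') u v) (comb (L * C) (L * C') u v)).det with hf
  obtain ⟨u, v, huv, hroot⟩ := exists_binary_root (f := f) (k := 5) (by norm_num)
    (obsB (fun j => Polynomial.C (x₀ j)) (comb (Ω * C) (Ω * C') 1 Polynomial.X)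
      (comb (L * C) (L * C') 1 Polynomial.X)).det
    (obsB (fun j => Polynomial.C (x₀ j)) (comb (Ω * C) (Ω * C') Polynomial.X 1)
      (comb (L * C) (L * C') Polynomial.X 1)).det
    (fun s => by
      rw [← Polynomial.coe_evalRingHom, RingHom.map_det, RingHom.mapMatrix_apply, obsB_map,
        comb_eval, comb_eval]
      simp [hf, Function.comp_def])
    (fun s => by
      rw [← Polynomial.coe_evalRingHom, RingHom.map_det, RingHom.mapMatrix_apply, obsB_map,
        comb_eval, comb_eval]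
      simp [hf, Function.comp_def])
    (fun u v s => by simp only [hf, comb_mul, obsB_det_smul])
  set y := u • q + v • q' with hy
  have hyne : ∀ s c : ℂ, y + s • y₀ ≠ c • y₀ := by
    intro s c hc
    have := hindep u v (c - s) (by rw [← hy, sub_smul, ← hc]; simp)
    rcases huv with hu | hv
    · exact hu this.1
    · exact hv this.2
  set K := comb (Ω * C) (Ω * C') u v with hKdef
  set N := comb (L * C) (L * C') u v with hNdef
  have hKC : K = Ω * partnerMap R y := by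
    rw [hKdef, partnerMap_comb]; simp [comb, Matrix.mul_add]; rfl
  have hNC : N = L * partnerMap R y := by
    rw [hNdef, partnerMap_comb]; simp [comb, Matrix.mul_add]; rfl
  have lift : ∀ x, K *ᵥ x = 0 → partnerMap R y *ᵥ x = B *ᵥ (N *ᵥ x) := fun x hx => by
    rw [hNC, ← Matrix.mulVec_mulVec, hL]
    rw [← hΩ, Matrix.mulVec_mulVec, ← hKC, hx]
  by_cases hdeg : K *ᵥ x₀ = 0
  · refine ⟨x₀, y, hx₀, ?_, fun c hc => hyne 0 c (by simpa using hc)⟩
    have hlift := lift x₀ hdeg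
    rw [partnerMap_mulVec, hB, partnerMap_mulVec] at hlift
    rw [h.ker_iff, ← dotProduct_star_self_eq_zero]
    conv_lhs => arg 2; rw [hlift]
    rw [Matrix.star_mulVec, Matrix.conjTranspose_conjTranspose, ← dotProduct_mulVec,
      ← h.mulVec_eq, Matrix.star_dotProduct, dotProduct_comm]
    have hc := h.cross hk (N *ᵥ x₀) y
    rw [dotProduct_mulVec] at hc
    have := congrArg star hc
    simpa [Matrix.star_dotProduct, Matrix.star_mulVec, h.psd.1.eq, dotProduct_comm,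
      dotProduct_mulVec] using hc
  suffices hx : ∃ (x : Fin 3 → ℂ) (a b : ℂ), x ≠ 0 ∧ K *ᵥ x = 0 ∧ N *ᵥ x = a • x + b • x₀ by
    obtain ⟨x, a, b, hx, hKx, hNx⟩ := hx
    refine ⟨x, y + (-a) • y₀, hx, ?_, hyne (-a)⟩
    have hl := lift x hKx
    rw [hNx, Matrix.mulVec_add, Matrix.mulVec_smul, Matrix.mulVec_smul, hBx, smul_zero b,
      add_zero, partnerMap_mulVec, hB, partnerMap_mulVec] at hl
    rw [h.ker_iff, tvec_add_right, tvec_smul_right, Matrix.mulVec_add, Matrix.mulVec_smul, hl,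
      neg_smul, add_neg_cancel]
  set n := crossProduct (K 0) (K 1) with hn
  have hKn : K *ᵥ n = 0 := by
    funext j; fin_cases j
    · exact dot_self_cross _ _
    · exact dot_cross_self _ _
  by_cases hn0 : n = 0
  · set Kr := LinearMap.ker K.mulVecLin with hKr
    have h2 : 2 ≤ Module.finrank ℂ Kr := by
      have hli : ¬ LinearIndependent ℂ ![K 0, K 1] := fun hli =>
        crossProduct_ne_zero_iff_linearIndependent.2 hli hn0
      have hrows : K.row = ![K 0, K 1] := by funext j; fin_cases j <;> rfl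
      have hr : K.rank ≤ 1 := by
        have h2 : K.rank ≤ 2 := K.rank_le_height
        by_contra h1
        apply hli
        rw [← hrows, linearIndependent_iff_card_eq_finrank_span, Set.finrank,
          ← Matrix.rank_eq_finrank_span_row]
        simp; omega
      have := K.mulVecLin.finrank_range_add_finrank_ker
      rw [Module.finrank_fin_fun] at this
      have hrk : K.rank = Module.finrank ℂ (LinearMap.range K.mulVecLin) := rfl
      show 2 ≤ Module.finrank ℂ (LinearMap.ker K.mulVecLin)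
      omega
    have hdis : Disjoint Kr (ℂ ∙ x₀) := by
      rw [Submodule.disjoint_span_singleton' hx₀]
      exact hdeg
    have hcompl : IsCompl Kr (ℂ ∙ x₀) := by
      refine ⟨hdis, codisjoint_iff.2 (Submodule.eq_top_of_finrank_eq ?_)⟩
      have h3 := Submodule.finrank_sup_add_finrank_inf_eq Kr (ℂ ∙ x₀)
      rw [hdis.eq_bot, finrank_bot, finrank_span_singleton hx₀] at h3
      have h4 := Submodule.finrank_le (Kr ⊔ (ℂ ∙ x₀))
      rw [Module.finrank_fin_fun] at h4 ⊢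
      omega
    have : Nontrivial Kr := Module.nontrivial_of_finrank_pos (R := ℂ) (by omega)
    set π := Kr.projectionOnto _ hcompl
    obtain ⟨a, ha⟩ := Module.End.exists_eigenvalue (π ∘ₗ N.mulVecLin ∘ₗ Kr.subtype)
    obtain ⟨x, hx⟩ := ha.exists_hasEigenvector
    have hmem : N *ᵥ (x : Fin 3 → ℂ) - a • (x : Fin 3 → ℂ) ∈ (ℂ ∙ x₀) := by
      have h0 : π (N *ᵥ (x : Fin 3 → ℂ)) = a • x := hx.apply_eq_smul
      rw [← Submodule.ker_projectionOnto hcompl, LinearMap.mem_ker, map_sub, map_smul,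
        Submodule.projectionOnto_apply_left, h0, sub_self]
    obtain ⟨b, hb⟩ := Submodule.mem_span_singleton.1 hmem
    exact ⟨x, a, b, fun h0 => hx.2 (Subtype.ext h0), x.2, by rw [hb]; abel⟩
  · obtain ⟨c, hc0, hc⟩ := Matrix.exists_vecMul_eq_zero_iff.2 hroot
    have hsum : c 0 • x₀ + c 1 • n + c 2 • (N *ᵥ n) = 0 := by
      funext j
      simpa [obsB, Matrix.vecMul, dotProduct, Fin.sum_univ_three] using congrFun hc j
    have hc2 : c 2 ≠ 0 := fun h2 => by
      rw [h2, zero_smul, add_zero] at hsum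
      have h1 := congrArg (K *ᵥ ·) hsum
      simp [Matrix.mulVec_add, Matrix.mulVec_smul, hKn, hdeg] at h1
      simp [h1, hn0] at hsum
      exact hc0 (funext fun j => by fin_cases j <;> simp [h1, h2, hsum])
    refine ⟨n, -(c 1 / c 2), -(c 0 / c 2), hn0, hKn, ?_⟩
    funext j
    have := congrFun hsum j
    simp at this ⊢
    field_simp
    linear_combination this

/-- A rank-four PPT state of two qutrits without product vectors in its range meets the key
criterion. -/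
theorem RankFourPPT.keyCriterion (h : RankFourPPT ρ R) : KeyCriterion ρ := by
  by_contra hno
  obtain ⟨x₀, y₀, hx₀, hy₀, hk₀'⟩ := exists_kernel_product R
  have hk₀ := (h.ker_iff _).2 hk₀'
  obtain ⟨x, y, hx, hk, hxc, hyc⟩ := h.exists_second hx₀ hy₀ hk₀
  obtain ⟨η, hη0, hη₀, hηy, hη⟩ := exists_perp hy₀ hyc
  have hinj : ∀ w, (∀ i, star y₀ ⬝ᵥ (fun j => (ρ *ᵥ w) (i, j)) = 0 ∧
      star y ⬝ᵥ (fun j => (ρ *ᵥ w) (i, j)) = 0) → ρ *ᵥ w = 0 := by
    intro w hw
    choose c hc using fun i => hη _ (hw i).1 (hw i).2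
    rw [h.mulVec_eq]
    refine h.noProd _ c η ?_
    rw [← h.mulVec_eq]
    funext p
    simpa [tvec] using (congrFun (hc p.1) p.2).symm
  have hblock := block_eq_zero_of_pair h.psd hno ![x₀, x] ![y₀, y]
    (fun i => by fin_cases i; exacts [hk₀, hk]) 0 1 (by simpa using hinj)
  obtain ⟨a, ha0, hax₀, hax, ha⟩ := exists_perp hx₀ hxc
  set G : Matrix (Fin 3) (Fin 3) ℂ := fun f f' =>
    star (tvec x₀ (Pi.single f 1)) ⬝ᵥ (ρ *ᵥ tvec x₀ (Pi.single f' 1)) with hG
  set H : Matrix (Fin 3) (Fin 3) ℂ := fun f f' =>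
    star (tvec a (Pi.single f 1)) ⬝ᵥ (ρ *ᵥ tvec x₀ (Pi.single f' 1)) with hH
  have hexp : ∀ (b z : Fin 3 → ℂ) (f : Fin 3),
      star (tvec b (Pi.single f 1)) ⬝ᵥ (ρ *ᵥ tvec x₀ z) =
        ∑ f', star (tvec b (Pi.single f 1)) ⬝ᵥ (ρ *ᵥ tvec x₀ (Pi.single f' 1)) * z f' := by
    intro b z f
    have : tvec x₀ z = ∑ f', z f' • tvec x₀ (Pi.single f' 1) := by
      funext p; simp [tvec, Pi.single_apply, mul_comm]
    rw [this, Matrix.mulVec_sum, dotProduct_sum]
    exact Finset.sum_congr rfl fun f' _ => by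
      rw [Matrix.mulVec_smul, dotProduct_smul, smul_eq_mul, mul_comm]
  have hslice : ∀ (b z : Fin 3 → ℂ), (fun j => star b ⬝ᵥ fun i => (ρ *ᵥ tvec x₀ z) (i, j)) =
      fun j => star (tvec b (Pi.single j 1)) ⬝ᵥ (ρ *ᵥ tvec x₀ z) := fun b z => by
    funext j; rw [dot_tvec_apply]; simp [dotProduct, Pi.single_apply]
  have hGz : ∀ z, (G *ᵥ z) = fun j => star x₀ ⬝ᵥ fun i => (ρ *ᵥ tvec x₀ z) (i, j) := fun z => by
    rw [hslice]; funext f; rw [hexp]; rfl
  have hHz : ∀ z, (H *ᵥ z) = fun j => star a ⬝ᵥ fun i => (ρ *ᵥ tvec x₀ z) (i, j) := fun z => by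
    rw [hslice]; funext f; rw [hexp]; rfl
  set W := LinearMap.ker ((Matrix.of ![star y₀] : Matrix (Fin 1) (Fin 3) ℂ).mulVecLin) with hW
  have hWmem : ∀ z, z ∈ W ↔ star y₀ ⬝ᵥ z = 0 := fun z => by
    rw [hW, LinearMap.mem_ker, Matrix.mulVecLin_apply]
    exact ⟨fun h0 => congrFun h0 0, fun h0 => funext fun j => by fin_cases j; exact h0⟩
  have hto : ∀ (b z : Fin 3 → ℂ),
      (fun j => star b ⬝ᵥ fun i => (ρ *ᵥ tvec x₀ z) (i, j)) ∈ W := fun b z => by
    rw [hWmem, ← dot_tvec_apply]; exact h.cross hk₀ b z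
  set G' := G.mulVecLin.restrict (p := W) (q := W) (fun z _ => by
    rw [Matrix.mulVecLin_apply, hGz]; exact hto _ _) with hG'
  set H' := H.mulVecLin.restrict (p := W) (q := W) (fun z _ => by
    rw [Matrix.mulVecLin_apply, hHz]; exact hto _ _) with hH'
  have hGinj : Function.Injective G' := by
    rw [← LinearMap.ker_eq_bot, Submodule.eq_bot_iff]
    intro z hz
    have hz0 : G *ᵥ (z : Fin 3 → ℂ) = 0 := congrArg Subtype.val (LinearMap.mem_ker.1 hz)
    have hzk : ρ *ᵥ tvec x₀ (z : Fin 3 → ℂ) = 0 := by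
      refine (h.psd.dotProduct_mulVec_zero_iff _).1 ?_
      rw [dot_tvec_apply, ← hGz, hz0, dotProduct_zero]
    obtain ⟨c, hc⟩ := h.partner_unique hx₀ hy₀ hk₀ hzk
    have h0 := (hWmem _).1 z.2
    rw [hc, dotProduct_smul, smul_eq_mul, mul_eq_zero] at h0
    apply Subtype.ext
    rw [hc, h0.resolve_right fun h0 => hy₀ (by rwa [dotProduct_star_self_eq_zero] at h0)]
    simp
  set e := LinearEquiv.ofInjectiveEndo G' hGinj
  have : Nontrivial W := ⟨⟨⟨η, (hWmem η).2 hη₀⟩, 0, fun h0 => hη0 (congrArg Subtype.val h0)⟩⟩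
  obtain ⟨c, hc⟩ := Module.End.exists_eigenvalue (e.symm.toLinearMap ∘ₗ H')
  obtain ⟨z, hz⟩ := hc.exists_hasEigenvector
  have hHG : H *ᵥ (z : Fin 3 → ℂ) = c • (G *ᵥ (z : Fin 3 → ℂ)) := by
    have h1 : e.symm (H' z) = c • z := hz.apply_eq_smul
    rw [LinearEquiv.symm_apply_eq, map_smul] at h1
    exact congrArg Subtype.val h1
  set q := G *ᵥ (z : Fin 3 → ℂ) with hq
  have hq0 : q ≠ 0 := fun h0 => hz.2 (hGinj (Subtype.ext (by simpa [hG', ← hq] using h0)))
  obtain ⟨j₀, hj₀⟩ := Function.ne_iff.1 hq0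
  set w := ρ *ᵥ tvec x₀ (z : Fin 3 → ℂ) with hw
  set col : Fin 3 → Fin 3 → ℂ := fun j i => w (i, j) with hcol
  have h1 : ∀ j, star x₀ ⬝ᵥ col j = q j := fun j => (congrFun (hGz z) j).symm
  have h2 : ∀ j, star x ⬝ᵥ col j = 0 := fun j => by
    have h0 := hexp x z j
    rw [← hw, Finset.sum_eq_zero (fun f' _ => by
      have := hblock j f'
      simp only [Matrix.cons_val_zero, Matrix.cons_val_one] at this
      rw [this, zero_mul])] at h0
    rw [dot_tvec_apply] at h0
    simpa [dotProduct, Pi.single_apply, hcol] using h0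
  have h3 : ∀ j, star a ⬝ᵥ col j = c * q j := fun j => by
    rw [← smul_eq_mul, ← Pi.smul_apply, ← hHG, hHz]
  have hprod : w = tvec ((q j₀)⁻¹ • col j₀) q := by
    have hzero : ∀ j, col j - (q j * (q j₀)⁻¹) • col j₀ = 0 := by
      intro j
      obtain ⟨t, ht⟩ := ha (col j - (q j * (q j₀)⁻¹) • col j₀)
        (by rw [dotProduct_sub, dotProduct_smul, h1, h1, smul_eq_mul, mul_assoc,
          inv_mul_cancel₀ hj₀, mul_one, sub_self])
        (by rw [dotProduct_sub, dotProduct_smul, h2, h2, smul_zero, sub_zero])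
      have h0 : star a ⬝ᵥ (col j - (q j * (q j₀)⁻¹) • col j₀) = 0 := by
        rw [dotProduct_sub, dotProduct_smul, h3, h3, smul_eq_mul]
        have : (q j₀)⁻¹ * q j₀ = 1 := inv_mul_cancel₀ hj₀
        linear_combination -(c * q j) * this
      rw [← ht, dotProduct_smul, smul_eq_mul, mul_eq_zero] at h0
      rw [← ht, h0.resolve_right fun h0 => ha0 (by rwa [dotProduct_star_self_eq_zero] at h0),
        zero_smul]
    funext p
    have := congrFun (hzero p.2) p.1
    simp [hcol, sub_eq_zero] at this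
    simp [tvec, hcol, this]; ring
  have hw0 : w = 0 := by
    rw [hw, h.mulVec_eq] at hprod ⊢
    exact h.noProd _ _ _ hprod
  exact hj₀ (by rw [← h1, hcol, hw0]; simp [dotProduct])

/-- A state of two qutrits of rank four, PPT, with no product vector in its range, meets the key
criterion. -/
theorem keyCriterion_of_rank_four {ρ : Matrix (Fin 3 × Fin 3) (Fin 3 × Fin 3) ℂ}
    (hρ : ρ.PosSemidef) (hppt : IsPPT ρ) (hrank : ρ.rank = 4)
    (hrange : ∀ w x y, ρ *ᵥ w = tvec x y → ρ *ᵥ w = 0) : KeyCriterion ρ := by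
  obtain ⟨p, _, R, hR, hG⟩ := exists_range_factor hρ
  have hcard : Fintype.card {i // p i} = 4 := by
    rw [← hrank, ← hR, Matrix.rank_self_mul_conjTranspose, ← Matrix.rank_conjTranspose_mul_self,
      Matrix.rank_of_isUnit _ hG.isUnit]
  set e : Fin 4 ≃ {i // p i} := (Fintype.equivFinOfCardEq hcard).symm
  have hu : IsUnit (Rᴴ * R).det := (Matrix.isUnit_iff_isUnit_det _).1 hG.isUnit
  refine RankFourPPT.keyCriterion (R := R.submatrix id e) ⟨?_, fun g hg => ?_, hppt, ?_⟩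
  · rw [Matrix.conjTranspose_submatrix, Matrix.submatrix_mul_equiv, Matrix.submatrix_id_id, hR]
  · rw [Matrix.submatrix_mulVec_equiv] at hg
    have h0 : R *ᵥ (g ∘ e.symm) = 0 := hg
    have h1 : (Rᴴ * R) *ᵥ (g ∘ e.symm) = 0 := by
      rw [← Matrix.mulVec_mulVec, h0, Matrix.mulVec_zero]
    have h2 := congrArg ((Rᴴ * R)⁻¹ *ᵥ ·) h1
    simp only [Matrix.mulVec_mulVec, Matrix.nonsing_inv_mul _ hu, Matrix.one_mulVec,
      Matrix.mulVec_zero] at h2
    funext k
    simpa using congrFun h2 (e k)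
  · intro g x y hg
    have key : R.submatrix id e *ᵥ g = ρ *ᵥ (R *ᵥ ((Rᴴ * R)⁻¹ *ᵥ (g ∘ e.symm))) := by
      rw [← hR, Matrix.submatrix_mulVec_equiv, Matrix.mulVec_mulVec, Matrix.mulVec_mulVec,
        Matrix.mul_assoc, Matrix.mul_assoc, ← Matrix.mul_assoc Rᴴ, Matrix.mul_nonsing_inv _ hu,
        Matrix.mul_one]
      rfl
    rw [key] at hg ⊢
    exact hrange _ x y hg

end Kernel

end Vale.P372
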