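import Vale.Agent.P372.Forms
import Vale.Agent.P372.RankFour

/-!
# P372: bilinear maps `ℂ³ × ℂᵈ → E` with orthogonality at their zeros

If the zeros `φ a b = 0` of a bilinear map into an inner product space of dimension at most `d+1`
force `φ a · ⊥ φ · b`, and zeros with independent first factors force `φ · b ⊥ φ · b'`, and no
`φ · b` vanishes, then there is a contradiction: every finite family of zeros can be extended.
-/

namespace Vale.P372

open Matrix Module
open scoped ComplexInnerProductSpace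

section Indep

variable {E : Type} [AddCommGroup E] [Module ℂ E] [FiniteDimensional ℂ E] {s : ℕ}

lemma finrank_iSup_of_sum_eq_zero (S : Fin s → Submodule ℂ E)
    (h : ∀ w : Fin s → E, (∀ i, w i ∈ S i) → ∑ i, w i = 0 → ∀ i, w i = 0) :
    finrank ℂ (⨆ i, S i : Submodule ℂ E) = ∑ i, finrank ℂ (S i) := by
  classical
  set f : (Π i, S i) →ₗ[ℂ] E := ∑ i, (S i).subtype ∘ₗ LinearMap.proj i with hf
  have hfa : ∀ w, f w = ∑ i, (w i : E) := fun w => by simp [hf]
  have hinj : Function.Injective f := by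
    rw [← LinearMap.ker_eq_bot, Submodule.eq_bot_iff]
    intro w hw
    rw [LinearMap.mem_ker, hfa] at hw
    exact funext fun i => Subtype.ext (h (fun i => (w i : E)) (fun i => (w i).2) hw i)
  have hrange : LinearMap.range f = ⨆ i, S i := by
    refine le_antisymm ?_ (iSup_le fun i x hx => ?_)
    · rintro _ ⟨w, rfl⟩
      rw [hfa]
      exact Submodule.sum_mem _ fun i _ => Submodule.mem_iSup_of_mem i (w i).2
    · refine ⟨Pi.single i ⟨x, hx⟩, ?_⟩
      rw [hfa, Finset.sum_eq_single i (fun j _ hj => by simp [Pi.single_eq_of_ne hj])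
        (fun h => absurd (Finset.mem_univ i) h)]
      simp
  rw [← hrange, LinearMap.finrank_range_of_inj hinj, Module.finrank_pi_fintype]

end Indep

variable {E : Type} [NormedAddCommGroup E] [InnerProductSpace ℂ E] [FiniteDimensional ℂ E]
  {d : ℕ}


/-- The hypotheses on the bilinear map. -/
structure Pencil (φ : (Fin 3 → ℂ) →ₗ[ℂ] (Fin d → ℂ) →ₗ[ℂ] E) : Prop where
  pos : 0 < d
  cross : ∀ a b x y, φ a b = 0 → ⟪φ a y, φ x b⟫ = 0
  pair : ∀ a a' b b' x x', φ a b = 0 → φ a' b' = 0 → a ≠ 0 → (∀ μ : ℂ, a' ≠ μ • a) →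
    ⟪φ x b, φ x' b'⟫ = 0
  nondeg : ∀ b, b ≠ 0 → ∃ x, φ x b ≠ 0
  small : finrank ℂ E ≤ d + 1
  noA : finrank ℂ E = d + 1 → ∀ a, a ≠ 0 → ∃ y, φ a y ≠ 0

variable {φ : (Fin 3 → ℂ) →ₗ[ℂ] (Fin d → ℂ) →ₗ[ℂ] E}

/-- The partners of a first factor. -/
abbrev partners (φ : (Fin 3 → ℂ) →ₗ[ℂ] (Fin d → ℂ) →ₗ[ℂ] E) (a : Fin 3 → ℂ) :
    Submodule ℂ (Fin d → ℂ) := LinearMap.ker (φ a)

/-- The images of the partners. -/
abbrev spread (φ : (Fin 3 → ℂ) →ₗ[ℂ] (Fin d → ℂ) →ₗ[ℂ] E) (a : Fin 3 → ℂ) : Submodule ℂ E :=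
  Submodule.map₂ φ ⊤ (partners φ a)

omit [FiniteDimensional ℂ E] in
lemma mem_spread {a x : Fin 3 → ℂ} {b : Fin d → ℂ} (hb : b ∈ partners φ a) :
    φ x b ∈ spread φ a := Submodule.apply_mem_map₂ _ Submodule.mem_top hb

omit [FiniteDimensional ℂ E] in
lemma Pencil.rank_two (h : Pencil φ) {a z : Fin 3 → ℂ} {b : Fin d → ℂ} (ha : a ≠ 0) (hb : b ≠ 0)
    (hab : φ a b = 0) (hzb : φ z b = 0) : ∃ μ : ℂ, z = μ • a := by
  by_contra hμ
  obtain ⟨x, hx⟩ := h.nondeg b hb
  exact hx (inner_self_eq_zero.1 (h.pair a z b b x x hab hzb ha (not_exists.1 hμ)))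

omit [FiniteDimensional ℂ E] in
lemma Pencil.spread_le (h : Pencil φ) {a : Fin 3 → ℂ} :
    spread φ a ≤ (LinearMap.range (φ a))ᗮ := by
  rw [Submodule.map₂_le]
  intro x _ b hb
  rw [Submodule.mem_orthogonal]
  rintro _ ⟨y, rfl⟩
  exact h.cross a b x y hb

omit [FiniteDimensional ℂ E] in
lemma Pencil.spread_orth (h : Pencil φ) {a a' : Fin 3 → ℂ} (ha : a ≠ 0)
    (hne : ∀ μ : ℂ, a' ≠ μ • a) : spread φ a ≤ (spread φ a')ᗮ := by
  rw [Submodule.map₂_le]
  intro x _ b hb
  rw [Submodule.mem_orthogonal']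
  intro w hw
  revert w
  change spread φ a' ≤ LinearMap.ker (innerₛₗ ℂ (φ x b))
  rw [Submodule.map₂_le]
  intro x' _ b' hb'
  exact h.pair a a' b b' x x' hb hb' ha hne

/-- The spread of a zero is larger than its space of partners, which makes `E` as large as it may
be. -/
lemma Pencil.finrank_spread (h : Pencil φ) {a : Fin 3 → ℂ} (ha : a ≠ 0)
    (hL : 0 < finrank ℂ (partners φ a)) :
    finrank ℂ (spread φ a) = finrank ℂ (partners φ a) + 1 ∧ finrank ℂ E = d + 1 := by
  set l := finrank ℂ (partners φ a)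
  obtain ⟨i, hi⟩ := Function.ne_iff.1 ha
  rw [Pi.zero_apply] at hi
  set x₁ : Fin 3 → ℂ := Pi.single (i + 1) 1 with hx₁
  set x₂ : Fin 3 → ℂ := Pi.single (i + 2) 1 with hx₂
  have hind : ∀ u v μ : ℂ, u • x₁ + v • x₂ = μ • a → u = 0 ∧ v = 0 := by
    intro u v μ hc
    have h0 := congrFun hc i
    simp [hx₁, hx₂, hi] at h0
    have h1 := congrFun hc (i + 1)
    have h2 := congrFun hc (i + 2)
    simp [hx₁, hx₂, h0] at h1 h2
    exact ⟨h1, h2⟩
  have hV : l + 1 ≤ finrank ℂ (spread φ a) := by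
    by_contra hlt
    let f : (Fin 3 → ℂ) → (partners φ a →ₗ[ℂ] spread φ a) := fun x =>
      LinearMap.codRestrict (spread φ a) ((φ x).comp (partners φ a).subtype)
        fun b => mem_spread b.2
    have hf : ∀ u v : ℂ, (u ≠ 0 ∨ v ≠ 0) → Function.Injective (f (u • x₁ + v • x₂)) := by
      intro u v huv
      rw [← LinearMap.ker_eq_bot, Submodule.eq_bot_iff]
      intro b hb
      by_contra hb0
      obtain ⟨μ, hμ⟩ := h.rank_two ha (fun h0 => hb0 (Subtype.ext h0)) b.2
        (congrArg Subtype.val (LinearMap.mem_ker.1 hb))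
      obtain ⟨hu, hv⟩ := hind u v μ hμ
      rcases huv with hu' | hv'
      exacts [hu' hu, hv' hv]
    have hle := LinearMap.finrank_le_finrank_of_injective (hf 1 0 (Or.inl one_ne_zero))
    set bL := finBasis ℂ (partners φ a)
    set bV := finBasisOfFinrankEq ℂ (spread φ a) (show finrank ℂ (spread φ a) = l by omega)
    set M₁ := LinearMap.toMatrix bL bV (f x₁)
    set M₂ := LinearMap.toMatrix bL bV (f x₂)
    obtain ⟨u, v, huv, hroot⟩ := exists_binary_root
      (f := fun u v : ℂ => (comb M₁ M₂ u v).det) hL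
      (comb M₁ M₂ 1 Polynomial.X).det (comb M₁ M₂ Polynomial.X 1).det
      (fun s => by
        rw [← Polynomial.coe_evalRingHom, RingHom.map_det, RingHom.mapMatrix_apply, comb_eval]
        simp)
      (fun s => by
        rw [← Polynomial.coe_evalRingHom, RingHom.map_det, RingHom.mapMatrix_apply, comb_eval]
        simp)
      (fun u v s => by simp only [comb_mul, Matrix.det_smul, Fintype.card_fin])
    obtain ⟨w, hw0, hw⟩ := Matrix.exists_mulVec_eq_zero_iff.2 hroot
    have hfl : f (u • x₁ + v • x₂) = u • f x₁ + v • f x₂ :=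
      LinearMap.ext fun b => Subtype.ext (by simp [f])
    have hcomb : comb M₁ M₂ u v = LinearMap.toMatrix bL bV (f (u • x₁ + v • x₂)) := by
      rw [hfl]; ext j k; simp [comb, M₁, M₂]
    rw [hcomb] at hw
    set b := bL.equivFun.symm w with hb
    have hrepr : (bL.repr b : Fin l → ℂ) = w := bL.equivFun.apply_symm_apply w
    have h0 : f (u • x₁ + v • x₂) b = 0 := by
      apply bV.equivFun.injective
      have := LinearMap.toMatrix_mulVec_repr bL bV (f (u • x₁ + v • x₂)) b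
      rw [hrepr, hw] at this
      rw [map_zero]
      exact this.symm
    exact hw0 (bL.equivFun.symm.injective (by
      rw [← hb, hf u v huv (h0.trans (map_zero _).symm), map_zero]))
  have h1 := (φ a).finrank_range_add_finrank_ker
  rw [finrank_fin_fun] at h1
  change finrank ℂ (LinearMap.range (φ a)) + l = d at h1
  have h2 := Submodule.finrank_mono (h.spread_le (a := a))
  have h3 := (LinearMap.range (φ a)).finrank_add_finrank_orthogonal
  have := h.small
  constructor <;> omega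

/-- A family of zeros with pairwise independent first factors. -/
def IsZeroFamily (φ : (Fin 3 → ℂ) →ₗ[ℂ] (Fin d → ℂ) →ₗ[ℂ] E) {s : ℕ}
    (a : Fin s → Fin 3 → ℂ) : Prop :=
  ∀ i, a i ≠ 0 ∧ 0 < finrank ℂ (partners φ (a i)) ∧ ∀ j, i ≠ j → ∀ μ : ℂ, a j ≠ μ • a i

/-- The polynomial of a linear form. -/
noncomputable def linForm (f : (Fin 3 → ℂ) →ₗ[ℂ] ℂ) : MvPolynomial (Fin 3) ℂ :=
  ∑ t, MvPolynomial.C (f (Pi.single t 1)) * MvPolynomial.X t

lemma isHomogeneous_linForm (f : (Fin 3 → ℂ) →ₗ[ℂ] ℂ) : (linForm f).IsHomogeneous 1 :=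
  MvPolynomial.IsHomogeneous.sum _ _ _ fun _ _ => MvPolynomial.isHomogeneous_C_mul_X _ _

lemma eval_linForm (f : (Fin 3 → ℂ) →ₗ[ℂ] ℂ) (z : Fin 3 → ℂ) :
    MvPolynomial.eval z (linForm f) = f z := by
  conv_rhs => rw [pi_eq_sum_univ' z, map_sum]
  simp only [linForm, map_sum, map_smul, smul_eq_mul, map_mul, MvPolynomial.eval_C,
    MvPolynomial.eval_X]
  exact Finset.sum_congr rfl fun t _ => mul_comm _ _

/-- The scalar form `z ↦ ⟨v, φ z b⟩`. -/
noncomputable def pairForm (φ : (Fin 3 → ℂ) →ₗ[ℂ] (Fin d → ℂ) →ₗ[ℂ] E) (v : E)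
    (b : Fin d → ℂ) : (Fin 3 → ℂ) →ₗ[ℂ] ℂ := (innerₛₗ ℂ v).comp (φ.flip b)

omit [FiniteDimensional ℂ E] in
lemma pairForm_apply (v : E) (b : Fin d → ℂ) (z : Fin 3 → ℂ) :
    pairForm φ v b z = ⟪v, φ z b⟫ := rfl

omit [FiniteDimensional ℂ E] in
lemma Pencil.family_inner (h : Pencil φ) {s : ℕ} {a : Fin s → Fin 3 → ℂ}
    (ha : IsZeroFamily φ a) {i j : Fin s} (hij : i ≠ j) {v w : E}
    (hv : v ∈ spread φ (a i)) (hw : w ∈ spread φ (a j)) : ⟪v, w⟫ = 0 :=
  Submodule.inner_left_of_mem_orthogonal hw (h.spread_orth (ha i).1 ((ha i).2.2 j hij) hv)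

omit [FiniteDimensional ℂ E] in
/-- Away from a zero, a functional killed by its minors is corrected by a partner. -/
lemma Pencil.exists_correction (h : Pencil φ) {a z : Fin 3 → ℂ} (ha : a ≠ 0)
    (hz : ∀ μ : ℂ, z ≠ μ • a) {l : ℕ} (bL : Basis (Fin l) ℂ (partners φ a))
    (bV : Basis (Fin (l + 1)) ℂ (spread φ a)) (β : Fin d → ℂ)
    (hg : ∑ k, ⟪(bV k : E), φ z β⟫ *
      cof (Matrix.of fun t k => ⟪(bV k : E), φ z (bL t : Fin d → ℂ)⟫) k = 0) :
    ∃ w ∈ partners φ a, ∀ v ∈ spread φ a, ⟪v, φ z β + φ z w⟫ = 0 := by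
  set Nz := (Matrix.of fun t k => ⟪(bV k : E), φ z (bL t : Fin d → ℂ)⟫ :
    Matrix (Fin l) (Fin (l + 1)) ℂ) with hNz
  have hext : ∀ ξ : E, (∀ k, ⟪(bV k : E), ξ⟫ = 0) → ∀ v ∈ spread φ a, ⟪v, ξ⟫ = 0 := by
    intro ξ hξ v hv
    have h1 : (innerₛₗ ℂ ξ).comp (spread φ a).subtype = 0 :=
      bV.ext fun k => inner_eq_zero_symm.1 (hξ k)
    exact inner_eq_zero_symm.1 (LinearMap.congr_fun h1 ⟨v, hv⟩)
  have hrows : LinearIndependent ℂ Nz.row := by
    rw [Fintype.linearIndependent_iff]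
    intro τ hτ t
    set b : partners φ a := ∑ t, τ t • bL t with hb
    have hb0 : φ z (b : Fin d → ℂ) = 0 := by
      refine inner_self_eq_zero (𝕜 := ℂ).1 (hext _ (fun k => ?_) _ (mem_spread b.2))
      have := congrFun hτ k
      simp [Matrix.row, hNz] at this
      simpa [hb, inner_sum, inner_smul_right] using this
    have hbz : b = 0 := by
      by_contra hbz
      obtain ⟨μ, hμ⟩ := h.rank_two ha (fun h0 => hbz (Subtype.ext h0)) b.2 hb0
      exact hz μ hμ
    exact Fintype.linearIndependent_iff.1 bL.linearIndependent τ hbz t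
  obtain ⟨τ, hτ⟩ := exists_combination hrows (f := fun k => ⟪(bV k : E), φ z β⟫) hg
  refine ⟨-((∑ t, τ t • bL t : partners φ a) : Fin d → ℂ), Submodule.neg_mem _
    (∑ t, τ t • bL t : partners φ a).2, hext _ fun k => ?_⟩
  rw [map_neg, inner_add_right, inner_neg_right, ← sub_eq_add_neg, sub_eq_zero, ← hτ k]
  simp [hNz, inner_sum, inner_smul_right]

/-- The dimensions left outside a family of zeros. -/
lemma Pencil.dimensions (h : Pencil φ) {s : ℕ} {a : Fin s → Fin 3 → ℂ} (ha : IsZeroFamily φ a)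
    {C : Submodule ℂ (Fin d → ℂ)} (hC : IsCompl (⨆ i, partners φ (a i)) C) :
    0 < finrank ℂ C ∧
      s + finrank ℂ ((⨆ i, spread φ (a i))ᗮ : Submodule ℂ E) ≤ finrank ℂ C + 1 := by
  set l := fun i => finrank ℂ (partners φ (a i)) with hl
  have hspread : ∀ i, finrank ℂ (spread φ (a i)) = l i + 1 := fun i =>
    (h.finrank_spread (ha i).1 (ha i).2.1).1
  have hfL : finrank ℂ (⨆ i, partners φ (a i) : Submodule ℂ (Fin d → ℂ)) = ∑ i, l i :=
    finrank_iSup_of_sum_eq_zero _ fun w hw hsum i => by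
    by_contra hwi
    obtain ⟨x, hx⟩ := h.nondeg _ hwi
    refine hx (inner_self_eq_zero (𝕜 := ℂ).1 ?_)
    have h0 : ⟪φ x (w i), ∑ j, φ x (w j)⟫ = 0 := by
      rw [← map_sum, hsum, map_zero, inner_zero_right]
    rwa [inner_sum, Finset.sum_eq_single i (fun j _ hj =>
      h.family_inner ha hj.symm (mem_spread (hw i)) (mem_spread (hw j)))
      (fun h' => absurd (Finset.mem_univ i) h')] at h0
  have hfV : finrank ℂ (⨆ i, spread φ (a i) : Submodule ℂ E) = ∑ i, (l i + 1) := by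
    rw [finrank_iSup_of_sum_eq_zero _ fun w hw hsum i => by
      refine inner_self_eq_zero (𝕜 := ℂ).1 ?_
      have h0 : ⟪w i, ∑ j, w j⟫ = 0 := by rw [hsum, inner_zero_right]
      rwa [inner_sum, Finset.sum_eq_single i (fun j _ hj =>
        h.family_inner ha hj.symm (hw i) (hw j))
        (fun h' => absurd (Finset.mem_univ i) h')] at h0]
    exact Finset.sum_congr rfl fun i _ => hspread i
  have hcd : (∑ i, l i) + finrank ℂ C = d := by
    rw [← hfL, Submodule.finrank_add_eq_of_isCompl hC, finrank_fin_fun]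
  have hsum1 : ∑ i, (l i + 1) = (∑ i, l i) + s := by simp [Finset.sum_add_distrib]
  have hes := Submodule.finrank_add_finrank_orthogonal (⨆ i, spread φ (a i))
  rw [hfV, hsum1] at hes
  have hsmall := h.small
  refine ⟨?_, by omega⟩
  by_contra hc0
  have hpos := h.pos
  have hs0 : s ≠ 0 := fun h0 => by subst h0; simp at hcd; omega
  have hs : s = 1 := by omega
  subst hs
  have h1 : ∑ i, l i = l 0 := by simp
  rw [h1] at hcd hes
  obtain ⟨y, hy⟩ := h.noA (by omega) (a 0) (ha 0).1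
  have htop : partners φ (a 0) = ⊤ := by
    apply Submodule.eq_top_of_finrank_eq
    rw [finrank_fin_fun]
    change l 0 = d
    omega
  exact hy (LinearMap.mem_ker.1 (htop ▸ Submodule.mem_top : y ∈ partners φ (a 0)))

/-- The data of a zero outside a family. -/
lemma Pencil.exists_drop (h : Pencil φ) {s : ℕ} {a : Fin s → Fin 3 → ℂ}
    (ha : IsZeroFamily φ a) :
    ∃ (z : Fin 3 → ℂ) (β : Fin d → ℂ), z ≠ 0 ∧ β ∉ (⨆ i, partners φ (a i) : Submodule ℂ _) ∧
      (∀ v ∈ (⨆ i, spread φ (a i))ᗮ, ⟪v, φ z β⟫ = 0) ∧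
      ∀ i, ∃ w ∈ partners φ (a i), ∀ v ∈ spread φ (a i), ⟪v, φ z β + φ z w⟫ = 0 := by
  classical
  set l := fun i => finrank ℂ (partners φ (a i)) with hl
  set bb := fun i => finBasis ℂ (partners φ (a i))
  set vv := fun i => finBasisOfFinrankEq ℂ (spread φ (a i))
    (h.finrank_spread (ha i).1 (ha i).2.1).1
  obtain ⟨C, hC⟩ := Submodule.exists_isCompl (⨆ i, partners φ (a i))
  obtain ⟨hcpos, hes⟩ := h.dimensions ha hC
  set c := finrank ℂ C
  set e := finrank ℂ ((⨆ i, spread φ (a i))ᗮ : Submodule ℂ E)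
  set β := finBasis ℂ C
  set u := finBasis ℂ ((⨆ i, spread φ (a i))ᗮ : Submodule ℂ E)
  have hκ : Fintype.card (Fin s ⊕ Fin e ⊕ Fin (c + 1 - s - e)) = c + 1 := by simp; omega
  set col := (Fintype.equivFinOfCardEq hκ).symm
  let N := fun i => (Matrix.of fun t k => linForm (pairForm φ (vv i k : E) (bb i t : Fin d → ℂ)) :
    Matrix (Fin (l i)) (Fin (l i + 1)) (MvPolynomial (Fin 3) ℂ))
  let M₀ : Fin c → Fin s ⊕ Fin e ⊕ Fin (c + 1 - s - e) → MvPolynomial (Fin 3) ℂ :=
    fun r => Sum.elim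
    (fun i => ∑ k, linForm (pairForm φ (vv i k : E) (β r : Fin d → ℂ)) * cof (N i) k)
    (Sum.elim (fun m => linForm (pairForm φ (u m : E) (β r : Fin d → ℂ))) fun _ => 0)
  let deg : Fin s ⊕ Fin e ⊕ Fin (c + 1 - s - e) → ℕ := Sum.elim (fun i => 1 + l i) fun _ => 1
  obtain ⟨z, hz, hdep⟩ := exists_rank_drop (Matrix.of fun r j => M₀ r (col j))
    (fun j => deg (col j)) (fun j => by rcases col j <;> simp [deg])
    (fun r j => by
      simp only [Matrix.of_apply, M₀, deg]
      rcases col j with i | m | q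
      · refine MvPolynomial.IsHomogeneous.sum _ _ _ fun k _ => (isHomogeneous_linForm _).mul ?_
        have hk := isHomogeneous_cof (M := N i) (d := fun _ => 1)
          (fun t k => isHomogeneous_linForm _) k
        simpa using hk
      · exact isHomogeneous_linForm _
      · exact MvPolynomial.isHomogeneous_zero _ _ _)
    hcpos
  obtain ⟨γ, hγ, r₀, hr₀⟩ := Fintype.not_linearIndependent_iff.1 hdep
  have hγ' : ∀ q, ∑ r, γ r * MvPolynomial.eval z (M₀ r q) = 0 := fun q => by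
    simpa [Matrix.row] using congrFun hγ (col.symm q)
  set β₀ : Fin d → ℂ := ∑ r, γ r • (β r : Fin d → ℂ) with hβ₀
  have hlin : ∀ v : E, ⟪v, φ z β₀⟫ = ∑ r, γ r * pairForm φ v (β r : Fin d → ℂ) z := fun v => by
    simp [hβ₀, pairForm_apply]
  refine ⟨z, β₀, hz, fun hL => ?_, fun v hv => ?_, fun i => ?_⟩
  · have h0 : β₀ = 0 := Submodule.disjoint_def.1 hC.disjoint _ hL
      (Submodule.sum_mem _ fun r _ => Submodule.smul_mem _ _ (β r).2)
    exact hr₀ (Fintype.linearIndependent_iff.1 β.linearIndependent γ (Subtype.ext (by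
      simpa [hβ₀] using h0)) r₀)
  · have h1 : (innerₛₗ ℂ (φ z β₀)).comp
        ((⨆ i, spread φ (a i))ᗮ : Submodule ℂ E).subtype = 0 := u.ext fun m => by
      refine inner_eq_zero_symm.1 ?_
      change ⟪(u m : E), φ z β₀⟫ = 0
      rw [hlin, ← hγ' (Sum.inr (Sum.inl m))]
      simp [M₀, eval_linForm]
    exact inner_eq_zero_symm.1 (LinearMap.congr_fun h1 ⟨v, hv⟩)
  · by_cases hzi : ∃ μ : ℂ, z = μ • a i
    · obtain ⟨μ, rfl⟩ := hzi
      refine ⟨0, Submodule.zero_mem _, fun v hv => ?_⟩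
      rw [map_zero, add_zero, map_smul, LinearMap.smul_apply, inner_smul_right,
        Submodule.inner_left_of_mem_orthogonal (LinearMap.mem_range_self (φ (a i)) β₀)
          (h.spread_le hv), mul_zero]
    · refine h.exists_correction (ha i).1 (not_exists.1 hzi) (bb i) (vv i) β₀ ?_
      have hmap : (Matrix.of fun t k => ⟪(vv i k : E), φ z (bb i t : Fin d → ℂ)⟫) =
          (N i).map (MvPolynomial.eval z) := by
        ext t k; simp [N, eval_linForm, pairForm_apply]
      rw [hmap, ← hγ' (Sum.inl i)]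
      simp only [hlin, M₀, Sum.elim_inl, map_sum, map_mul, eval_linForm, cof_map,
        Finset.mul_sum, Finset.sum_mul]
      rw [Finset.sum_comm]
      simp only [mul_assoc]

/-- Every family of zeros extends. -/
lemma Pencil.extend (h : Pencil φ) {s : ℕ} {a : Fin s → Fin 3 → ℂ} (ha : IsZeroFamily φ a) :
    ∃ a' : Fin (s + 1) → Fin 3 → ℂ, IsZeroFamily φ a' := by
  obtain ⟨z, β₀, hz, hβL, hperp, hfix⟩ := h.exists_drop ha
  choose w hw hwk using hfix
  set Lsum : Submodule ℂ (Fin d → ℂ) := ⨆ i, partners φ (a i) with hLsum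
  set y := β₀ + ∑ i, w i with hy
  have hwsum : ∑ i, w i ∈ Lsum :=
    Submodule.sum_mem _ fun i _ => Submodule.mem_iSup_of_mem i (hw i)
  have hyL : y ∉ Lsum := fun hL => hβL (by simpa [hy] using Lsum.sub_mem hL hwsum)
  have hξsum : φ z y = φ z β₀ + ∑ i, φ z (w i) := by rw [hy, map_add, map_sum]
  have hzy : φ z y = 0 := by
    set Vsum : Submodule ℂ E := ⨆ i, spread φ (a i) with hVsum
    have hξ : φ z y ∈ Vsumᗮ := by
      have hle : Vsum ≤ LinearMap.ker (innerₛₗ ℂ (φ z y)) := iSup_le fun j v hv => by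
        refine inner_eq_zero_symm.1 ?_
        rw [hξsum, inner_add_right, inner_sum, Finset.sum_eq_single j
          (fun i _ hij => h.family_inner ha hij.symm hv (mem_spread (hw i)))
          (fun h' => absurd (Finset.mem_univ j) h'), ← inner_add_right]
        exact hwk j v hv
      exact (Submodule.mem_orthogonal' _ _).2 fun v hv => hle hv
    have horth : ∀ i : Fin s, ⟪φ z y, φ z (w i)⟫ = 0 := fun i =>
      Submodule.inner_left_of_mem_orthogonal
        (Submodule.mem_iSup_of_mem i (mem_spread (hw i))) hξ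
    refine inner_self_eq_zero (𝕜 := ℂ).1 ?_
    nth_rewrite 2 [hξsum]
    rw [inner_add_right, inner_sum, hperp _ hξ, Finset.sum_eq_zero (fun i _ => horth i), add_zero]
  have hnew : ∀ i, ∀ μ : ℂ, z ≠ μ • a i := by
    rintro i μ rfl
    rw [map_smul, LinearMap.smul_apply, smul_eq_zero] at hzy
    refine hyL (Submodule.mem_iSup_of_mem i (hzy.resolve_left fun h0 => hz ?_))
    simp [h0]
  have hy0 : y ≠ 0 := fun h0 => hyL (h0 ▸ Lsum.zero_mem)
  refine ⟨Fin.cons z a, fun i => ?_⟩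
  refine Fin.cases ?_ (fun i => ?_) i
  · refine ⟨hz, ?_, fun j hj μ hμ => ?_⟩
    · exact finrank_pos_iff_exists_ne_zero.2 ⟨⟨y, hzy⟩, fun h0 => hy0 (congrArg Subtype.val h0)⟩
    · obtain ⟨j', rfl⟩ := Fin.exists_succ_eq.2 hj.symm
      simp only [Fin.cons_zero, Fin.cons_succ] at hμ
      rcases eq_or_ne μ 0 with rfl | hμ0
      · exact (ha j').1 (by simpa using hμ)
      · exact hnew j' μ⁻¹ (by rw [hμ, smul_smul, inv_mul_cancel₀ hμ0, one_smul])
  · simp only [Fin.cons_succ]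
    refine ⟨(ha i).1, (ha i).2.1, fun j => Fin.cases (fun _ μ => ?_) (fun j hj μ => ?_) j⟩
    · simpa using hnew i μ
    · simpa using (ha i).2.2 j (fun hij => hj (by rw [hij])) μ

/-- There is no such pencil. -/
theorem Pencil.false (h : Pencil φ) : False := by
  have hex : ∀ s, ∃ a : Fin s → Fin 3 → ℂ, IsZeroFamily φ a := by
    intro s
    induction s with
    | zero => exact ⟨Fin.elim0, fun i => i.elim0⟩
    | succ s ih => obtain ⟨a, ha⟩ := ih; exact h.extend ha
  obtain ⟨a, ha⟩ := hex (finrank ℂ E + 1)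
  have hne : ∀ i, spread φ (a i) ≠ ⊥ := fun i h0 => by
    have := (h.finrank_spread (ha i).1 (ha i).2.1).1
    rw [h0, finrank_bot] at this
    omega
  choose v hv hv0 using fun i => Submodule.exists_mem_ne_zero_of_ne_bot (hne i)
  have hli := linearIndependent_of_ne_zero_of_inner_eq_zero (𝕜 := ℂ) hv0
    (fun i j hij => h.family_inner ha hij (hv i) (hv j))
  have := hli.fintype_card_le_finrank
  simp at this

end Vale.P372
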