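import Vale.Agent.P372.Kernel

/-!
# P372: product vectors in the kernel give key
-/

namespace Vale.P372

open Matrix
open scoped Kronecker ComplexOrder

variable {A B ι : Type}

/-- A product vector. -/
def tvec (x : A → ℂ) (y : B → ℂ) : A × B → ℂ := fun z => x z.1 * y z.2

lemma kron_vecMulVec_tvec (x x' : A → ℂ) (y y' : B → ℂ) :
    vecMulVec x (star x') ⊗ₖ vecMulVec y (star y') = vecMulVec (tvec x y) (star (tvec x' y')) := by
  ext p q
  simp [vecMulVec_apply, tvec, kroneckerMap_apply]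
  ring

variable [Fintype A] [Fintype B] [DecidableEq A] [DecidableEq B]

omit [DecidableEq B] in
lemma kernel_rows {y y' : B → ℂ} {u : A × B → ℂ}
    (hw : ((1 : Matrix A A ℂ) ⊗ₖ (vecMulVec y (star y) + vecMulVec y' (star y'))) *ᵥ u = 0)
    (i : A) : star y ⬝ᵥ (fun j => u (i, j)) = 0 ∧ star y' ⬝ᵥ (fun j => u (i, j)) = 0 := by
  have hrow : (vecMulVec y (star y) + vecMulVec y' (star y')) *ᵥ (fun j => u (i, j)) = 0 := by
    funext j
    have := congrFun hw (i, j)
    simpa [Matrix.mulVec, dotProduct, kroneckerMap_apply, Fintype.sum_prod_type,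
      Matrix.one_apply, ite_mul, Finset.sum_ite_eq] using this
  set r := fun j => u (i, j)
  have h0 : star r ⬝ᵥ ((vecMulVec y (star y) + vecMulVec y' (star y')) *ᵥ r) = 0 := by
    rw [hrow, dotProduct_zero]
  have e : ∀ x : B → ℂ, star r ⬝ᵥ (vecMulVec x (star x) *ᵥ r) =
      ((Complex.normSq (star x ⬝ᵥ r) : ℝ) : ℂ) := by
    intro x
    rw [vecMulVec_mulVec, op_smul_eq_smul, dotProduct_smul, smul_eq_mul,
      Matrix.star_dotProduct r x, dotProduct_comm (star x) r, Complex.star_def, Complex.mul_conj]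
  rw [Matrix.add_mulVec, dotProduct_add, e, e, ← Complex.ofReal_add, Complex.ofReal_eq_zero,
    add_eq_zero_iff_of_nonneg (Complex.normSq_nonneg _) (Complex.normSq_nonneg _)] at h0
  exact ⟨Complex.normSq_eq_zero.1 h0.1, Complex.normSq_eq_zero.1 h0.2⟩

/-- A complex sesquilinear form vanishing on the diagonal vanishes. -/
lemma eq_zero_of_forall_form {N : Matrix B B ℂ} (h : ∀ η, star η ⬝ᵥ (N *ᵥ η) = 0) : N = 0 := by
  ext i j
  have hb : ∀ x y : B → ℂ, star x ⬝ᵥ (N *ᵥ y) = 0 := by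
    intro x y
    have h1 := h (x + y)
    have h2 := h (x + Complex.I • y)
    simp only [star_add, star_smul, Matrix.mulVec_add, Matrix.mulVec_smul, add_dotProduct,
      dotProduct_add, smul_dotProduct, dotProduct_smul, smul_eq_mul, h x, h y, Complex.star_def,
      Complex.conj_I] at h1 h2
    linear_combination (h1 - Complex.I * h2) / 2 + (star x ⬝ᵥ (N *ᵥ y) - star y ⬝ᵥ (N *ᵥ x)) / 2 *
      Complex.I_sq
  simpa [dotProduct, Matrix.mulVec, Pi.single_apply] using hb (Pi.single i 1) (Pi.single j 1)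

/-- Two kernel product vectors with an injective pair of second factors leave no coherence between
their first factors, unless the criterion holds. -/
theorem block_eq_zero_of_pair {ρ : Matrix (A × B) (A × B) ℂ} (hρ : ρ.PosSemidef)
    (hno : ¬ KeyCriterion ρ) (a : ι → A → ℂ) (b : ι → B → ℂ)
    (hker : ∀ i, ρ *ᵥ tvec (a i) (b i) = 0) (k l : ι)
    (hinj : ∀ w, (∀ i, star (b k) ⬝ᵥ (fun j => (ρ *ᵥ w) (i, j)) = 0 ∧
      star (b l) ⬝ᵥ (fun j => (ρ *ᵥ w) (i, j)) = 0) → ρ *ᵥ w = 0) (f f' : B) :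
    star (tvec (a l) (Pi.single f 1)) ⬝ᵥ (ρ *ᵥ tvec (a k) (Pi.single f' 1)) = 0 := by
  have hkerl : ∀ i, star (tvec (a i) (b i)) ᵥ* ρ = 0 := fun i => by
    have := congrArg star (hker i)
    rwa [star_mulVec, hρ.1.eq, star_zero] at this
  have hpair : ∀ η, star (tvec (a l) η) ⬝ᵥ (ρ *ᵥ tvec (a k) η) = 0 := by
    intro η
    set Pk := vecMulVec (b k) (star (b k)) with hPk
    set Pl := vecMulVec (b l) (star (b l)) with hPl
    set z := star (tvec (a l) η) ⬝ᵥ (ρ *ᵥ tvec (a k) η) with hz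
    set S := star z • vecMulVec (a k) (star (a l)) + z • vecMulVec (a l) (star (a k)) with hS
    have hSh : S.IsHermitian := by
      simp [hS, Matrix.IsHermitian, Matrix.conjTranspose_smul, conjTranspose_vecMulVec, add_comm]
    have hleft : ∀ i (x : A × B → ℂ), ρ * vecMulVec (tvec (a i) (b i)) x * ρ = 0 := by
      intro i x; rw [mul_vecMulVec, hker]; simp
    have hright : ∀ i (x : A × B → ℂ),
        ρ * vecMulVec x (star (tvec (a i) (b i))) * ρ = 0 := by
      intro i x; rw [mul_vecMulVec, vecMulVec_mul, hkerl]; simp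
    have h0 : ρ * (S ⊗ₖ (Pk + Pl)) * ρ = 0 := by
      simp only [hS, hPk, hPl, Matrix.add_kronecker, Matrix.kronecker_add, Matrix.smul_kronecker,
        kron_vecMulVec_tvec, Matrix.mul_add, Matrix.add_mul, Matrix.mul_smul, Matrix.smul_mul,
        hleft, hright]
      simp
    by_contra hne'
    refine hno (keyCriterion_of_kernel hρ hSh
      ((posSemidef_vecMulVec_self_star _).add (posSemidef_vecMulVec_self_star _)) η h0
      (fun w hw => hinj w (kernel_rows hw)) ?_)
    have hval : ∀ x x' : A → ℂ, (ρ * (vecMulVec x (star x') ⊗ₖ vecMulVec η (star η))).trace =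
        star (tvec x' η) ⬝ᵥ (ρ *ᵥ tvec x η) := fun x x' => by
      rw [kron_vecMulVec_tvec, mul_vecMulVec, Matrix.trace_vecMulVec, dotProduct_comm]
    have hherm : star (tvec (a k) η) ⬝ᵥ (ρ *ᵥ tvec (a l) η) = star z := by
      rw [hz, Matrix.star_dotProduct, Matrix.star_mulVec, hρ.1.eq, ← dotProduct_mulVec]
    rw [hS, Matrix.add_kronecker, Matrix.smul_kronecker, Matrix.smul_kronecker, Matrix.mul_add,
      Matrix.mul_smul, Matrix.mul_smul, Matrix.trace_add, Matrix.trace_smul, Matrix.trace_smul,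
      hval, hval, hherm, ← hz, smul_eq_mul, smul_eq_mul, Complex.star_def, mul_comm z,
      ← Complex.normSq_eq_conj_mul_self, ← Complex.ofReal_add, Complex.ofReal_re]
    have := Complex.normSq_pos.2 hne'
    linarith
  have hblock : ∀ f f', star (tvec (a l) (Pi.single f 1)) ⬝ᵥ
      (ρ *ᵥ tvec (a k) (Pi.single f' 1)) = 0 := by
    intro f f'
    set N : Matrix B B ℂ := fun f f' => star (tvec (a l) (Pi.single f 1)) ⬝ᵥ
      (ρ *ᵥ tvec (a k) (Pi.single f' 1)) with hN
    have hexp : ∀ (x : A → ℂ) (η : B → ℂ), tvec x η = ∑ g, η g • tvec x (Pi.single g 1) := by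
      intro x η; funext p; simp [tvec, Pi.single_apply, mul_comm]
    have h0 : N = 0 := eq_zero_of_forall_form fun η => by
      rw [← hpair η, hexp (a l) η, hexp (a k) η, star_sum, Matrix.mulVec_sum,
        sum_dotProduct]
      simp only [star_smul, smul_dotProduct, dotProduct_sum, Matrix.mulVec_smul, dotProduct_smul,
        smul_eq_mul]
      simp [dotProduct, Matrix.mulVec, hN, Finset.mul_sum, mul_assoc, mul_comm, mul_left_comm]
    exact congrFun (congrFun h0 f) f'
  exact hblock f f'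

/-- Product vectors in the kernel, extended by no product vector, such that no nonzero range
vector is killed by two independent second factors: the key criterion holds. -/
theorem keyCriterion_of_unextendible_inj {ρ : Matrix (A × B) (A × B) ℂ}
    (hρ : ρ.PosSemidef) (hne : ρ ≠ 0) (a : ι → A → ℂ) (b : ι → B → ℂ)
    (hker : ∀ i, ρ *ᵥ tvec (a i) (b i) = 0)
    (hext : ∀ x y, x ≠ 0 → y ≠ 0 → ∃ i, (star (a i) ⬝ᵥ x) * (star (b i) ⬝ᵥ y) ≠ 0)
    (hinj : ∀ k l, b k ≠ 0 → (∃ y, star (b k) ⬝ᵥ y = 0 ∧ star (b l) ⬝ᵥ y ≠ 0) →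
      ∀ w, (∀ i, star (b k) ⬝ᵥ (fun j => (ρ *ᵥ w) (i, j)) = 0 ∧
        star (b l) ⬝ᵥ (fun j => (ρ *ᵥ w) (i, j)) = 0) → ρ *ᵥ w = 0)
    (hB : 2 ≤ Fintype.card B) :
    KeyCriterion ρ := by
  by_contra hno
  have : Nonempty B := Fintype.card_pos_iff.1 (by omega)
  have hperp : ∀ k, ∃ y : B → ℂ, y ≠ 0 ∧ star (b k) ⬝ᵥ y = 0 := fun k => by
    set f := (Matrix.of ![star (b k)] : Matrix (Fin 1) B ℂ).mulVecLin
    have hk : LinearMap.ker f ≠ ⊥ := LinearMap.ker_ne_bot_of_finrank_lt (by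
      rw [Module.finrank_fin_fun, Module.finrank_pi]; omega)
    obtain ⟨y, hy, hy0⟩ := Submodule.exists_mem_ne_zero_of_ne_bot hk
    have hy' : (Matrix.of ![star (b k)] : Matrix (Fin 1) B ℂ) *ᵥ y = 0 := hy
    exact ⟨y, hy0, congrFun hy' 0⟩
  have hcol : ∀ k f, b k ≠ 0 → ρ *ᵥ tvec (a k) (Pi.single f 1) = 0 := by
    intro k f hbk
    funext ⟨i, g⟩
    suffices hx : (fun i => (ρ *ᵥ tvec (a k) (Pi.single f 1)) (i, g)) = 0 from congrFun hx i
    by_contra hx
    obtain ⟨y, hy0, hyk⟩ := hperp k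
    obtain ⟨l, hl⟩ := hext _ y hx hy0
    have hl' := mul_ne_zero_iff.1 hl
    refine hl'.1 ?_
    have := block_eq_zero_of_pair hρ hno a b hker k l (hinj k l hbk ⟨y, hyk, hl'.2⟩) g f
    rw [← this]
    simp [dotProduct, tvec, Fintype.sum_prod_type, Pi.single_apply, apply_ite]
  refine hne (Matrix.ext fun p q => ?_)
  suffices hx : (fun i => star (ρ p (i, q.2))) = 0 by simpa using congrFun hx q.1
  by_contra hx
  obtain ⟨l, hl⟩ := hext _ (fun _ => 1) hx (fun h => by simpa using congrFun h (Classical.arbitrary B))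
  have hl' := mul_ne_zero_iff.1 hl
  have hbl : b l ≠ 0 := fun h0 => hl'.2 (by simp [h0])
  refine hl'.1 ?_
  have := congrFun (hcol l q.2 hbl) p
  rw [Pi.zero_apply] at this
  simp only [Matrix.mulVec, dotProduct, tvec, Fintype.sum_prod_type, Pi.single_apply, mul_ite,
    mul_one, mul_zero, Finset.sum_ite_eq', Finset.mem_univ, if_true] at this
  rw [← star_zero ℂ, ← this, star_sum]
  simp [dotProduct, star_mul', mul_comm]


/-- A state on `A × ℂ³` whose kernel contains product vectors that no product vector extends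
meets the key criterion. -/
theorem keyCriterion_of_unextendible {ρ : Matrix (A × Fin 3) (A × Fin 3) ℂ}
    (hρ : ρ.PosSemidef) (hne : ρ ≠ 0) (a : ι → A → ℂ) (b : ι → Fin 3 → ℂ)
    (hker : ∀ i, ρ *ᵥ tvec (a i) (b i) = 0)
    (hext : ∀ x y, x ≠ 0 → y ≠ 0 → ∃ i, (star (a i) ⬝ᵥ x) * (star (b i) ⬝ᵥ y) ≠ 0) :
    KeyCriterion ρ := by
  refine keyCriterion_of_unextendible_inj hρ hne a b hker hext ?_ (by simp)
  have hdot : ∀ i (c : A → ℂ) (η : Fin 3 → ℂ), star (tvec (a i) (b i)) ⬝ᵥ tvec c η =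
      (star (a i) ⬝ᵥ c) * (star (b i) ⬝ᵥ η) := by
    intro i c η
    simp only [dotProduct, tvec, Pi.star_apply, star_mul', Fintype.sum_prod_type,
      Finset.mul_sum, Finset.sum_mul]
    rw [Finset.sum_comm]
    exact Finset.sum_congr rfl fun i _ => Finset.sum_congr rfl fun j _ => by ring
  intro k l hbk ⟨y, hyk, hyl⟩ w hw
  set f := (Matrix.of ![star (b k), star (b l)] : Matrix (Fin 2) (Fin 3) ℂ).mulVecLin with hf
  have hfv : ∀ v, f v = ![star (b k) ⬝ᵥ v, star (b l) ⬝ᵥ v] := fun v => by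
    funext t; fin_cases t <;> rfl
  have hsurj : LinearMap.range f = ⊤ := by
    rw [LinearMap.range_eq_top]
    intro t
    have hbb : star (b k) ⬝ᵥ b k ≠ 0 := fun h0 => hbk (by
      rwa [dotProduct_star_self_eq_zero] at h0)
    refine ⟨(t 0 / (star (b k) ⬝ᵥ b k)) • b k +
      ((t 1 - t 0 / (star (b k) ⬝ᵥ b k) * (star (b l) ⬝ᵥ b k)) / (star (b l) ⬝ᵥ y)) • y, ?_⟩
    rw [hfv]
    funext j
    fin_cases j <;>
      simp [dotProduct_add, dotProduct_smul, hyk, smul_eq_mul, hbb, hyl]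
  have hker1 : Module.finrank ℂ (LinearMap.ker f) = 1 := by
    have := f.finrank_range_add_finrank_ker
    rw [hsurj, finrank_top, Module.finrank_fin_fun, Module.finrank_fin_fun] at this
    omega
  obtain ⟨η, hη0⟩ : ∃ η : LinearMap.ker f, η ≠ 0 := by
    have : Nontrivial (LinearMap.ker f) := Module.nontrivial_of_finrank_eq_succ hker1
    exact exists_ne 0
  set u := ρ *ᵥ w with hu
  have hrow : ∀ i, ∃ c : ℂ, c • (η : Fin 3 → ℂ) = fun j => u (i, j) := by
    intro i
    obtain ⟨c, hc⟩ := exists_smul_eq_of_finrank_eq_one hker1 hη0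
      ⟨fun j => u (i, j), by rw [LinearMap.mem_ker, hfv, (hw i).1, (hw i).2]; simp⟩
    exact ⟨c, congrArg Subtype.val hc⟩
  choose c hc using hrow
  have huc : u = tvec c η := funext fun x => by
    simpa [tvec] using (congrFun (hc x.1) x.2).symm
  have hc0 : c = 0 := by
    by_contra hc0
    obtain ⟨i, hi⟩ := hext c η hc0 (fun h => hη0 (Subtype.ext h))
    apply hi
    rw [← hdot, ← huc, hu, dotProduct_mulVec]
    have := congrArg star (hker i)
    rw [star_mulVec, hρ.1.eq, star_zero] at this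
    rw [this, zero_dotProduct]
  rw [huc, hc0]; funext x; simp [tvec]

end Vale.P372
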