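import Vale.Agent.P372.RankFour

/-!
# P372: PPT states of rank at most four without product vectors in their range, in any dimension

A PPT matrix of rank at most the local dimension of its support has a product vector in its range,
so the only such states live on two qutrits.
-/

namespace Vale.P372

open Matrix
open scoped Kronecker ComplexOrder

section Operators

variable {V : Type} [AddCommGroup V] [Module ℂ V] [FiniteDimensional ℂ V] [Nontrivial V]

/-- Finitely many commuting operators on a nonzero space have a common eigenvector. -/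
lemma exists_common_eigvec {ι : Type} (f : ι → Module.End ℂ V)
    (hf : ∀ i j v, f i (f j v) = f j (f i v)) (s : Finset ι) :
    ∃ v : V, v ≠ 0 ∧ ∀ i ∈ s, ∃ c : ℂ, f i v = c • v := by
  classical
  induction s using Finset.induction_on with
  | empty => obtain ⟨v, hv⟩ := exists_ne (0 : V); exact ⟨v, hv, by simp⟩
  | @insert i s _ ih =>
    obtain ⟨v, hv, hvs⟩ := ih
    choose! c hc using hvs
    set W : Submodule ℂ V := ⨅ j ∈ s, LinearMap.ker (f j - c j • 1) with hW
    have hmem : ∀ w, w ∈ W ↔ ∀ j ∈ s, f j w = c j • w := fun w => by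
      simp [hW, Submodule.mem_iInf, sub_eq_zero]
    have hinv : ∀ w ∈ W, f i w ∈ W := fun w hw => by
      rw [hmem] at hw ⊢
      intro j hj
      rw [hf j i, hw j hj, map_smul]
    have : Nontrivial W :=
      ⟨⟨⟨v, (hmem v).2 hc⟩, 0, fun h0 => hv (congrArg Subtype.val h0)⟩⟩
    obtain ⟨d, hd⟩ := Module.End.exists_eigenvalue ((f i).restrict hinv)
    obtain ⟨w, hw⟩ := hd.exists_hasEigenvector
    refine ⟨w, fun h0 => hw.2 (Subtype.ext h0), fun j hj => ?_⟩
    rcases Finset.mem_insert.1 hj with rfl | hj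
    · exact ⟨d, congrArg Subtype.val hw.apply_eq_smul⟩
    · exact ⟨c j, (hmem w).1 w.2 j hj⟩

end Operators

section Family

variable {E : Type} [Fintype E] [DecidableEq E]

/-- A matrix that increases every norm of its adjoint is normal. -/
lemma normal_of_le {T : Matrix E E ℂ}
    (h : ∀ v, (star (Tᴴ *ᵥ v) ⬝ᵥ (Tᴴ *ᵥ v)).re ≤ (star (T *ᵥ v) ⬝ᵥ (T *ᵥ v)).re) :
    Tᴴ * T = T * Tᴴ := by
  have hh : (Tᴴ * T - T * Tᴴ).IsHermitian :=
    (Matrix.isHermitian_conjTranspose_mul_self T).sub (Matrix.isHermitian_mul_conjTranspose_self T)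
  have hp : (Tᴴ * T - T * Tᴴ).PosSemidef := by
    refine Matrix.PosSemidef.of_dotProduct_mulVec_nonneg hh fun v => ?_
    refine Complex.le_def.2 ⟨?_, ?_⟩
    · rw [Matrix.sub_mulVec, dotProduct_sub, Complex.sub_re, Complex.zero_re, sub_nonneg,
        ← Matrix.mulVec_mulVec, ← Matrix.mulVec_mulVec, dotProduct_mulVec (star v) Tᴴ,
        dotProduct_mulVec (star v) T]
      have e1 : star v ᵥ* Tᴴ = star (T *ᵥ v) := (Matrix.star_mulVec T v).symm
      have e2 : star v ᵥ* T = star (Tᴴ *ᵥ v) := by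
        rw [Matrix.star_mulVec, Matrix.conjTranspose_conjTranspose]
      rw [e1, e2]
      exact h v
    · simpa using (hh.im_star_dotProduct_mulVec_self v).symm
  have ht : (Tᴴ * T - T * Tᴴ).trace = 0 := by
    rw [Matrix.trace_sub, Matrix.trace_mul_comm, sub_self]
  exact sub_eq_zero.1 (hp.trace_eq_zero_iff.1 ht)

/-- Matrices whose pairwise combinations are normal commute. -/
lemma commute_of_normal {S T : Matrix E E ℂ} (hS : Sᴴ * S = S * Sᴴ) (hT : Tᴴ * T = T * Tᴴ)
    (h₁ : (S + T)ᴴ * (S + T) = (S + T) * (S + T)ᴴ)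
    (h₂ : (S + Complex.I • T)ᴴ * (S + Complex.I • T) = (S + Complex.I • T) * (S + Complex.I • T)ᴴ) :
    S * T = T * S := by
  simp only [Matrix.conjTranspose_add, Matrix.conjTranspose_smul, Complex.star_def, Complex.conj_I,
    Matrix.add_mul, Matrix.mul_add, Matrix.smul_mul, Matrix.mul_smul, hS, hT] at h₁ h₂
  have e₁ : Tᴴ * S + Sᴴ * T = T * Sᴴ + S * Tᴴ := by
    linear_combination (norm := module) h₁
  have e₂ : -Complex.I • (Tᴴ * S) + Complex.I • (Sᴴ * T) =
      Complex.I • (T * Sᴴ) + -Complex.I • (S * Tᴴ) := by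
    linear_combination (norm := module) h₂
  have e₃ : (2 : ℂ) • (Sᴴ * T) = (2 : ℂ) • (T * Sᴴ) := by
    have e := congrArg (fun X => -Complex.I • X) e₂
    simp only [smul_add, smul_smul, neg_mul, mul_neg, Complex.I_mul_I, neg_neg, one_smul,
      neg_one_smul] at e
    linear_combination (norm := module) e₁ + e
  have hST : Sᴴ * T = T * Sᴴ := by
    have := congrArg (fun X => (1 / 2 : ℂ) • X) e₃
    simpa [smul_smul] using this
  have hTS : Tᴴ * S = S * Tᴴ := by
    have := congrArg Matrix.conjTranspose hST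
    simpa [Matrix.conjTranspose_mul] using this
  have q₁ : (Tᴴ * Sᴴ * (S * T)).trace = (Sᴴ * S * (Tᴴ * T)).trace := by
    rw [Matrix.mul_assoc Tᴴ, Matrix.trace_mul_comm, ← Matrix.mul_assoc Sᴴ, Matrix.mul_assoc, ← hT]
  have q₂ : (Tᴴ * Sᴴ * (T * S)).trace = (Sᴴ * S * (Tᴴ * T)).trace := by
    rw [Matrix.mul_assoc Tᴴ, ← Matrix.mul_assoc Sᴴ, hST, Matrix.mul_assoc T, ← Matrix.mul_assoc Tᴴ,
      Matrix.trace_mul_comm]
  have q₃ : (Sᴴ * Tᴴ * (S * T)).trace = (Sᴴ * S * (Tᴴ * T)).trace := by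
    rw [Matrix.mul_assoc Sᴴ, ← Matrix.mul_assoc Tᴴ, hTS, Matrix.mul_assoc S, ← Matrix.mul_assoc Sᴴ]
  have q₄ : (Sᴴ * Tᴴ * (T * S)).trace = (Sᴴ * S * (Tᴴ * T)).trace := by
    rw [Matrix.mul_assoc Sᴴ, Matrix.trace_mul_comm, ← Matrix.mul_assoc Tᴴ,
      Matrix.mul_assoc (Tᴴ * T), ← hS, Matrix.trace_mul_comm]
  refine sub_eq_zero.1 (Matrix.trace_conjTranspose_mul_self_eq_zero_iff.1 ?_)
  simp only [Matrix.conjTranspose_sub, Matrix.conjTranspose_mul, Matrix.mul_sub, Matrix.sub_mul,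
    Matrix.trace_sub, q₁, q₂, q₃, q₄, sub_self]

end Family

section Range

variable {A B : Type}

/-- No nonzero product vector lies in the range. -/
def NoProductInRange [Fintype A] [Fintype B] (ρ : Matrix (A × B) (A × B) ℂ) : Prop :=
  ∀ w x y, ρ *ᵥ w = tvec x y → ρ *ᵥ w = 0

variable [Fintype A] [Fintype B]

lemma form_partialTranspose (ρ : Matrix (A × B) (A × B) ℂ) (a x : A → ℂ) (η f : B → ℂ) :
    star (tvec a η) ⬝ᵥ (ρ *ᵥ tvec x f) =
      star (tvec a (star f)) ⬝ᵥ (partialTranspose ρ *ᵥ tvec x (star η)) := by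
  simp only [dotProduct, Matrix.mulVec, partialTranspose, tvec, Fintype.sum_prod_type,
    Finset.mul_sum, Pi.star_apply, star_mul', star_star]
  refine Finset.sum_congr rfl fun i _ => ?_
  rw [Finset.sum_comm]
  conv_rhs => rw [Finset.sum_comm]
  refine Finset.sum_congr rfl fun k _ => ?_
  rw [Finset.sum_comm]
  exact Finset.sum_congr rfl fun j _ => Finset.sum_congr rfl fun l _ => by ring

variable {E : Type} [Fintype E]

/-- The linear map `x ↦ Rᴴ (x ⊗ y)`. -/
def slot (R : Matrix (A × B) E ℂ) (y : B → ℂ) : Matrix E A ℂ :=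
  Matrix.of fun k i => ∑ j, star (R (i, j) k) * y j

omit [Fintype E] in
lemma slot_mulVec (R : Matrix (A × B) E ℂ) (y : B → ℂ) (x : A → ℂ) :
    slot R y *ᵥ x = Rᴴ *ᵥ tvec x y := by
  funext k
  simp only [slot, Matrix.mulVec, dotProduct, Matrix.of_apply, Finset.sum_mul, tvec,
    Fintype.sum_prod_type, Matrix.conjTranspose_apply]
  exact Finset.sum_congr rfl fun i _ => Finset.sum_congr rfl fun j _ => by ring

omit [Fintype E] [Fintype A] in
lemma slot_add (R : Matrix (A × B) E ℂ) (y z : B → ℂ) : slot R (y + z) = slot R y + slot R z := by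
  ext k i; simp [slot, mul_add, Finset.sum_add_distrib]

omit [Fintype E] [Fintype A] in
lemma slot_smul (R : Matrix (A × B) E ℂ) (c : ℂ) (y : B → ℂ) :
    slot R (c • y) = c • slot R y := by
  ext k i; simp [slot, Finset.mul_sum, mul_left_comm]

lemma form_slot (R : Matrix (A × B) E ℂ) (a x : A → ℂ) (η f : B → ℂ) :
    star (tvec a η) ⬝ᵥ ((R * Rᴴ) *ᵥ tvec x f) =
      star (slot R η *ᵥ a) ⬝ᵥ (slot R f *ᵥ x) := by
  rw [slot_mulVec, slot_mulVec, ← Matrix.mulVec_mulVec, Matrix.star_mulVec,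
    Matrix.conjTranspose_conjTranspose, dotProduct_mulVec]

/-- A product vector in the range contradicts the hypothesis. -/
lemma NoProductInRange.eq_zero {ρ : Matrix (A × B) (A × B) ℂ} (h : NoProductInRange ρ)
    [DecidableEq E] {R : Matrix (A × B) E ℂ} (hR : R * Rᴴ = ρ) (hG : (Rᴴ * R).PosDef)
    {g : E → ℂ} {x : A → ℂ} {y : B → ℂ} (hg : R *ᵥ g = tvec x y) : g = 0 := by
  have hu : IsUnit (Rᴴ * R).det := (Matrix.isUnit_iff_isUnit_det _).1 hG.isUnit
  have key : R *ᵥ g = ρ *ᵥ (R *ᵥ ((Rᴴ * R)⁻¹ *ᵥ g)) := by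
    rw [← hR, Matrix.mulVec_mulVec, Matrix.mulVec_mulVec, Matrix.mul_assoc, Matrix.mul_assoc,
      ← Matrix.mul_assoc Rᴴ, Matrix.mul_nonsing_inv _ hu, Matrix.mul_one]
  have h0 : R *ᵥ g = 0 := key ▸ h _ x y (key ▸ hg)
  have h1 : (Rᴴ * R) *ᵥ g = 0 := by rw [← Matrix.mulVec_mulVec, h0, Matrix.mulVec_zero]
  have h2 := congrArg ((Rᴴ * R)⁻¹ *ᵥ ·) h1
  simpa [Matrix.mulVec_mulVec, Matrix.nonsing_inv_mul _ hu] using h2

/-- Enough rank forces a product vector into the range. -/
lemma NoProductInRange.card_le {ρ : Matrix (A × B) (A × B) ℂ} (h : NoProductInRange ρ)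
    [DecidableEq E] {R : Matrix (A × B) E ℂ} (hR : R * Rᴴ = ρ) (hG : (Rᴴ * R).PosDef) (i₀ : A) :
    Fintype.card E ≤ (Fintype.card A - 1) * Fintype.card B := by
  classical
  by_contra hc
  set F := (Matrix.of fun (p : {i // i ≠ i₀} × B) k => R (p.1.1, p.2) k :
    Matrix ({i // i ≠ i₀} × B) E ℂ).mulVecLin
  obtain ⟨g, hg, hg0⟩ := Submodule.exists_mem_ne_zero_of_ne_bot
    (LinearMap.ker_ne_bot_of_finrank_lt (f := F) (by
      rw [Module.finrank_pi, Module.finrank_pi, Fintype.card_prod,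
        Fintype.card_subtype_compl, Fintype.card_subtype_eq]
      omega))
  refine hg0 (h.eq_zero hR hG (x := Pi.single i₀ 1) (y := fun j => (R *ᵥ g) (i₀, j)) ?_)
  funext p
  by_cases hp : p.1 = i₀
  · obtain ⟨i, j⟩ := p
    simp only at hp
    subst hp
    simp [tvec]
  · have := congrFun (LinearMap.mem_ker.1 hg) (⟨p.1, hp⟩, p.2)
    simpa [tvec, Pi.single_apply, hp, F, Matrix.mulVec, dotProduct] using this

/-- Full support on the first side: only the zero vector pairs with everything to a kernel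
vector. -/
def FullSupport (ρ : Matrix (A × B) (A × B) ℂ) : Prop :=
  ∀ a : A → ℂ, (∀ f, ρ *ᵥ tvec a f = 0) → a = 0

/-- A PPT matrix with full support on the first side and no product vector in its range has rank
above the first dimension. -/
theorem card_lt_card [DecidableEq E] [Nonempty E] {ρ : Matrix (A × B) (A × B) ℂ}
    (hppt : IsPPT ρ) (hfull : FullSupport ρ) (h : NoProductInRange ρ)
    {R : Matrix (A × B) E ℂ} (hR : R * Rᴴ = ρ) (hG : (Rᴴ * R).PosDef) :
    Fintype.card A < Fintype.card E := by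
  classical
  by_contra hcard
  rw [not_lt] at hcard
  -- the partial slot of maximal rank
  obtain ⟨m, ⟨y₀, hy₀⟩, hmax⟩ : ∃ m, (∃ y, (slot R y).rank = m) ∧ ∀ y, (slot R y).rank ≤ m := by
    have hne : (Set.range fun y => (slot R y).rank).Nonempty := Set.range_nonempty _
    have hbd : BddAbove (Set.range fun y => (slot R y).rank) :=
      ⟨Fintype.card E, by rintro _ ⟨y, rfl⟩; exact (slot R y).rank_le_card_height⟩
    exact ⟨_, Nat.sSup_mem hne hbd, fun y => le_csSup hbd ⟨y, rfl⟩⟩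
  set C₀ := slot R y₀ with hC₀
  have hker : ∀ k, C₀ *ᵥ k = 0 → ∀ y, slot R y *ᵥ k ∈ LinearMap.range C₀.mulVecLin := by
    intro k hk y
    by_contra hout
    obtain ⟨W, hW⟩ : ∃ b : Fin m → A → ℂ, LinearIndependent ℂ fun i => C₀ *ᵥ b i := by
      have hfr : Module.finrank ℂ (LinearMap.range C₀.mulVecLin) = m := by
        rw [← hy₀]; rfl
      obtain ⟨bas⟩ : Nonempty (Module.Basis (Fin m) ℂ (LinearMap.range C₀.mulVecLin)) :=
        ⟨Module.finBasisOfFinrankEq ℂ _ hfr⟩
      choose b hb using fun i => LinearMap.mem_range.1 (bas i).2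
      refine ⟨b, ?_⟩
      have hli := bas.linearIndependent.map' (LinearMap.range C₀.mulVecLin).subtype
        (Submodule.ker_subtype _)
      have e : (fun i => C₀ *ᵥ b i) = (LinearMap.range C₀.mulVecLin).subtype ∘ bas :=
        funext fun i => hb i
      rw [e]
      exact hli
    set fam : ℂ → Fin (m + 1) → E → ℂ := fun t =>
      Fin.snoc (fun i => C₀ *ᵥ W i + t • (slot R y *ᵥ W i)) (slot R y *ᵥ k) with hfam
    have h0 : LinearIndependent ℂ (fam 0) := by
      simp only [hfam, zero_smul, add_zero]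
      rw [linearIndependent_finSnoc]
      refine ⟨hW, fun hsp => hout (Submodule.span_le.2 ?_ hsp)⟩
      rintro _ ⟨i, rfl⟩
      exact ⟨W i, rfl⟩
    have hc : Continuous fam := by
      refine continuous_pi fun i => ?_
      refine Fin.lastCases ?_ (fun j => ?_) i
      · simp only [hfam, Fin.snoc_last]; fun_prop
      · simp only [hfam, Fin.snoc_castSucc]; fun_prop
    obtain ⟨t, ht, ht0 : t ≠ 0⟩ := (((hc.continuousAt (x := (0 : ℂ))).eventually
      (isOpen_setOfPred_linearIndependent.mem_nhds h0)).filter_mono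
      (nhdsWithin_le_nhds (s := {(0 : ℂ)}ᶜ))).and self_mem_nhdsWithin |>.exists
    have hle : Submodule.span ℂ (Set.range (fam t)) ≤
        LinearMap.range (slot R (y₀ + t • y)).mulVecLin := by
      rw [Submodule.span_le]
      rintro _ ⟨i, rfl⟩
      refine Fin.lastCases ?_ (fun j => ?_) i
      · refine ⟨t⁻¹ • k, ?_⟩
        simp only [hfam, Fin.snoc_last, Matrix.mulVecLin_apply, slot_add, slot_smul,
          Matrix.add_mulVec, Matrix.smul_mulVec, Matrix.mulVec_smul, ← hC₀, hk,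
          zero_add, smul_smul, inv_mul_cancel₀ ht0, one_smul]
      · refine ⟨W j, ?_⟩
        simp only [hfam, Fin.snoc_castSucc, Matrix.mulVecLin_apply, slot_add, slot_smul,
          Matrix.add_mulVec, Matrix.smul_mulVec, ← hC₀]
    have h1 := Submodule.finrank_mono hle
    rw [finrank_span_eq_card ht, Fintype.card_fin] at h1
    have h2 := hmax (y₀ + t • y)
    have : (slot R (y₀ + t • y)).rank =
        Module.finrank ℂ (LinearMap.range (slot R (y₀ + t • y)).mulVecLin) := rfl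
    omega
  have hinj : ∀ k, C₀ *ᵥ k = 0 → k = 0 := by
    intro k hk
    refine hfull k fun f => ?_
    obtain ⟨a, ha : C₀ *ᵥ a = slot R f *ᵥ k⟩ := hker k hk f
    have hkk : ρ *ᵥ tvec k y₀ = 0 := by
      rw [← hR, ← Matrix.mulVec_mulVec, ← slot_mulVec, ← hC₀, hk, Matrix.mulVec_zero]
    have hΓ : partialTranspose ρ *ᵥ tvec k (star y₀) = 0 := by
      refine (Matrix.PosSemidef.dotProduct_mulVec_zero_iff hppt _).1 ?_
      rw [← form_partialTranspose, hkk, dotProduct_zero]
    have hcr : star (tvec a y₀) ⬝ᵥ (ρ *ᵥ tvec k f) = 0 := by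
      rw [form_partialTranspose, hΓ, dotProduct_zero]
    rw [← hR, form_slot, ← hC₀, ha, dotProduct_star_self_eq_zero] at hcr
    rw [← hR, ← Matrix.mulVec_mulVec, ← slot_mulVec, hcr, Matrix.mulVec_zero]
  have hbij : Function.Bijective C₀.mulVecLin := by
    have hi : Function.Injective C₀.mulVecLin := (injective_iff_map_eq_zero _).2 hinj
    have hle := LinearMap.finrank_le_finrank_of_injective hi
    rw [Module.finrank_pi, Module.finrank_pi] at hle
    exact ⟨hi, (LinearMap.injective_iff_surjective_of_finrank_eq_finrank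
      (by rw [Module.finrank_pi, Module.finrank_pi]; omega)).1 hi⟩
  set e := LinearEquiv.ofBijective C₀.mulVecLin hbij
  set J := LinearMap.toMatrix' e.symm.toLinearMap with hJ
  have hJv : ∀ v, C₀ *ᵥ (J *ᵥ v) = v := fun v => by
    rw [hJ, ← Matrix.toLin'_apply (LinearMap.toMatrix' _), Matrix.toLin'_toMatrix']
    exact e.apply_symm_apply v
  have hvJ : ∀ a, J *ᵥ (C₀ *ᵥ a) = a := fun a => hbij.1 (by
    simp only [Matrix.mulVecLin_apply, hJv])
  set T : (B → ℂ) → Matrix E E ℂ := fun y => slot R y * J with hT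
  have hnormal : ∀ y, (T y)ᴴ * T y = T y * (T y)ᴴ := by
    intro y
    refine normal_of_le fun β => ?_
    set ξ := -((T y)ᴴ *ᵥ β) with hξ
    set a := J *ᵥ ξ
    set b := J *ᵥ β
    set Φ := tvec a (star y₀) + tvec b (star y) with hΦ
    have h0 := (Complex.le_def.1 (Matrix.PosSemidef.dotProduct_mulVec_nonneg hppt Φ)).1
    have expand : ∀ (p q : A → ℂ) (u v : B → ℂ),
        star (tvec p (star u)) ⬝ᵥ (partialTranspose ρ *ᵥ tvec q (star v)) =
          star (slot R v *ᵥ p) ⬝ᵥ (slot R u *ᵥ q) := fun p q u v => by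
      rw [← form_partialTranspose, ← hR, form_slot]
    rw [hΦ, Matrix.mulVec_add, star_add, add_dotProduct, dotProduct_add, dotProduct_add, expand,
      expand, expand, expand] at h0
    have hyb : slot R y *ᵥ b = T y *ᵥ β := by rw [hT, ← Matrix.mulVec_mulVec]
    have hya : slot R y *ᵥ a = T y *ᵥ ξ := by rw [hT, ← Matrix.mulVec_mulVec]
    rw [← hC₀, hJv, hJv, hyb, hya] at h0
    have e1 : star (T y *ᵥ ξ) ⬝ᵥ β = star ξ ⬝ᵥ ((T y)ᴴ *ᵥ β) := by
      rw [Matrix.star_mulVec, dotProduct_mulVec]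
    have e2 : star β ⬝ᵥ (T y *ᵥ ξ) = star ((T y)ᴴ *ᵥ β) ⬝ᵥ ξ := by
      rw [Matrix.star_mulVec, Matrix.conjTranspose_conjTranspose, dotProduct_mulVec]
    rw [e1, e2, hξ] at h0
    simp only [star_neg, neg_dotProduct, dotProduct_neg, neg_neg, Complex.add_re, Complex.neg_re,
      Complex.zero_re] at h0
    linarith
  have hTadd : ∀ y z, T (y + z) = T y + T z := fun y z => by
    simp only [hT, slot_add, Matrix.add_mul]
  have hTsmul : ∀ (c : ℂ) y, T (c • y) = c • T y := fun c y => by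
    simp only [hT, slot_smul, Matrix.smul_mul]
  have hcomm : ∀ y z, T y * T z = T z * T y := fun y z => by
    refine commute_of_normal (hnormal y) (hnormal z) ?_ ?_
    · rw [← hTadd]; exact hnormal _
    · rw [← hTsmul, ← hTadd]; exact hnormal _
  have : Nontrivial (E → ℂ) := Function.nontrivial
  obtain ⟨g, hg0, hg⟩ := exists_common_eigvec
    (fun j => (T (Pi.single j 1))ᴴ.mulVecLin) (fun i j v => by
      simp only [Matrix.mulVecLin_apply, Matrix.mulVec_mulVec, ← Matrix.conjTranspose_mul, hcomm])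
    (Finset.univ : Finset B)
  choose c hc using fun j => hg j (Finset.mem_univ j)
  refine hg0 (h.eq_zero hR hG (x := C₀ᴴ *ᵥ g) (y := c) ?_)
  funext p
  have hrow : (R *ᵥ g) p = ((slot R (Pi.single p.2 1))ᴴ *ᵥ g) p.1 := by
    simp [slot, Matrix.mulVec, dotProduct, Pi.single_apply, apply_ite]
  have hslot : slot R (Pi.single p.2 1) = T (Pi.single p.2 1) * C₀ := by
    apply Matrix.ext_iff_mulVec.2
    intro v
    rw [hT, ← Matrix.mulVec_mulVec, ← Matrix.mulVec_mulVec, hvJ]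
  rw [hrow, hslot, Matrix.conjTranspose_mul, ← Matrix.mulVec_mulVec]
  have := hc p.2
  simp only [Matrix.mulVecLin_apply] at this
  rw [this, Matrix.mulVec_smul]
  simp [tvec, mul_comm]

end Range

section Reduction

variable {A B : Type} [Fintype A] [Fintype B]

/-- Exchanging the sides. -/
lemma isPPT_swap {ρ : Matrix (A × B) (A × B) ℂ} (h : IsPPT ρ) :
    IsPPT (ρ.submatrix Prod.swap Prod.swap) := by
  have : partialTranspose (ρ.submatrix Prod.swap Prod.swap) =
      ((partialTranspose ρ)ᵀ).submatrix Prod.swap Prod.swap := rfl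
  rw [IsPPT, this]
  exact (Matrix.PosSemidef.transpose h).submatrix _

lemma swap_mulVec (ρ : Matrix (A × B) (A × B) ℂ) (v : B × A → ℂ) :
    ρ.submatrix Prod.swap Prod.swap *ᵥ v = fun p => (ρ *ᵥ (v ∘ Prod.swap)) p.swap := by
  funext p
  simp only [Matrix.mulVec, dotProduct, Matrix.submatrix_apply, Function.comp_apply]
  exact (Fintype.sum_equiv (Equiv.prodComm A B) _ _ fun q => rfl).symm

lemma noProductInRange_swap {ρ : Matrix (A × B) (A × B) ℂ} (h : NoProductInRange ρ) :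
    NoProductInRange (ρ.submatrix Prod.swap Prod.swap) := by
  intro w x y hw
  rw [swap_mulVec] at hw ⊢
  have h0 : ρ *ᵥ (w ∘ Prod.swap) = 0 := h _ y x (funext fun p => by
    have := congrFun hw p.swap
    simpa [tvec, mul_comm] using this)
  funext p
  rw [h0]; rfl

lemma partialTranspose_filter {C D : Type} [Fintype C] [Fintype D]
    (ρ : Matrix (A × B) (A × B) ℂ) (X : Matrix C A ℂ) (Y : Matrix D B ℂ) :
    partialTranspose ((X ⊗ₖ Y) * ρ * (X ⊗ₖ Y)ᴴ) =
      (X ⊗ₖ Y.map star) * partialTranspose ρ * (X ⊗ₖ Y.map star)ᴴ := by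
  ext p q
  simp only [partialTranspose, Matrix.mul_apply, Matrix.conjTranspose_apply, kroneckerMap_apply,
    Matrix.map_apply, Fintype.sum_prod_type, Finset.sum_mul, star_mul', star_star]
  refine Finset.sum_congr rfl fun k _ => ?_
  rw [Finset.sum_comm]
  conv_rhs => rw [Finset.sum_comm]
  refine Finset.sum_congr rfl fun l _ => ?_
  rw [Finset.sum_comm]
  refine Finset.sum_congr rfl fun i _ => Finset.sum_congr rfl fun j _ => ?_
  ring

/-- Coordinates on the space spanned by the first slices of the range. -/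
lemma exists_support (ρ : Matrix (A × B) (A × B) ℂ) : ∃ (m : ℕ) (X : Matrix (Fin m) A ℂ)
    (U : Matrix A (Fin m) ℂ), X * U = 1 ∧
    (∀ w j, U *ᵥ (X *ᵥ fun i => (ρ *ᵥ w) (i, j)) = fun i => (ρ *ᵥ w) (i, j)) ∧
    (∀ a, (∀ w j, star a ⬝ᵥ (X *ᵥ fun i => (ρ *ᵥ w) (i, j)) = 0) → a = 0) := by
  classical
  set S : Submodule ℂ (A → ℂ) := Submodule.span ℂ
    (Set.range fun p : (A × B → ℂ) × B => fun i => (ρ *ᵥ p.1) (i, p.2)) with hS
  set bas := Module.finBasis ℂ S
  obtain ⟨X, hX⟩ := LinearMap.exists_extend (p := S) bas.equivFun.toLinearMap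
  set U := S.subtype ∘ₗ bas.equivFun.symm.toLinearMap with hU
  have hXS : ∀ s : S, X (s : A → ℂ) = bas.equivFun s := fun s => LinearMap.congr_fun hX s
  refine ⟨_, LinearMap.toMatrix' X, LinearMap.toMatrix' U, ?_, fun w j => ?_, fun a ha => ?_⟩
  · rw [← LinearMap.toMatrix'_comp, ← LinearMap.toMatrix'_id]
    congr 1
    refine LinearMap.ext fun c => ?_
    show X ((bas.equivFun.symm c : S) : A → ℂ) = c
    rw [hXS]
    exact bas.equivFun.apply_symm_apply c
  · rw [← Matrix.toLin'_apply (LinearMap.toMatrix' U), ← Matrix.toLin'_apply (LinearMap.toMatrix' X),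
      Matrix.toLin'_toMatrix', Matrix.toLin'_toMatrix']
    have hm : (fun i => (ρ *ᵥ w) (i, j)) ∈ S := Submodule.subset_span ⟨(w, j), rfl⟩
    have hx : X (fun i => (ρ *ᵥ w) (i, j)) = bas.equivFun ⟨_, hm⟩ := hXS ⟨_, hm⟩
    rw [hx]
    exact congrArg Subtype.val (bas.equivFun.symm_apply_apply ⟨_, hm⟩)
  · have hall : ∀ c, star a ⬝ᵥ c = 0 := by
      intro c
      have hc : X ((bas.equivFun.symm c : S) : A → ℂ) = c :=
        (hXS _).trans (bas.equivFun.apply_symm_apply c)
      rw [← hc]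
      refine Submodule.span_induction (p := fun v _ => star a ⬝ᵥ X v = 0) ?_ ?_ ?_ ?_
        (bas.equivFun.symm c).2
      · rintro _ ⟨⟨w, j⟩, rfl⟩
        have := ha w j
        rwa [← Matrix.toLin'_apply, Matrix.toLin'_toMatrix'] at this
      · simp
      · intro u v _ _ hu hv; rw [map_add, dotProduct_add, hu, hv, add_zero]
      · intro t v _ hv; rw [map_smul, dotProduct_smul, hv, smul_zero]
    exact dotProduct_star_self_eq_zero.1 (hall a)

lemma slot_kron_left {C : Type} [Fintype C] [DecidableEq B] (X : Matrix C A ℂ)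
    (v : A × B → ℂ) (c : C) (j : B) :
    ((X ⊗ₖ (1 : Matrix B B ℂ)) *ᵥ v) (c, j) = (X *ᵥ fun i => v (i, j)) c := by
  simp [Matrix.mulVec, dotProduct, kroneckerMap_apply, Fintype.sum_prod_type, Matrix.one_apply]

/-- Compression of the first side to its support. -/
lemma exists_compression [DecidableEq B] {ρ : Matrix (A × B) (A × B) ℂ} (hρ : ρ.PosSemidef)
    (hppt : IsPPT ρ) (hne : ρ ≠ 0) (h : NoProductInRange ρ) :
    ∃ (m : ℕ) (X : Matrix (Fin m) A ℂ) (U : Matrix A (Fin m) ℂ),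
      let σ := (X ⊗ₖ (1 : Matrix B B ℂ)) * ρ * (X ⊗ₖ (1 : Matrix B B ℂ))ᴴ
      σ.PosSemidef ∧ IsPPT σ ∧ σ ≠ 0 ∧ NoProductInRange σ ∧ σ.rank ≤ ρ.rank ∧ FullSupport σ ∧
        (U ⊗ₖ (1 : Matrix B B ℂ)) * σ * (U ⊗ₖ (1 : Matrix B B ℂ))ᴴ = ρ := by
  classical
  obtain ⟨m, X, U, hXU, hfix, hdet⟩ := exists_support ρ
  set K := X ⊗ₖ (1 : Matrix B B ℂ) with hK
  set K' := U ⊗ₖ (1 : Matrix B B ℂ) with hK'
  have hback : K' * (K * ρ) = ρ := by
    apply Matrix.ext_iff_mulVec.2
    intro w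
    rw [← Matrix.mulVec_mulVec, ← Matrix.mulVec_mulVec]
    funext ⟨i, j⟩
    rw [hK', slot_kron_left]
    have : (fun c => (K *ᵥ (ρ *ᵥ w)) (c, j)) = X *ᵥ fun i => (ρ *ᵥ w) (i, j) :=
      funext fun c => slot_kron_left X _ c j
    rw [this, hfix]
  refine ⟨m, X, U, ?_⟩
  intro σ
  have hρK : ρ * Kᴴ * K'ᴴ = ρ := by
    have := congrArg Matrix.conjTranspose hback
    simpa [Matrix.conjTranspose_mul, hρ.1.eq, Matrix.mul_assoc] using this
  have hσρ : K' * σ * K'ᴴ = ρ := by
    rw [show σ = K * ρ * Kᴴ from rfl, ← Matrix.mul_assoc, hback, hρK]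
  refine ⟨hρ.mul_mul_conjTranspose_same K, ?_, fun h0 => hne ?_, fun w x y hw => ?_, ?_,
    fun a ha => ?_, hσρ⟩
  · rw [IsPPT, partialTranspose_filter]
    exact Matrix.PosSemidef.mul_mul_conjTranspose_same hppt _
  · rw [← hσρ, h0]; simp
  · have hv : σ *ᵥ w = K *ᵥ (ρ *ᵥ (Kᴴ *ᵥ w)) := by
      simp only [σ, ← hK, Matrix.mulVec_mulVec, Matrix.mul_assoc]
    have h1 : ρ *ᵥ (Kᴴ *ᵥ w) = tvec (U *ᵥ x) y := by
      conv_lhs => rw [← hback, ← Matrix.mulVec_mulVec, ← Matrix.mulVec_mulVec, ← hv, hw]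
      funext ⟨i, j⟩
      rw [hK', slot_kron_left]
      simp [tvec, Matrix.mulVec, dotProduct, Finset.sum_mul, mul_assoc]
    rw [hv, h _ _ _ h1, Matrix.mulVec_zero]
  · exact (Matrix.rank_mul_le_left _ _).trans (Matrix.rank_mul_le_right _ _)
  · refine hdet a fun w j => ?_
    have hσh : σᴴ = σ := (hρ.mul_mul_conjTranspose_same K).1.eq
    have key : ∀ v, star (tvec a (Pi.single j 1)) ⬝ᵥ (σ *ᵥ v) = 0 := fun v => by
      rw [dotProduct_mulVec]
      have := congrArg star (ha (Pi.single j 1))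
      rw [Matrix.star_mulVec, hσh, star_zero] at this
      rw [this, zero_dotProduct]
    have hw' : σ *ᵥ (K'ᴴ *ᵥ w) = K *ᵥ (ρ *ᵥ w) := by
      conv_rhs => rw [← hρK]
      simp only [σ, ← hK, Matrix.mulVec_mulVec, Matrix.mul_assoc]
    have h0 := key (K'ᴴ *ᵥ w)
    rw [hw'] at h0
    simpa [dotProduct, tvec, Fintype.sum_prod_type, Pi.single_apply, apply_ite, hK,
      slot_kron_left, -Matrix.mulVec_mulVec] using h0

lemma pos_of_ne_zero {m : ℕ} {σ : Matrix (Fin m × B) (Fin m × B) ℂ} (h : σ ≠ 0) : 0 < m := by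
  by_contra h0
  exact h (Matrix.ext fun p => absurd p.1.2 (by omega))

lemma card_factor [DecidableEq A] [DecidableEq B] {ρ : Matrix (A × B) (A × B) ℂ} {E : Type}
    [Fintype E] [DecidableEq E] {R : Matrix (A × B) E ℂ} (hR : R * Rᴴ = ρ)
    (hG : (Rᴴ * R).PosDef) : Fintype.card E = ρ.rank := by
  rw [← hR, Matrix.rank_self_mul_conjTranspose, ← Matrix.rank_conjTranspose_mul_self,
    Matrix.rank_of_isUnit _ hG.isUnit]

/-- Every PPT state of rank at most four with no product vector in its range meets the key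
criterion, in all finite dimensions. -/
theorem keyCriterion_of_rank_le_four [DecidableEq A] [DecidableEq B]
    {ρ : Matrix (A × B) (A × B) ℂ} (hρ : ρ.PosSemidef) (hppt : IsPPT ρ) (hne : ρ ≠ 0)
    (hrank : ρ.rank ≤ 4) (hrange : NoProductInRange ρ) : KeyCriterion ρ := by
  classical
  obtain ⟨m, X, -, hp1, hppt1, hne1, hno1, hr1, hfull1, -⟩ :=
    exists_compression hρ hppt hne hrange
  set σ₁ := (X ⊗ₖ (1 : Matrix B B ℂ)) * ρ * (X ⊗ₖ (1 : Matrix B B ℂ))ᴴ
  obtain ⟨n, Y, U, hp2, hppt2, hne2, hno2, hr2, hfull2, hback⟩ :=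
    exists_compression (hp1.submatrix (Prod.swap : B × Fin m → Fin m × B)) (isPPT_swap hppt1)
      (fun h0 => hne1 (by ext p q; simpa using congrFun (congrFun h0 p.swap) q.swap))
      (noProductInRange_swap hno1)
  set σ₂ := (Y ⊗ₖ (1 : Matrix (Fin m) (Fin m) ℂ)) * σ₁.submatrix Prod.swap Prod.swap *
    (Y ⊗ₖ (1 : Matrix (Fin m) (Fin m) ℂ))ᴴ
  set τ := σ₂.submatrix (Prod.swap : Fin m × Fin n → Fin n × Fin m) Prod.swap with hτ
  have hτY : τ = ((1 : Matrix (Fin m) (Fin m) ℂ) ⊗ₖ Y) * σ₁ *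
      ((1 : Matrix (Fin m) (Fin m) ℂ) ⊗ₖ Y)ᴴ := by
    ext p q
    simp only [hτ, σ₂, Matrix.submatrix_apply, Matrix.mul_apply, Matrix.conjTranspose_apply,
      kroneckerMap_apply, Prod.fst_swap, Finset.sum_mul]
    refine Fintype.sum_equiv (Equiv.prodComm B (Fin m)) _ _ fun x => ?_
    refine Fintype.sum_equiv (Equiv.prodComm B (Fin m)) _ _ fun y => ?_
    obtain ⟨x₁, x₂⟩ := x
    obtain ⟨y₁, y₂⟩ := y
    show Y p.2 y₁ * (1 : Matrix (Fin m) (Fin m) ℂ) p.1 y₂ * σ₁ (y₂, y₁) (x₂, x₁) *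
        star (Y q.2 x₁ * (1 : Matrix (Fin m) (Fin m) ℂ) q.1 x₂) =
      (1 : Matrix (Fin m) (Fin m) ℂ) p.1 y₂ * Y p.2 y₁ * σ₁ (y₂, y₁) (x₂, x₁) *
        star ((1 : Matrix (Fin m) (Fin m) ℂ) q.1 x₂ * Y q.2 x₁)
    rw [mul_comm (Y p.2 y₁), mul_comm (Y q.2 x₁)]
  refine keyCriterion_of_filter X (1 : Matrix B B ℂ) (keyCriterion_of_filter (1 : Matrix (Fin m) (Fin m) ℂ) Y ?_)
  rw [← hτY]
  have hpτ : τ.PosSemidef := hp2.submatrix _
  have hnoτ : NoProductInRange τ := noProductInRange_swap hno2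
  have hτrank : τ.rank = σ₂.rank :=
    Matrix.rank_submatrix σ₂ (Equiv.prodComm (Fin m) (Fin n)) (Equiv.prodComm (Fin m) (Fin n))
  have hswap : (σ₁.submatrix Prod.swap Prod.swap : Matrix (B × Fin m) (B × Fin m) ℂ).rank =
      σ₁.rank := Matrix.rank_submatrix σ₁ (Equiv.prodComm B (Fin m)) (Equiv.prodComm B (Fin m))
  have hfullA : FullSupport τ := by
    intro a ha
    refine hfull1 a fun f => ?_
    have h2 : ∀ g, σ₂ *ᵥ tvec g a = 0 := fun g => by
      have h := congrArg (fun v => v ∘ Prod.swap) (ha g)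
      rw [hτ, swap_mulVec] at h
      have e : tvec a g ∘ Prod.swap = tvec g a := funext fun q => mul_comm _ _
      rw [e] at h
      funext q
      simpa using congrFun h q
    have hK : (U ⊗ₖ (1 : Matrix (Fin m) (Fin m) ℂ))ᴴ *ᵥ tvec f a = tvec (Uᴴ *ᵥ f) a := by
      funext q
      rw [Matrix.conjTranspose_kronecker, Matrix.conjTranspose_one, slot_kron_left]
      simp [tvec, Matrix.mulVec, dotProduct, Finset.sum_mul, mul_assoc]
    have h3 : σ₁.submatrix Prod.swap Prod.swap *ᵥ tvec f a = 0 := by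
      rw [← hback, ← Matrix.mulVec_mulVec, hK, ← Matrix.mulVec_mulVec, h2, Matrix.mulVec_zero]
    rw [swap_mulVec] at h3
    have e : tvec f a ∘ Prod.swap = tvec a f := funext fun q => mul_comm _ _
    rw [e] at h3
    funext q
    simpa using congrFun h3 q.swap
  obtain ⟨p, _, R, hR, hG⟩ := exists_range_factor hpτ
  obtain ⟨p', _, R', hR', hG'⟩ := exists_range_factor hp2
  have hcard := card_factor hR hG
  have hcard' := card_factor hR' hG'
  have hpos : 0 < σ₂.rank := Nat.pos_of_ne_zero fun h0 => hne2 (by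
    rw [← hR']
    have : IsEmpty {i // p' i} := Fintype.card_eq_zero_iff.1 (hcard'.trans h0)
    ext i j; simp [Matrix.mul_apply])
  have : Nonempty {i // p i} := Fintype.card_pos_iff.1 (by omega)
  have : Nonempty {i // p' i} := Fintype.card_pos_iff.1 (by omega)
  have hA := card_lt_card (isPPT_swap hppt2) hfullA hnoτ hR hG
  have hB := card_lt_card hppt2 hfull2 hno2 hR' hG'
  have hA' := hnoτ.card_le hR hG (⟨0, pos_of_ne_zero hne1⟩ : Fin m)
  have hB' := hno2.card_le hR' hG' (⟨0, pos_of_ne_zero hne2⟩ : Fin n)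
  rw [Fintype.card_fin] at hA hB
  rw [Fintype.card_fin, Fintype.card_fin] at hA' hB'
  have hm : m = 3 ∧ n = 3 ∧ τ.rank = 4 := by
    have : m ≤ 3 := by omega
    have : n ≤ 3 := by omega
    interval_cases m <;> interval_cases n <;> omega
  obtain ⟨rfl, rfl, hr4⟩ := hm
  exact keyCriterion_of_rank_four hpτ (isPPT_swap hppt2) hr4 hnoτ

end Reduction

end Vale.P372
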