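import Vale.Agent.P372.Upb

namespace Vale.P372

open Matrix
open scoped Kronecker ComplexOrder

/-- the first factors of the tiles basis -/
noncomputable def tilesA : Fin 5 → Fin 3 → ℂ :=
  let r : ℂ := ((√2)⁻¹ : ℝ); let t : ℂ := ((√3)⁻¹ : ℝ)
  ![![1, 0, 0], ![r, -r, 0], ![0, 0, 1], ![0, r, -r], ![t, t, t]]

/-- the second factors of the tiles basis -/
noncomputable def tilesB : Fin 5 → Fin 3 → ℂ :=
  let r : ℂ := ((√2)⁻¹ : ℝ); let t : ℂ := ((√3)⁻¹ : ℝ)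
  ![![r, -r, 0], ![0, 0, 1], ![0, r, -r], ![1, 0, 0], ![t, t, t]]

lemma tiles_unext {x₀ x₁ x₂ y₀ y₁ y₂ : ℂ} (h0 : x₀ = 0 ∨ y₀ - y₁ = 0)
    (h1 : x₀ - x₁ = 0 ∨ y₂ = 0) (h2 : x₂ = 0 ∨ y₁ - y₂ = 0) (h3 : x₁ - x₂ = 0 ∨ y₀ = 0)
    (h4 : x₀ + x₁ + x₂ = 0 ∨ y₀ + y₁ + y₂ = 0) :
    (x₀ = 0 ∧ x₁ = 0 ∧ x₂ = 0) ∨ (y₀ = 0 ∧ y₁ = 0 ∧ y₂ = 0) := by
  rcases h0 with h0 | h0 <;> rcases h1 with h1 | h1 <;> rcases h2 with h2 | h2 <;>
    rcases h3 with h3 | h3 <;> rcases h4 with h4 | h4 <;> grind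

/-- The hypothesis is not empty: the tiles basis meets it. -/
theorem tiles_isUPB : IsUPB tilesA tilesB := by
  have hr : (((√2)⁻¹ : ℝ) : ℂ) * (((√2)⁻¹ : ℝ) : ℂ) = 2⁻¹ := by
    rw [← Complex.ofReal_mul, ← mul_inv, Real.mul_self_sqrt (by norm_num)]; norm_num
  have ht : (((√3)⁻¹ : ℝ) : ℂ) * (((√3)⁻¹ : ℝ) : ℂ) = 3⁻¹ := by
    rw [← Complex.ofReal_mul, ← mul_inv, Real.mul_self_sqrt (by norm_num)]; norm_num
  refine ⟨fun i => ?_, fun i j hij => ?_, fun x y hx hy => ?_⟩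
  · fin_cases i <;>
      simp only [tilesA, tilesB] <;>
      simp [dotProduct, Fin.sum_univ_three, Complex.conj_ofReal, -Complex.ofReal_inv, hr, ht] <;>
      norm_num
  · fin_cases i <;> fin_cases j <;> simp at hij <;>
      simp [tilesA, tilesB, dotProduct, Fin.sum_univ_three, -Complex.ofReal_inv]
  · by_contra hc
    simp only [not_exists, not_not] at hc
    have h0 := hc 0; have h1 := hc 1; have h2 := hc 2; have h3 := hc 3; have h4 := hc 4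
    simp [tilesA, tilesB, dotProduct, Fin.sum_univ_three, ← mul_add, ← mul_sub,
      ← sub_eq_add_neg] at h0 h1 h2 h3 h4
    exact (tiles_unext h0 h1 h2 h3 h4).elim
      (fun e => hx (funext fun j => by fin_cases j <;> simp [e.1, e.2.1, e.2.2]))
      (fun e => hy (funext fun j => by fin_cases j <;> simp [e.1, e.2.1, e.2.2]))

end Vale.P372
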