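import Vale.Agent.P372.RankFour
import Vale.Agent.P372.TilesUPB

/-!
# P372: the two-qutrit unextendible product bases satisfy the rank-four hypotheses
-/

namespace Vale.P372

open Matrix
open scoped Kronecker ComplexOrder

variable {a b : Fin 5 → Fin 3 → ℂ}

lemma upbState_sq (h : IsUPB a b) :
    upbState a b * upbState a b = (4 : ℂ)⁻¹ • upbState a b := by
  have h0 : ∀ i, upbState a b * vecMulVec (pvec (a i) (b i)) (star (pvec (a i) (b i))) = 0 :=
    fun i => by rw [mul_vecMulVec, upbState_mulVec_pvec h]; simp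
  conv_lhs => arg 2; rw [upbState]
  rw [Matrix.mul_smul, Matrix.mul_sub, Matrix.mul_one, Matrix.mul_sum, Finset.sum_eq_zero
    (fun i _ => h0 i), sub_zero]

lemma upbState_rank (h : IsUPB a b) : (upbState a b).rank = 4 := by
  classical
  have hρ := upbState_isState h
  set hh := hρ.1.1
  have hev : ∀ i, hh.eigenvalues i = 0 ∨ hh.eigenvalues i = 1 / 4 := by
    intro i
    set v : Fin 3 × Fin 3 → ℂ := ⇑(hh.eigenvectorBasis i)
    have hv : upbState a b *ᵥ v = hh.eigenvalues i • v := hh.mulVec_eigenvectorBasis i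
    have hv0 : v ≠ 0 := fun h0 => by
      have := hh.eigenvectorBasis.orthonormal.1 i
      rw [show hh.eigenvectorBasis i = 0 from PiLp.ext (congrFun h0)] at this
      simp at this
    have h2 : (4 : ℂ)⁻¹ • (hh.eigenvalues i • v) =
        hh.eigenvalues i • (hh.eigenvalues i • v) := by
      rw [← hv, ← Matrix.smul_mulVec, ← upbState_sq h, ← Matrix.mulVec_mulVec, hv,
        Matrix.mulVec_smul, hv]
    obtain ⟨j, hj⟩ := Function.ne_iff.1 hv0
    have h3 := congrFun h2 j
    simp only [Pi.smul_apply, Complex.real_smul, smul_eq_mul] at h3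
    have h4 : ((hh.eigenvalues i * (hh.eigenvalues i - 1 / 4) : ℝ) : ℂ) * v j = 0 := by
      push_cast; linear_combination -h3
    rcases mul_eq_zero.1 h4 with h5 | h5
    · rcases mul_eq_zero.1 (Complex.ofReal_eq_zero.1 h5) with h6 | h6
      · exact Or.inl h6
      · exact Or.inr (by linarith)
    · exact absurd h5 hj
  have hsum : ∑ i, hh.eigenvalues i = 1 := by
    have := hh.trace_eq_sum_eigenvalues
    rw [hρ.2] at this
    simpa using (congrArg Complex.re this).symm
  rw [hh.rank_eq_card_non_zero_eigs, Fintype.card_subtype]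
  have h2 : ∑ i, hh.eigenvalues i =
      ((Finset.univ.filter fun i => hh.eigenvalues i ≠ 0).card : ℝ) * (1 / 4) := by
    rw [← Finset.sum_filter_ne_zero, Finset.sum_congr rfl (g := fun _ => (1 / 4 : ℝ))
      (fun i hi => (hev i).resolve_left (Finset.mem_filter.1 hi).2), Finset.sum_const, nsmul_eq_mul]
  rw [hsum] at h2
  have : ((Finset.univ.filter fun i => hh.eigenvalues i ≠ 0).card : ℝ) = 4 := by linarith
  exact_mod_cast this

lemma upbState_noProd (h : IsUPB a b) (w : Fin 3 × Fin 3 → ℂ) (x y : Fin 3 → ℂ)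
    (hw : upbState a b *ᵥ w = tvec x y) : upbState a b *ᵥ w = 0 := by
  rw [hw]
  by_contra h0
  obtain ⟨i, hi⟩ := h.2.2 x y (fun e => h0 (by subst e; funext p; simp [tvec]))
    (fun e => h0 (by subst e; funext p; simp [tvec]))
  apply hi
  rw [← dot_pvec, show pvec x y = tvec x y from rfl, ← hw]
  exact dot_upbState_mulVec h i w

end Vale.P372
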