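import Vale.Agent.P372.Pencil
import Vale.Agent.P372.Cross

/-!
# P372: states on `ℂ³ ⊗ B` of rank at most one above the rank of Bob's marginal

Without a product vector in the range such a state meets the key criterion.
-/

namespace Vale.P372

open Matrix Module
open scoped Kronecker ComplexOrder

/-- Bob's marginal. -/
def marginalB {A B : Type} [Fintype A] (ρ : Matrix (A × B) (A × B) ℂ) : Matrix B B ℂ :=
  Matrix.of fun j l => ∑ i, ρ (i, j) (i, l)

/-- Alice's marginal. -/
def marginalA {A B : Type} [Fintype B] (ρ : Matrix (A × B) (A × B) ℂ) : Matrix A A ℂ :=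
  marginalB (ρ.submatrix Prod.swap Prod.swap)

variable {d : ℕ}

lemma low_dot_swap {A B : Type} [Fintype A] [Fintype B] (f g : A × B → ℂ) :
    f ∘ Prod.swap ⬝ᵥ g ∘ Prod.swap = f ⬝ᵥ g :=
  comp_equiv_dotProduct_comp_equiv f g (Equiv.prodComm B A)

lemma low_swap_mulVec {A B : Type} [Fintype A] [Fintype B] (ρ : Matrix (A × B) (A × B) ℂ)
    (v : B × A → ℂ) : ρ.submatrix Prod.swap Prod.swap *ᵥ v = (ρ *ᵥ (v ∘ Prod.swap)) ∘ Prod.swap :=
  Matrix.submatrix_mulVec_equiv ρ v Prod.swap (Equiv.prodComm B A)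

lemma low_tvec_swap {A B : Type} (x : A → ℂ) (y : B → ℂ) : tvec y x ∘ Prod.swap = tvec x y := by
  funext p; simp [tvec, mul_comm]

lemma low_tvec_expand {A B : Type} [Fintype A] [DecidableEq A] (x : A → ℂ) (y : B → ℂ) :
    tvec x y = ∑ f, x f • tvec (Pi.single f 1) y := by
  funext p; simp [tvec, Pi.single_apply]

/-- The criterion for a state on `ℂ³ ⊗ ℂᵈ` with invertible marginal of Bob. -/
theorem keyCriterion_of_rank_low_full {ρ : Matrix (Fin 3 × Fin d) (Fin 3 × Fin d) ℂ}
    (hρ : ρ.PosSemidef) (hd : 0 < d) (hfull : ∀ v, marginalB ρ *ᵥ v = 0 → v = 0)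
    (hrank : ρ.rank ≤ d + 1) (hrange : ∀ w x y, ρ *ᵥ w = tvec x y → ρ *ᵥ w = 0) :
    KeyCriterion ρ := by
  by_contra hno
  obtain ⟨p, _, R, hR, hG⟩ := exists_range_factor hρ
  have hcard : Fintype.card {i // p i} ≤ d + 1 := by
    rwa [← hR, Matrix.rank_self_mul_conjTranspose, ← Matrix.rank_conjTranspose_mul_self,
      Matrix.rank_of_isUnit _ hG.isUnit] at hrank
  let φ : (Fin 3 → ℂ) →ₗ[ℂ] (Fin d → ℂ) →ₗ[ℂ] EuclideanSpace ℂ {i // p i} :=
    LinearMap.mk₂ ℂ (fun z w => WithLp.toLp 2 (tvec z w ᵥ* R))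
      (fun z z' w => by
        rw [← WithLp.toLp_add, ← Matrix.add_vecMul]; congr 2; funext q; simp [tvec]; ring)
      (fun c z w => by
        rw [← WithLp.toLp_smul, ← Matrix.smul_vecMul, tvec_smul_left])
      (fun z w w' => by rw [← WithLp.toLp_add, ← Matrix.add_vecMul, tvec_add_right])
      (fun c z w => by rw [← WithLp.toLp_smul, ← Matrix.smul_vecMul, tvec_smul_right])
  have hRstar : ∀ v, Rᴴ *ᵥ star v = star (v ᵥ* R) := fun v => (Matrix.star_vecMul R v).symm
  have hρv : ∀ v, ρ *ᵥ v = R *ᵥ (Rᴴ *ᵥ v) := fun v => by rw [Matrix.mulVec_mulVec, hR]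
  have hinner : ∀ z w z' w', inner ℂ (φ z' w') (φ z w) =
      tvec z w ⬝ᵥ (ρ *ᵥ star (tvec z' w')) := by
    intro z w z' w'
    rw [hρv, dotProduct_mulVec, hRstar]
    simp [φ, EuclideanSpace.inner_eq_star_dotProduct]
  have hzero : ∀ z w, φ z w = 0 → ρ *ᵥ tvec (star z) (star w) = 0 := by
    intro z w h0
    have h1 : tvec z w ᵥ* R = 0 := by simpa [φ] using h0
    have e : tvec (star z) (star w) = star (tvec z w) := by funext q; simp [tvec]
    rw [e, hρv, hRstar, h1, star_zero, Matrix.mulVec_zero]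
  have hnd : ∀ w, (∀ z, φ z w = 0) → w = 0 := by
    intro w hw
    have hk : marginalB ρ *ᵥ star w = 0 := by
      funext j
      simp only [Matrix.mulVec, dotProduct, marginalB, Matrix.of_apply, Finset.sum_mul]
      rw [Finset.sum_comm]
      refine Finset.sum_eq_zero fun i _ => ?_
      have := congrFun (hzero (Pi.single i 1) w (hw _)) (i, j)
      simpa [Matrix.mulVec, dotProduct, tvec, Fintype.sum_prod_type, Pi.single_apply] using this
    simpa using congrArg star (hfull _ hk)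
  refine Pencil.false (φ := φ) ⟨hd, ?_, ?_, ?_, by simpa using hcard, ?_⟩
  · intro a b x y hab
    rw [← inner_eq_zero_symm, hinner]
    have h0 := cross_eq_zero hρ hno (hzero a b hab) (star x) (star y)
    have e : ∀ (u : Fin 3 → ℂ) (v : Fin d → ℂ), star (tvec u v) = tvec (star u) (star v) :=
      fun u v => by funext q; simp [tvec]
    rwa [e, star_star, star_star, ← e] at h0
  · intro a a' b b' x x' hab hab' ha hne
    set ρ' := ρ.submatrix Prod.swap Prod.swap with hρ'
    have hρ'p : ρ'.PosSemidef := hρ.submatrix _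
    have hno' : ¬ KeyCriterion ρ' := fun h => hno h.of_swap
    have hsa : star a ≠ 0 := by simpa using ha
    have hne' : ∀ c : ℂ, star a' ≠ c • star a := fun c hc => hne (star c) (by
      simpa using congrArg star hc)
    obtain ⟨q, hq0, -, -, hq⟩ := exists_perp hsa hne'
    have hblock := block_eq_zero_of_pair hρ'p hno' ![star b, star b'] ![star a, star a']
      (fun i => by
        fin_cases i <;> simp [hρ', low_swap_mulVec, low_tvec_swap, hzero a b hab, hzero a' b' hab'])
      0 1 (fun w hw => by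
        have hcol : ∀ j, ∃ c : ℂ, c • q = fun i => (ρ *ᵥ (w ∘ Prod.swap)) (i, j) := fun j =>
          hq _ (by simpa [hρ', low_swap_mulVec, Function.comp_def] using (hw j).1)
            (by simpa [hρ', low_swap_mulVec, Function.comp_def] using (hw j).2)
        choose c hc using hcol
        have := hrange (w ∘ Prod.swap) q c (funext fun z => by
          simpa [tvec, mul_comm] using (congrFun (hc z.2) z.1).symm)
        rw [hρ', low_swap_mulVec, this]; rfl)
    have hent : ∀ f f', inner ℂ (φ (Pi.single f' 1) b) (φ (Pi.single f 1) b') = 0 := by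
      intro f f'
      rw [hinner]
      have h1 := hblock f f'
      simp only [Matrix.cons_val_zero, Matrix.cons_val_one, hρ', low_swap_mulVec, low_tvec_swap] at h1
      rw [← low_dot_swap (A := Fin 3) (B := Fin d)]
      have e : star (tvec (Pi.single f' (1 : ℂ)) b) = tvec (Pi.single f' 1) (star b) := by
        funext z; simp [tvec, Pi.single_apply]; split_ifs <;> simp
      rw [e]
      convert h1 using 2
      funext z
      simp [tvec, Pi.single_apply]; split_ifs <;> simp
    rw [pi_eq_sum_univ' x, pi_eq_sum_univ' x', map_sum, map_sum, LinearMap.sum_apply,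
      LinearMap.sum_apply, sum_inner]
    refine Finset.sum_eq_zero fun f _ => ?_
    rw [inner_sum]
    refine Finset.sum_eq_zero fun f' _ => ?_
    rw [map_smul, map_smul, LinearMap.smul_apply, LinearMap.smul_apply, inner_smul_left,
      inner_smul_right, hent, mul_zero, mul_zero]
  · intro b hb
    by_contra hall
    exact hb (hnd b fun z => not_not.1 fun h0 => hall ⟨z, h0⟩)
  · intro hdim a ha
    by_contra hall
    push Not at hall
    obtain ⟨i, hi⟩ := Function.ne_iff.1 ha
    rw [Pi.zero_apply] at hi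
    set s : Fin 3 → ℂ := Pi.single (i + 1) (a (i + 2)) - Pi.single (i + 2) (a (i + 1)) with hs
    set q : Fin 3 → ℂ := if a (i + 1) = 0 then Pi.single (i + 1) 1 else s with hqdef
    have hq0 : q ≠ 0 := by
      rw [hqdef]
      split_ifs with h1
      · simp
      · intro h0
        have := congrFun h0 (i + 2)
        simp [hs] at this
        exact h1 this
    set P : (Fin 3 × Fin d → ℂ) →ₗ[ℂ] Fin 3 × Fin d → ℂ := LinearMap.id
    let F : ({i // p i} → ℂ) × (Fin d → ℂ) →ₗ[ℂ] Fin 3 × Fin d → ℂ :=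
      R.mulVecLin.coprod
        { toFun := fun y => -tvec q y
          map_add' := fun y y' => by rw [tvec_add_right, neg_add]
          map_smul' := fun c y => by rw [tvec_smul_right, RingHom.id_apply, smul_neg] }
    have haz : a ⬝ᵥ q = 0 := by
      rw [hqdef]
      split_ifs with h1
      · simpa using h1
      · simp [hs, dotProduct_sub]; ring
    let Ann : (Fin 3 × Fin d → ℂ) →ₗ[ℂ] Fin d → ℂ :=
      { toFun := fun v j => ∑ t, a t * v (t, j)
        map_add' := fun v v' => by funext j; simp [mul_add, Finset.sum_add_distrib]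
        map_smul' := fun c v => by
          funext j; simp only [Pi.smul_apply, smul_eq_mul, RingHom.id_apply, Finset.mul_sum]
          exact Finset.sum_congr rfl fun t _ => by ring }
    have hsurj : LinearMap.range Ann = ⊤ := LinearMap.range_eq_top.2 fun y =>
      ⟨tvec (Pi.single i (a i)⁻¹) y, funext fun j => by
        simp [Ann, tvec, Pi.single_apply, hi]⟩
    have hle : LinearMap.range F ≤ LinearMap.ker Ann := by
      rintro _ ⟨⟨g, y⟩, rfl⟩
      rw [LinearMap.mem_ker]
      funext j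
      have h1 : ∀ k, ∑ t, a t * R (t, j) k = 0 := fun k => by
        have h2 : tvec a (Pi.single j 1) ᵥ* R = 0 := by simpa [φ] using hall (Pi.single j 1)
        simpa [Matrix.vecMul, dotProduct, tvec, Fintype.sum_prod_type, Pi.single_apply]
          using congrFun h2 k
      simp only [Ann, F, LinearMap.coe_mk, AddHom.coe_mk, LinearMap.coprod_apply,
        Matrix.mulVecLin_apply, Pi.zero_apply, Pi.add_apply, Pi.neg_apply, mul_add, tvec,
        Finset.sum_add_distrib, Matrix.mulVec, dotProduct, Finset.mul_sum]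
      rw [Finset.sum_comm]
      simp only [← mul_assoc, ← Finset.sum_mul, h1, zero_mul, Finset.sum_const_zero, zero_add,
        mul_neg, Finset.sum_neg_distrib, neg_eq_zero]
      rw [show ∑ t, a t * q t = 0 from haz, zero_mul]
    have h3 := Submodule.finrank_mono hle
    have h4 := Ann.finrank_range_add_finrank_ker
    rw [hsurj, finrank_top, Module.finrank_fin_fun, Module.finrank_pi, Fintype.card_prod,
      Fintype.card_fin, Fintype.card_fin] at h4
    have hκ : Fintype.card {i // p i} = d + 1 := by simpa using hdim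
    obtain ⟨⟨g, y⟩, hgy, hne⟩ := Submodule.exists_mem_ne_zero_of_ne_bot
      (LinearMap.ker_ne_bot_of_finrank_lt
        (f := F.codRestrict (LinearMap.ker Ann) fun v => hle ⟨v, rfl⟩) (by
        rw [Module.finrank_prod, Module.finrank_pi, Module.finrank_fin_fun, hκ]; omega))
    rw [LinearMap.ker_codRestrict] at hgy
    have hRg : R *ᵥ g = tvec q y := by
      simpa [F, add_neg_eq_zero] using LinearMap.mem_ker.1 hgy
    have hu : IsUnit (Rᴴ * R).det := (Matrix.isUnit_iff_isUnit_det _).1 hG.isUnit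
    have hRρ : R *ᵥ g = ρ *ᵥ (R *ᵥ ((Rᴴ * R)⁻¹ *ᵥ g)) := by
      rw [← hR, Matrix.mulVec_mulVec, Matrix.mulVec_mulVec, Matrix.mul_assoc, Matrix.mul_assoc,
        ← Matrix.mul_assoc Rᴴ, Matrix.mul_nonsing_inv _ hu, Matrix.mul_one]
    have h0 : R *ᵥ g = 0 := by
      rw [hRρ] at hRg ⊢
      exact hrange _ q y hRg
    have hg : g = 0 := by
      by_contra hg
      have := hG.dotProduct_mulVec_pos hg
      rw [← Matrix.mulVec_mulVec, h0, Matrix.mulVec_zero, dotProduct_zero] at this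
      exact this.false
    obtain ⟨k, hk⟩ := Function.ne_iff.1 hq0
    refine hne (Prod.ext hg (funext fun j => ?_))
    have := congrFun (hRg.symm.trans h0) (k, j)
    exact (mul_eq_zero.1 this).resolve_left hk

section Support

variable {A B : Type} [Fintype A] [Fintype B]

lemma marginalB_conj {m n : Type} [Fintype m] [Fintype n] [DecidableEq A]
    (ρ : Matrix (A × B) (A × B) ℂ) (X : Matrix m B ℂ) :
    marginalB (((1 : Matrix A A ℂ) ⊗ₖ X) * ρ * ((1 : Matrix A A ℂ) ⊗ₖ X)ᴴ) =
      X * marginalB ρ * Xᴴ := by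
  ext j l
  simp [marginalB, Matrix.mul_apply, Fintype.sum_prod_type, Matrix.one_apply, apply_ite,
    ite_mul, Finset.sum_mul, Finset.mul_sum]
  rw [Finset.sum_comm]
  exact Finset.sum_congr rfl fun a _ => Finset.sum_comm

omit [Fintype B] in
lemma low_marginalB_posSemidef {ρ : Matrix (A × B) (A × B) ℂ} (hρ : ρ.PosSemidef) :
    (marginalB ρ).PosSemidef := by
  have : marginalB ρ = ∑ i : A, ρ.submatrix (Prod.mk i) (Prod.mk i) := by
    ext j l; simp [marginalB, Matrix.sum_apply]
  rw [this]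
  exact Matrix.posSemidef_sum _ fun i _ => hρ.submatrix _

variable [DecidableEq A] [DecidableEq B]

/-- Bob's side may be cut down to the support of his marginal, reversibly. -/
lemma exists_supportB {ρ : Matrix (A × B) (A × B) ℂ} (hρ : ρ.PosSemidef) :
    ∃ (n : ℕ) (W L : Matrix B (Fin n) ℂ), n = (marginalB ρ).rank ∧ marginalB ρ = W * Wᴴ ∧
      (Wᴴ * W).PosDef ∧ ((1 : Matrix A A ℂ) ⊗ₖ (L * Wᴴ)) * ρ = ρ := by
  classical
  obtain ⟨p, _, R, hR, -⟩ := exists_range_factor hρ
  obtain ⟨q, _, Y, hY, hG⟩ := exists_range_factor (low_marginalB_posSemidef hρ)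
  set en := (Fintype.equivFin {j // q j}).symm
  set W : Matrix B (Fin (Fintype.card {j // q j})) ℂ := Y.submatrix id en with hW
  have hWW : W * Wᴴ = marginalB ρ := by
    rw [hW, Matrix.conjTranspose_submatrix, Matrix.submatrix_mul_equiv, Matrix.submatrix_id_id, hY]
  have hGW : (Wᴴ * W).PosDef := by
    rw [hW, Matrix.conjTranspose_submatrix, ← Matrix.submatrix_mul _ _ _ id _
      Function.bijective_id]
    exact hG.submatrix en.injective
  have hu : IsUnit (Wᴴ * W).det := (Matrix.isUnit_iff_isUnit_det _).1 hGW.isUnit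
  refine ⟨_, W, W * (Wᴴ * W)⁻¹, ?_, hWW.symm, hGW, ?_⟩
  · rw [← hWW, Matrix.rank_self_mul_conjTranspose, ← Matrix.rank_conjTranspose_mul_self,
      Matrix.rank_of_isUnit _ hGW.isUnit, Fintype.card_fin]
  set L := W * (Wᴴ * W)⁻¹ with hL
  set Q := (1 : Matrix B B ℂ) - L * Wᴴ with hQ
  have hQW : Q * W = 0 := by
    rw [hQ, hL, Matrix.sub_mul, Matrix.one_mul, Matrix.mul_assoc, Matrix.mul_assoc,
      Matrix.nonsing_inv_mul _ hu, Matrix.mul_one, sub_self]
  have h0 : (((1 : Matrix A A ℂ) ⊗ₖ Q) * ρ * ((1 : Matrix A A ℂ) ⊗ₖ Q)ᴴ).trace = 0 := by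
    have e : ∀ M : Matrix (A × B) (A × B) ℂ, M.trace = (marginalB M).trace := fun M => by
      simp [Matrix.trace, marginalB, Fintype.sum_prod_type]; exact Finset.sum_comm
    rw [e, marginalB_conj (n := B), ← hWW, ← Matrix.mul_assoc, hQW]
    simp
  rw [← hR] at h0 ⊢
  rw [← Matrix.mul_assoc, Matrix.mul_assoc _ Rᴴ, ← Matrix.conjTranspose_mul,
    Matrix.trace_mul_conjTranspose_self_eq_zero_iff] at h0
  have e : ((1 : Matrix A A ℂ) ⊗ₖ (L * Wᴴ)) = 1 - (1 : Matrix A A ℂ) ⊗ₖ Q := by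
    ext a b; simp [hQ, Matrix.one_apply, Prod.ext_iff]; split_ifs <;> simp_all
  rw [e, Matrix.sub_mul, Matrix.one_mul, ← Matrix.mul_assoc, h0, Matrix.zero_mul, sub_zero]

omit [DecidableEq A] [DecidableEq B] in
/-- A kernel vector of the marginal gives kernel product vectors, and conversely. -/
lemma marginalB_mulVec_eq_zero {ρ : Matrix (A × B) (A × B) ℂ} (hρ : ρ.PosSemidef) (v : B → ℂ) :
    marginalB ρ *ᵥ v = 0 ↔ ∀ x : A → ℂ, ρ *ᵥ tvec x v = 0 := by
  classical
  refine ⟨fun h x => ?_, fun h => ?_⟩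
  · have hsingle : ∀ i, ρ *ᵥ tvec (Pi.single i 1) v = 0 := by
      have h0 : ∑ i : A, star (tvec (Pi.single i 1) v) ⬝ᵥ (ρ *ᵥ tvec (Pi.single i 1) v) = 0 := by
        rw [← dotProduct_zero (star v), ← h]
        simp only [marginalB, dotProduct, Matrix.mulVec, Matrix.of_apply, tvec, Pi.single_apply,
          Fintype.sum_prod_type, Pi.star_apply, apply_ite, star_zero,
          ite_mul, one_mul, zero_mul, mul_zero, Finset.sum_ite_eq',
          Finset.mem_univ, if_true, Finset.sum_ite_irrel, Finset.sum_const_zero, Finset.sum_mul,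
          Finset.mul_sum]
        rw [Finset.sum_comm]
        exact Finset.sum_congr rfl fun j _ => Finset.sum_comm
      intro i
      refine (hρ.dotProduct_mulVec_zero_iff _).1 ?_
      exact (Finset.sum_eq_zero_iff_of_nonneg fun j _ => hρ.dotProduct_mulVec_nonneg _).1 h0 i
        (Finset.mem_univ i)
    rw [low_tvec_expand x v, Matrix.mulVec_sum]
    exact Finset.sum_eq_zero fun i _ => by rw [Matrix.mulVec_smul, hsingle, smul_zero]
  · funext j
    simp only [Matrix.mulVec, dotProduct, marginalB, Matrix.of_apply, Finset.sum_mul]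
    rw [Finset.sum_comm]
    refine Finset.sum_eq_zero fun i _ => ?_
    have := congrFun (h (Pi.single i 1)) (i, j)
    simpa [Matrix.mulVec, dotProduct, tvec, Fintype.sum_prod_type, Pi.single_apply] using this

omit [DecidableEq A] [DecidableEq B] in
lemma low_kron_conj_mulVec {A' B' : Type} [Fintype A'] [Fintype B']
    (X : Matrix A' A ℂ) (Y : Matrix B' B ℂ) (x : A → ℂ) (y : B → ℂ) :
    (X ⊗ₖ Y) *ᵥ tvec x y = tvec (X *ᵥ x) (Y *ᵥ y) := by
  funext p
  simp [Matrix.mulVec, dotProduct, tvec, Fintype.sum_prod_type, Finset.sum_mul, Finset.mul_sum]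
  conv_rhs => rw [Finset.sum_comm]
  exact Finset.sum_congr rfl fun i _ => Finset.sum_congr rfl fun j _ => by ring

omit [DecidableEq A] [DecidableEq B] in
/-- A filter that has a left inverse on the range keeps the range free of product vectors. -/
lemma low_noProduct_of_left_inverse {A' B' : Type} [Fintype A'] [Fintype B']
    {ρ : Matrix (A × B) (A × B) ℂ} (X : Matrix A' A ℂ) (Y : Matrix B' B ℂ) (L : Matrix A A' ℂ)
    (M : Matrix B B' ℂ) (h : ((L ⊗ₖ M) * (X ⊗ₖ Y)) * ρ = ρ)
    (hrange : ∀ w x y, ρ *ᵥ w = tvec x y → ρ *ᵥ w = 0) (w : A' × B' → ℂ) (x : A' → ℂ)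
    (y : B' → ℂ) (hw : ((X ⊗ₖ Y) * ρ * (X ⊗ₖ Y)ᴴ) *ᵥ w = tvec x y) :
    ((X ⊗ₖ Y) * ρ * (X ⊗ₖ Y)ᴴ) *ᵥ w = 0 := by
  set v := (X ⊗ₖ Y)ᴴ *ᵥ w
  have e : ((X ⊗ₖ Y) * ρ * (X ⊗ₖ Y)ᴴ) *ᵥ w = (X ⊗ₖ Y) *ᵥ (ρ *ᵥ v) := by
    rw [Matrix.mulVec_mulVec, Matrix.mulVec_mulVec]
  have hv : ρ *ᵥ v = tvec (L *ᵥ x) (M *ᵥ y) := by
    conv_lhs => rw [← h]
    rw [← low_kron_conj_mulVec, ← hw, e, ← Matrix.mulVec_mulVec, ← Matrix.mulVec_mulVec]
  rw [e, hrange v _ _ hv, Matrix.mulVec_zero]

end Support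

/-- A state on `ℂ³ ⊗ B` without product vector in its range, of rank at most one more than Bob's
marginal, meets the key criterion. -/
theorem keyCriterion_of_rank_low {B : Type} [Fintype B]
    {ρ : Matrix (Fin 3 × B) (Fin 3 × B) ℂ} (hρ : ρ.PosSemidef) (hne : ρ ≠ 0)
    (hrank : ρ.rank ≤ (marginalB ρ).rank + 1)
    (hrange : ∀ w x y, ρ *ᵥ w = tvec x y → ρ *ᵥ w = 0) : KeyCriterion ρ := by
  classical
  obtain ⟨n, W, L, hn, hWW, hGW, hPρ⟩ := exists_supportB hρ
  have hu : IsUnit (Wᴴ * W).det := (Matrix.isUnit_iff_isUnit_det _).1 hGW.isUnit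
  have hn0 : 0 < n := by
    by_contra h0
    have hW0 : W = 0 := by ext b j; exact absurd j.pos h0
    exact hne (by rw [← hPρ, hW0]; simp)
  refine keyCriterion_of_filter (1 : Matrix (Fin 3) (Fin 3) ℂ) Wᴴ
    (keyCriterion_of_rank_low_full (hρ.mul_mul_conjTranspose_same _) hn0 (fun v hv => ?_) ?_
      fun w x y hw => low_noProduct_of_left_inverse _ _ 1 L
        (by rw [← Matrix.mul_kronecker_mul, Matrix.one_mul, hPρ]) hrange w x y hw)
  · rw [marginalB_conj (n := B), hWW, Matrix.conjTranspose_conjTranspose, Matrix.mul_assoc,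
      Matrix.mul_assoc, ← Matrix.mul_assoc Wᴴ, ← Matrix.mulVec_mulVec] at hv
    have hinj : ∀ v, (Wᴴ * W) *ᵥ v = 0 → v = 0 := fun v hv => by
      have := congrArg ((Wᴴ * W)⁻¹ *ᵥ ·) hv
      simpa [Matrix.mulVec_mulVec, Matrix.nonsing_inv_mul _ hu] using this
    exact hinj _ (hinj _ hv)
  · calc Matrix.rank _ ≤ (((1 : Matrix (Fin 3) (Fin 3) ℂ) ⊗ₖ Wᴴ) * ρ).rank :=
        Matrix.rank_mul_le_left _ _
      _ ≤ ρ.rank := Matrix.rank_mul_le_right _ _
      _ ≤ n + 1 := hn ▸ hrank

/-- A state without product vector in its range, with a marginal of rank at most three and rank at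
most one more than the other marginal, meets the key criterion. -/
theorem keyCriterion_of_local_three {A B : Type} [Fintype A] [Fintype B]
    {ρ : Matrix (A × B) (A × B) ℂ} (hρ : ρ.PosSemidef) (hne : ρ ≠ 0)
    (hA : (marginalA ρ).rank ≤ 3)
    (hrank : ρ.rank ≤ (marginalB ρ).rank + 1)
    (hrange : ∀ w x y, ρ *ᵥ w = tvec x y → ρ *ᵥ w = 0) : KeyCriterion ρ := by
  classical
  obtain ⟨n, W, L, hn, -, -, hP⟩ :=
    exists_supportB (hρ.submatrix (Prod.swap : B × A → A × B))
  set J : Matrix (Fin 3) (Fin n) ℂ :=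
    Matrix.of fun i j => if i = Fin.castLE (hn ▸ hA) j then 1 else 0 with hJ
  have hJJ : Jᴴ * J = 1 := by
    ext j k
    simp [hJ, Matrix.mul_apply, Matrix.one_apply, Fin.castLE_inj, eq_comm]
  set X := J * Wᴴ with hX
  set L' := L * Jᴴ with hL'
  have hLX : L' * X = L * Wᴴ := by
    rw [hL', hX, Matrix.mul_assoc, ← Matrix.mul_assoc Jᴴ, hJJ, Matrix.one_mul]
  have hfix : ((L' * X) ⊗ₖ (1 : Matrix B B ℂ)) * ρ = ρ := by
    have e : (L' * X) ⊗ₖ (1 : Matrix B B ℂ) = (((1 : Matrix B B ℂ) ⊗ₖ (L * Wᴴ))).submatrix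
        (Equiv.prodComm A B) (Equiv.prodComm A B) := by
      rw [hLX]; ext ⟨p, p'⟩ ⟨q, q'⟩; simp [mul_comm]
    have eρ : ρ = (ρ.submatrix Prod.swap Prod.swap).submatrix (Equiv.prodComm A B)
        (Equiv.prodComm A B) := by ext i j; rfl
    conv_lhs => arg 2; rw [eρ]
    rw [e, Matrix.submatrix_mul_equiv, hP, ← eρ]
  set σ := (X ⊗ₖ (1 : Matrix B B ℂ)) * ρ * (X ⊗ₖ (1 : Matrix B B ℂ))ᴴ with hσdef
  have hσ : σ.PosSemidef := hρ.mul_mul_conjTranspose_same _
  have hback : (L' ⊗ₖ (1 : Matrix B B ℂ)) * σ * (L' ⊗ₖ (1 : Matrix B B ℂ))ᴴ = ρ := by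
    have h1 : (L' ⊗ₖ (1 : Matrix B B ℂ)) * (X ⊗ₖ (1 : Matrix B B ℂ)) * ρ = ρ := by
      rw [← Matrix.mul_kronecker_mul, Matrix.one_mul, hfix]
    calc _ = ((L' ⊗ₖ (1 : Matrix B B ℂ)) * (X ⊗ₖ (1 : Matrix B B ℂ)) * ρ) *
          ((L' ⊗ₖ (1 : Matrix B B ℂ)) * (X ⊗ₖ (1 : Matrix B B ℂ)))ᴴ := by
            simp only [hσdef, Matrix.conjTranspose_mul, Matrix.mul_assoc]
      _ = ((L' ⊗ₖ (1 : Matrix B B ℂ)) * (X ⊗ₖ (1 : Matrix B B ℂ)) * ρ)ᴴ := by
            rw [h1]
            conv_rhs => rw [← h1, Matrix.conjTranspose_mul _ ρ, hρ.1.eq]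
      _ = ρ := by rw [h1, hρ.1.eq]
  have hσne : σ ≠ 0 := fun h0 => hne (by rw [← hback, h0]; simp)
  have hle : (marginalB ρ).rank ≤ (marginalB σ).rank := by
    have hker : LinearMap.ker (marginalB σ).mulVecLin ≤ LinearMap.ker (marginalB ρ).mulVecLin := by
      intro v hv
      have h1 := (marginalB_mulVec_eq_zero hσ v).1 hv
      refine (marginalB_mulVec_eq_zero hρ v).2 fun x => ?_
      rw [← hback, ← Matrix.mulVec_mulVec, ← Matrix.mulVec_mulVec, Matrix.conjTranspose_kronecker,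
        low_kron_conj_mulVec, Matrix.conjTranspose_one, Matrix.one_mulVec, h1, Matrix.mulVec_zero]
    have h1 := Submodule.finrank_mono hker
    have h2 := (marginalB σ).mulVecLin.finrank_range_add_finrank_ker
    have h3 := (marginalB ρ).mulVecLin.finrank_range_add_finrank_ker
    simp only [Matrix.rank]
    omega
  refine keyCriterion_of_filter X (1 : Matrix B B ℂ) (keyCriterion_of_rank_low hσ hσne ?_
    fun w x y hw => low_noProduct_of_left_inverse _ _ L' 1
      (by rw [← Matrix.mul_kronecker_mul, Matrix.one_mul, hfix]) hrange w x y hw)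
  calc σ.rank ≤ ((X ⊗ₖ (1 : Matrix B B ℂ)) * ρ).rank := Matrix.rank_mul_le_left _ _
    _ ≤ ρ.rank := Matrix.rank_mul_le_right _ _
    _ ≤ _ := hrank.trans (Nat.add_le_add_right hle 1)

/-- The same criterion with the roles of the parties in either order. -/
theorem keyCriterion_of_low_rank {A B : Type} [Fintype A] [Fintype B]
    {ρ : Matrix (A × B) (A × B) ℂ} (hρ : ρ.PosSemidef) (hne : ρ ≠ 0)
    (h : (marginalA ρ).rank ≤ 3 ∧ ρ.rank ≤ (marginalB ρ).rank + 1 ∨
      (marginalB ρ).rank ≤ 3 ∧ ρ.rank ≤ (marginalA ρ).rank + 1)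
    (hrange : ∀ w x y, ρ *ᵥ w = tvec x y → ρ *ᵥ w = 0) : KeyCriterion ρ := by
  classical
  rcases h with ⟨h3, hr⟩ | ⟨h3, hr⟩
  · exact keyCriterion_of_local_three hρ hne h3 hr hrange
  · refine KeyCriterion.of_swap (keyCriterion_of_local_three (hρ.submatrix _) (fun h0 => hne ?_)
      ?_ ?_ fun w x y hw => ?_)
    · ext p q; simpa using congrFun (congrFun h0 p.swap) q.swap
    · exact h3
    · exact le_of_eq_of_le (Matrix.rank_submatrix ρ (Equiv.prodComm B A) (Equiv.prodComm B A)) hr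
    · rw [low_swap_mulVec] at hw ⊢
      have hw' : ρ *ᵥ (w ∘ Prod.swap) = tvec y x := funext fun z => by
        simpa [tvec, mul_comm] using congrFun hw z.swap
      rw [hrange _ _ _ hw']; rfl

end Vale.P372
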