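import Vale.Agent.P372.Defs
import Mathlib

/-!
# P372: the tiles state meets the key criterion, separable states do not

The tiles unextendible product basis leaves a PPT state on two qutrits; explicit integer filters and
a rational contraction of the shields witness the key criterion for it. For separable states the
Cauchy-Schwarz inequality rules the criterion out, so the tiles state is entangled.
-/

namespace Vale.P372

open Matrix
open scoped Kronecker ComplexOrder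

section Separable

variable {P Q : Type} [Fintype P] [Fintype Q]

lemma trace_mul_conjTranspose_eq (A B : Matrix P Q ℂ) :
    (A * Bᴴ).trace = ∑ z : P × Q, A z.1 z.2 * starRingEnd ℂ (B z.1 z.2) := by
  rw [Fintype.sum_prod_type]
  simp [Matrix.trace, Matrix.mul_apply]

lemma re_trace_self (A : Matrix P Q ℂ) :
    (A * Aᴴ).trace.re = ∑ z : P × Q, ‖A z.1 z.2‖ ^ 2 := by
  rw [trace_mul_conjTranspose_eq, Complex.re_sum]
  refine Finset.sum_congr rfl fun z _ => ?_
  rw [Complex.mul_conj']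
  norm_cast

lemma re_trace_self_nonneg (A : Matrix P Q ℂ) : 0 ≤ (A * Aᴴ).trace.re := by
  rw [re_trace_self]; positivity

lemma norm_trace_mul_le (A B : Matrix P Q ℂ) :
    ‖(A * Bᴴ).trace‖ ≤ √((A * Aᴴ).trace.re * (B * Bᴴ).trace.re) := by
  refine Real.le_sqrt_of_sq_le ?_
  rw [re_trace_self, re_trace_self, trace_mul_conjTranspose_eq]
  refine le_trans (pow_le_pow_left₀ (norm_nonneg _) (norm_sum_le _ _) 2) ?_
  simp only [norm_mul, Complex.norm_conj]
  exact Finset.sum_mul_sq_le_sq_mul_sq _ _ _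

lemma norm_trace_contraction_le [DecidableEq P] {V : Matrix P P ℂ}
    (hV : (1 - Vᴴ * V).PosSemidef) (L R : Matrix P Q ℂ) :
    ‖(V * (L * Rᴴ)).trace‖ ≤ √((L * Lᴴ).trace.re * (R * Rᴴ).trace.re) := by
  rw [← Matrix.mul_assoc]
  refine (norm_trace_mul_le _ _).trans (Real.sqrt_le_sqrt ?_)
  refine mul_le_mul_of_nonneg_right ?_ (re_trace_self_nonneg R)
  have h := (Complex.le_def.1 (hV.conjTranspose_mul_mul_same L).trace_nonneg).1
  rw [Matrix.mul_sub, Matrix.sub_mul, Matrix.mul_one, Matrix.trace_sub, Complex.sub_re,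
    Complex.zero_re, Matrix.trace_mul_comm Lᴴ L] at h
  have e : (V * L * (V * L)ᴴ).trace = (Lᴴ * (Vᴴ * V) * L).trace := by
    rw [Matrix.trace_mul_comm, Matrix.conjTranspose_mul]
    simp only [Matrix.mul_assoc]
  rw [e]
  linarith

end Separable

variable {A B I J : Type} [Fintype A] [Fintype B] [Fintype I] [Fintype J]

omit [Fintype I] [Fintype J] in
lemma kron_conj_term (C : Matrix A A ℂ) (D : Matrix B B ℂ) (X X' : Matrix I A ℂ)
    (Y Y' : Matrix J B ℂ) :
    (X ⊗ₖ Y) * ((Cᴴ * C) ⊗ₖ (Dᴴ * D)) * (X' ⊗ₖ Y')ᴴ =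
      ((X * Cᴴ) ⊗ₖ (Y * Dᴴ)) * ((X' * Cᴴ) ⊗ₖ (Y' * Dᴴ))ᴴ := by
  simp only [Matrix.conjTranspose_kronecker, ← Matrix.mul_kronecker_mul, Matrix.conjTranspose_mul,
    Matrix.conjTranspose_conjTranspose, Matrix.mul_assoc]

open scoped MatrixOrder in
lemma exists_state_factor {α : Matrix A A ℂ} (h : IsState α) : ∃ C : Matrix A A ℂ, α = Cᴴ * C := by
  classical
  exact CStarAlgebra.nonneg_iff_eq_star_mul_self.mp h.1.nonneg

/-- Separable states never meet the key criterion. -/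
theorem not_keyCriterion_of_separable {ρ : Matrix (A × B) (A × B) ℂ} (hρ : IsSeparable ρ) :
    ¬ KeyCriterion ρ := by
  classical
  obtain ⟨m, w, α, β, hw, -, hα, hβ, rfl⟩ := hρ
  choose C hC using fun i => exists_state_factor (hα i)
  choose D hD using fun i => exists_state_factor (hβ i)
  rintro ⟨k, l, X₀, X₁, Y₀, Y₁, V, hV, hlt⟩
  set a : Matrix (Fin k) A ℂ → Fin m → ℝ :=
    fun X i => ((X * (C i)ᴴ) * (X * (C i)ᴴ)ᴴ).trace.re with ha
  set b : Matrix (Fin l) B ℂ → Fin m → ℝ :=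
    fun Y i => ((Y * (D i)ᴴ) * (Y * (D i)ᴴ)ᴴ).trace.re with hb
  have ha0 : ∀ X i, 0 ≤ a X i := fun X i => re_trace_self_nonneg _
  have hb0 : ∀ Y i, 0 ≤ b Y i := fun Y i => re_trace_self_nonneg _
  have key : ∀ (i : Fin m) (X : Matrix (Fin k) A ℂ) (Y : Matrix (Fin l) B ℂ),
      (((X * (C i)ᴴ) ⊗ₖ (Y * (D i)ᴴ)) * ((X * (C i)ᴴ) ⊗ₖ (Y * (D i)ᴴ))ᴴ).trace.re =
        a X i * b Y i := by
    intro i X Y
    rw [Matrix.conjTranspose_kronecker, ← Matrix.mul_kronecker_mul, Matrix.trace_kronecker,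
      Complex.mul_re]
    have him : ((X * (C i)ᴴ) * (X * (C i)ᴴ)ᴴ).trace.im = 0 :=
      (Complex.le_def.1 (Matrix.posSemidef_self_mul_conjTranspose _).trace_nonneg).2.symm
    rw [him, zero_mul, sub_zero]
  have hweight : ∀ X Y, weight (∑ i, (w i : ℂ) • (α i ⊗ₖ β i)) X Y =
      ∑ i, w i * (a X i * b Y i) := by
    intro X Y
    simp only [weight, Matrix.mul_sum, Matrix.sum_mul, Matrix.mul_smul, Matrix.smul_mul,
      Matrix.trace_sum, Matrix.trace_smul, Complex.re_sum, smul_eq_mul, Complex.re_ofReal_mul]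
    refine Finset.sum_congr rfl fun i _ => ?_
    rw [hC, hD, kron_conj_term, key]
  set c : Fin m → ℝ := fun i => w i * √((a X₀ i * b Y₀ i) * (a X₁ i * b Y₁ i)) with hc
  have htr : ‖(V * ((X₀ ⊗ₖ Y₀) * (∑ i, (w i : ℂ) • (α i ⊗ₖ β i)) * (X₁ ⊗ₖ Y₁)ᴴ)).trace‖ ≤
      ∑ i, c i := by
    simp only [Matrix.mul_sum, Matrix.sum_mul, Matrix.mul_smul, Matrix.smul_mul, Matrix.trace_sum,
      Matrix.trace_smul, smul_eq_mul]
    refine (norm_sum_le _ _).trans (Finset.sum_le_sum fun i _ => ?_)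
    rw [norm_mul, Complex.norm_real, Real.norm_eq_abs, abs_of_nonneg (hw i), hC, hD, kron_conj_term]
    refine mul_le_mul_of_nonneg_left ((norm_trace_contraction_le hV _ _).trans ?_) (hw i)
    rw [key, key]
  have hc0 : 0 ≤ ∑ i, c i := Finset.sum_nonneg fun i _ => mul_nonneg (hw i) (Real.sqrt_nonneg _)
  have hn0 : ∀ X Y, 0 ≤ ∑ i, w i * (a X i * b Y i) := fun X Y =>
    Finset.sum_nonneg fun i _ => mul_nonneg (hw i) (mul_nonneg (ha0 X i) (hb0 Y i))
  have cs : ∀ p q : Fin m → ℝ, (∀ i, 0 ≤ p i) → (∀ i, 0 ≤ q i) →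
      (∀ i, p i * q i = (a X₀ i * b Y₀ i) * (a X₁ i * b Y₁ i)) →
      (∑ i, c i) ^ 2 ≤ (∑ i, w i * p i) * ∑ i, w i * q i := by
    intro p q hp hq hpq
    have h := Finset.sum_mul_sq_le_sq_mul_sq Finset.univ (fun i => √(w i * p i))
      (fun i => √(w i * q i))
    simp only [Real.sq_sqrt (mul_nonneg (hw _) (hp _)),
      Real.sq_sqrt (mul_nonneg (hw _) (hq _))] at h
    refine le_trans (le_of_eq ?_) h
    congr 1
    refine Finset.sum_congr rfl fun i _ => ?_
    change w i * √(a X₀ i * b Y₀ i * (a X₁ i * b Y₁ i)) = _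
    rw [← Real.sqrt_mul (mul_nonneg (hw i) (hp i)), ← hpq i]
    rw [show w i * p i * (w i * q i) = w i ^ 2 * (p i * q i) by ring,
      Real.sqrt_mul (sq_nonneg _), Real.sqrt_sq (hw i)]
  have h1 := cs (fun i => a X₀ i * b Y₀ i) (fun i => a X₁ i * b Y₁ i)
    (fun i => mul_nonneg (ha0 _ i) (hb0 _ i)) (fun i => mul_nonneg (ha0 _ i) (hb0 _ i))
    (fun _ => rfl)
  have h2 := cs (fun i => a X₀ i * b Y₁ i) (fun i => a X₁ i * b Y₀ i)
    (fun i => mul_nonneg (ha0 _ i) (hb0 _ i)) (fun i => mul_nonneg (ha0 _ i) (hb0 _ i))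
    (fun i => by ring)
  simp only [hweight] at hlt
  have h4 := pow_le_pow_left₀ (norm_nonneg _) htr 4
  have h5 := mul_le_mul h1 h2 (sq_nonneg _) (mul_nonneg (hn0 _ _) (hn0 _ _))
  rw [show (∑ i, c i) ^ 4 = (∑ i, c i) ^ 2 * (∑ i, c i) ^ 2 by ring] at h4
  nlinarith [h4, h5]

/-! ## The tiles state -/

abbrev Idx : Type := Fin 3 × Fin 3

/-- the five product vectors, unnormalised -/
def tileVec (i : Fin 5) (x : Idx) : ℚ :=
  (!![1, 0, 0; 1, -1, 0; 0, 0, 1; 0, 1, -1; 1, 1, 1] : Matrix (Fin 5) (Fin 3) ℚ) i x.1 *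
    (!![1, -1, 0; 0, 0, 1; 0, 1, -1; 1, 0, 0; 1, 1, 1] : Matrix (Fin 5) (Fin 3) ℚ) i x.2

/-- the inverse squared norms of these vectors -/
def tileWt : Fin 5 → ℚ := ![1 / 2, 1 / 2, 1 / 2, 1 / 2, 1 / 9]

/-- the projection onto their orthogonal complement -/
def tilesQ : Matrix Idx Idx ℚ :=
  Matrix.of fun x y => (if x = y then 1 else 0) - ∑ i, tileWt i * (tileVec i x * tileVec i y)

/-- rational matrices as complex ones -/
noncomputable def qc {m n : Type} (M : Matrix m n ℚ) : Matrix m n ℂ := M.map (Rat.castHom ℂ)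

/-- The tiles state: a quarter of the projection orthogonal to the unextendible product basis. -/
noncomputable def tiles : Matrix Idx Idx ℂ := qc ((1 / 4 : ℚ) • tilesQ)

lemma qc_mul {l m n : Type} [Fintype m] (M : Matrix l m ℚ) (N : Matrix m n ℚ) :
    qc (M * N) = qc M * qc N := Matrix.map_mul

lemma qc_conjTranspose {m n : Type} (M : Matrix m n ℚ) : (qc M)ᴴ = qc Mᵀ := by
  ext i j; simp [qc]

lemma qc_kronecker {l m n p : Type} (M : Matrix l m ℚ) (N : Matrix n p ℚ) :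
    qc M ⊗ₖ qc N = qc (M ⊗ₖ N) := by
  ext i j; simp [qc]

lemma qc_trace {m : Type} [Fintype m] (M : Matrix m m ℚ) : (qc M).trace = (M.trace : ℂ) := by
  simp [qc, Matrix.trace]

lemma qc_one {m : Type} [DecidableEq m] : qc (1 : Matrix m m ℚ) = 1 :=
  Matrix.map_one _ (map_zero _) (map_one _)

lemma posSemidef_of_factor {m n : Type} [Fintype m] [Fintype n] {M : Matrix n n ℚ}
    (F : Matrix m n ℚ) (D : m → ℚ) [DecidableEq m] (hD : ∀ i, 0 ≤ D i)
    (h : M = Fᵀ * Matrix.diagonal D * F) : (qc M).PosSemidef := by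
  rw [h, qc_mul, qc_mul, ← qc_conjTranspose]
  refine Matrix.PosSemidef.conjTranspose_mul_mul_same ?_ _
  rw [qc, Matrix.diagonal_map (map_zero _)]
  exact Matrix.posSemidef_diagonal_iff.2 fun i =>
    Complex.le_def.2 ⟨by simpa using hD i, by simp⟩

theorem tiles_isState : IsState tiles := by
  refine ⟨posSemidef_of_factor tilesQ (fun _ => 1 / 4) (fun _ => by norm_num) ?_, ?_⟩
  · decide +kernel
  · rw [tiles, qc_trace, show ((1 / 4 : ℚ) • tilesQ).trace = 1 by decide +kernel, Rat.cast_one]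

theorem tiles_isPPT : IsPPT tiles := by
  have h : partialTranspose tiles = tiles := by
    ext x y
    change ((Rat.castHom ℂ) _) = (Rat.castHom ℂ) _
    congr 1
    revert x y
    decide +kernel
  exact h ▸ tiles_isState.1

def wX₀ : Matrix (Fin 2) (Fin 3) ℚ := !![4, -2, 4; 0, 4, 0]
def wX₁ : Matrix (Fin 2) (Fin 3) ℚ := !![4, -3, -1; 0, -4, 4]
def wY₀ : Matrix (Fin 2) (Fin 3) ℚ := !![4, -3, -1; 0, 4, -4]
def wY₁ : Matrix (Fin 2) (Fin 3) ℚ := !![4, -2, 4; 0, -4, 0]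

/-- the pairs of shield indices in lexicographic order -/
def ord (x : Fin 2 × Fin 2) : Fin 4 := ⟨2 * x.1.val + x.2.val, by omega⟩

def wV : Matrix (Fin 2 × Fin 2) (Fin 2 × Fin 2) ℚ :=
  Matrix.of fun x y => (1 / 25 : ℚ) * (!![-5, 6, -23, -2; -8, -22, -5, 6; -7, 8, 2, 22;
    21, -4, -7, 9] : Matrix (Fin 4) (Fin 4) ℚ) (ord x) (ord y)

/-- the factor `L` of `1 - Vᵀ V = L D Lᵀ` -/
def wF : Matrix (Fin 4) (Fin 2 × Fin 2) ℚ :=
  Matrix.of fun k x => (!![1, 0, 0, 0; -3/23, 1, 0, 0; 3/23, -350/557, 1, 0;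
    3/46, 101/557, 115/164, 1] : Matrix (Fin 4) (Fin 4) ℚ) (ord x) k

def wD : Fin 4 → ℚ := ![46/625, 557/14375, 4264/348125, 1/41]

theorem tiles_keyCriterion : KeyCriterion tiles := by
  refine ⟨2, 2, qc wX₀, qc wX₁, qc wY₀, qc wY₁, qc wV, ?_, ?_⟩
  · rw [qc_conjTranspose, ← qc_mul, ← qc_one, qc, qc, ← Matrix.map_sub _ (map_sub _)]
    refine posSemidef_of_factor wF wD (by decide +kernel) ?_
    decide +kernel
  · simp only [weight, tiles, qc_kronecker, qc_conjTranspose, ← qc_mul, qc_trace,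
      Complex.ratCast_re, Complex.norm_ratCast]
    norm_cast
    decide +kernel

theorem tiles_not_separable : ¬ IsSeparable tiles :=
  fun h => not_keyCriterion_of_separable h tiles_keyCriterion

end Vale.P372
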