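import Vale.Agent.P372.Kernel

/-!
# P372: every state built on an unextendible product basis of two qutrits has key
-/

namespace Vale.P372

open Matrix
open scoped Kronecker ComplexOrder

/-- Five orthonormal product vectors on two qutrits which no product vector extends. -/
def IsUPB (a b : Fin 5 → Fin 3 → ℂ) : Prop :=
  (∀ i, star (a i) ⬝ᵥ a i = 1 ∧ star (b i) ⬝ᵥ b i = 1) ∧
    (∀ i j, i ≠ j → (star (a i) ⬝ᵥ a j) * (star (b i) ⬝ᵥ b j) = 0) ∧
    ∀ x y : Fin 3 → ℂ, x ≠ 0 → y ≠ 0 → ∃ i, (star (a i) ⬝ᵥ x) * (star (b i) ⬝ᵥ y) ≠ 0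

/-- A product vector. -/
def pvec (x y : Fin 3 → ℂ) : Fin 3 × Fin 3 → ℂ := fun z => x z.1 * y z.2

/-- A quarter of the projection orthogonal to the five product vectors. -/
noncomputable def upbState (a b : Fin 5 → Fin 3 → ℂ) :
    Matrix (Fin 3 × Fin 3) (Fin 3 × Fin 3) ℂ :=
  (4 : ℂ)⁻¹ • (1 - ∑ i, vecMulVec (pvec (a i) (b i)) (star (pvec (a i) (b i))))

lemma dot_pvec (x y x' y' : Fin 3 → ℂ) :
    star (pvec x y) ⬝ᵥ pvec x' y' = (star x ⬝ᵥ x') * (star y ⬝ᵥ y') := by
  simp only [dotProduct, pvec, Pi.star_apply, star_mul', Fintype.sum_prod_type, Finset.mul_sum,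
    Finset.sum_mul]
  rw [Finset.sum_comm]
  refine Finset.sum_congr rfl fun i _ => Finset.sum_congr rfl fun j _ => ?_
  ring

lemma kron_vecMulVec (x y x' y' : Fin 3 → ℂ) :
    vecMulVec x (star x') ⊗ₖ vecMulVec y (star y') = vecMulVec (pvec x y) (star (pvec x' y')) := by
  ext p q
  simp [vecMulVec_apply, pvec, kroneckerMap_apply]
  ring

section Combinatorics

/-- the edge of two vertices among five -/
def edge : Fin 5 → Fin 5 → Fin 10 :=
  ![![0, 0, 1, 2, 3], ![0, 0, 4, 5, 6], ![1, 4, 0, 7, 8], ![2, 5, 7, 0, 9], ![3, 6, 8, 9, 0]]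

lemma graph_pair : ∀ g : Fin 10 → Bool,
    (∀ i : Fin 5, (Finset.univ.filter fun j => j ≠ i ∧ g (edge i j) = true).card = 2) →
    ∃ k l : Fin 5, k ≠ l ∧ g (edge k l) = false ∧
      ∀ m : Fin 5, m ≠ k → m ≠ l → g (edge k m) = true ∨ g (edge l m) = true := by
  decide +kernel

lemma three_others : ∀ k l : Fin 5, k ≠ l → ∃ m n q : Fin 5, m ≠ n ∧ m ≠ q ∧ n ≠ q ∧
    m ≠ k ∧ m ≠ l ∧ n ≠ k ∧ n ≠ l ∧ q ≠ k ∧ q ≠ l := by
  decide +kernel

lemma two_others : ∀ m n q : Fin 5, m ≠ n → m ≠ q → n ≠ q → ∃ r s : Fin 5,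
    ∀ i : Fin 5, i = m ∨ i = n ∨ i = q ∨ i = r ∨ i = s := by
  decide +kernel

lemma edge_rep : ∀ e : Fin 10, ∃ i j : Fin 5, i < j ∧ edge i j = e := by decide +kernel

lemma edge_inj : ∀ i j i' j' : Fin 5, i ≠ j → i' ≠ j' → edge i j = edge i' j' →
    (i = i' ∧ j = j') ∨ (i = j' ∧ j = i') := by
  decide +kernel

end Combinatorics

variable {a b : Fin 5 → Fin 3 → ℂ}

lemma IsUPB.swap (h : IsUPB a b) : IsUPB b a := by
  refine ⟨fun i => (h.1 i).symm, fun i j hij => by rw [mul_comm, h.2.1 i j hij], ?_⟩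
  intro x y hx hy
  obtain ⟨i, hi⟩ := h.2.2 y x hy hx
  exact ⟨i, by rwa [mul_comm]⟩

lemma exists_orth_pair (u v : Fin 3 → ℂ) :
    ∃ y : Fin 3 → ℂ, y ≠ 0 ∧ star u ⬝ᵥ y = 0 ∧ star v ⬝ᵥ y = 0 := by
  set f := (Matrix.of ![star u, star v] : Matrix (Fin 2) (Fin 3) ℂ).mulVecLin
  have hk : LinearMap.ker f ≠ ⊥ := LinearMap.ker_ne_bot_of_finrank_lt (by simp)
  obtain ⟨y, hy, hy0⟩ := Submodule.exists_mem_ne_zero_of_ne_bot hk
  have hy' : (Matrix.of ![star u, star v] : Matrix (Fin 2) (Fin 3) ℂ) *ᵥ y = 0 := hy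
  exact ⟨y, hy0, congrFun hy' 0, congrFun hy' 1⟩

lemma IsUPB.eq_zero_of_three (h : IsUPB a b) {m n q : Fin 5} (hmn : m ≠ n) (hmq : m ≠ q)
    (hnq : n ≠ q) {x : Fin 3 → ℂ} (hm : star (a m) ⬝ᵥ x = 0) (hn : star (a n) ⬝ᵥ x = 0)
    (hq : star (a q) ⬝ᵥ x = 0) : x = 0 := by
  by_contra hx
  obtain ⟨r, s, hrs⟩ := two_others m n q hmn hmq hnq
  obtain ⟨y, hy, hyr, hys⟩ := exists_orth_pair (b r) (b s)
  obtain ⟨i, hi⟩ := h.2.2 x y hx hy
  rcases hrs i with rfl | rfl | rfl | rfl | rfl <;> simp_all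

open Classical in
lemma IsUPB.card_orth_le (h : IsUPB a b) (i : Fin 5) :
    (Finset.univ.filter fun j => j ≠ i ∧ star (a j) ⬝ᵥ a i = 0).card ≤ 2 := by
  by_contra hc
  obtain ⟨m, n, q, hm, hn, hq, hmn, hmq, hnq⟩ := Finset.two_lt_card_iff.1 (not_le.1 hc)
  simp only [Finset.mem_filter, Finset.mem_univ, true_and] at hm hn hq
  have h0 := h.eq_zero_of_three hmn hmq hnq hm.2 hn.2 hq.2
  simpa [h0] using (h.1 i).1

lemma orth_comm {x y : Fin 3 → ℂ} (h : star x ⬝ᵥ y = 0) : star y ⬝ᵥ x = 0 := by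
  rw [Matrix.star_dotProduct, h, star_zero]

/-- Two first factors that are not orthogonal, every other one being orthogonal to one of them. -/
lemma IsUPB.exists_pair (h : IsUPB a b) : ∃ k l : Fin 5, k ≠ l ∧ star (a k) ⬝ᵥ a l ≠ 0 ∧
    ∀ m, m ≠ k → m ≠ l → star (a k) ⬝ᵥ a m = 0 ∨ star (a l) ⬝ᵥ a m = 0 := by
  classical
  choose ei ej hlt he using edge_rep
  set g : Fin 10 → Bool := fun e => decide (star (a (ei e)) ⬝ᵥ a (ej e) = 0) with hg
  have hge : ∀ i j, i ≠ j → (g (edge i j) = true ↔ star (a i) ⬝ᵥ a j = 0) := by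
    intro i j hij
    simp only [hg, decide_eq_true_iff]
    rcases edge_inj _ _ i j (hlt _).ne hij (he (edge i j)) with ⟨h1, h2⟩ | ⟨h1, h2⟩
    · rw [h1, h2]
    · rw [h1, h2]; exact ⟨orth_comm, orth_comm⟩
  have hcard : ∀ i : Fin 5,
      (Finset.univ.filter fun j => j ≠ i ∧ g (edge i j) = true).card = 2 := by
    intro i
    set FA := Finset.univ.filter fun j => j ≠ i ∧ star (a j) ⬝ᵥ a i = 0
    set FB := Finset.univ.filter fun j => j ≠ i ∧ star (b j) ⬝ᵥ b i = 0
    have e1 : (Finset.univ.filter fun j => j ≠ i ∧ g (edge i j) = true) = FA :=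
      Finset.filter_congr fun j _ => and_congr_right fun hj =>
        (hge i j (Ne.symm hj)).trans ⟨orth_comm, orth_comm⟩
    have hA : FA.card ≤ 2 := h.card_orth_le i
    have hB : FB.card ≤ 2 := h.swap.card_orth_le i
    have hsub : Finset.univ.erase i ⊆ FA ∪ FB := by
      intro j hj
      have hji := (Finset.mem_erase.1 hj).1
      rcases mul_eq_zero.1 (h.2.1 j i hji) with h0 | h0 <;>
        simp [FA, FB, hji, h0]
    have h4 := (Finset.card_le_card hsub).trans (Finset.card_union_le _ _)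
    simp at h4
    rw [e1]
    omega
  obtain ⟨k, l, hkl, hnot, hrest⟩ := graph_pair g hcard
  refine ⟨k, l, hkl, fun h0 => ?_, fun m hmk hml => ?_⟩
  · rw [(hge k l hkl).2 h0] at hnot; simp at hnot
  · exact (hrest m hmk hml).imp (hge k m (Ne.symm hmk)).1 (hge l m (Ne.symm hml)).1

section State

lemma upb_dot (h : IsUPB a b) (i j : Fin 5) :
    star (pvec (a i) (b i)) ⬝ᵥ pvec (a j) (b j) = if i = j then 1 else 0 := by
  rw [dot_pvec]
  split_ifs with hij
  · subst hij; rw [(h.1 i).1, (h.1 i).2, mul_one]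
  · exact h.2.1 i j hij

lemma proj_sum_mulVec (v : Fin 5 → Fin 3 × Fin 3 → ℂ) (x : Fin 3 × Fin 3 → ℂ) :
    (∑ i, vecMulVec (v i) (star (v i))) *ᵥ x = ∑ i, (star (v i) ⬝ᵥ x) • v i := by
  rw [Matrix.sum_mulVec]
  refine Finset.sum_congr rfl fun i _ => ?_
  rw [vecMulVec_mulVec, op_smul_eq_smul]

lemma upbState_isHermitian (a b : Fin 5 → Fin 3 → ℂ) : (upbState a b).IsHermitian := by
  simp [upbState, Matrix.IsHermitian, Matrix.conjTranspose_smul, Matrix.conjTranspose_sum,
    Matrix.conjTranspose_sub, conjTranspose_vecMulVec]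

lemma upbState_mulVec_pvec (h : IsUPB a b) (j : Fin 5) :
    upbState a b *ᵥ pvec (a j) (b j) = 0 := by
  rw [upbState, Matrix.smul_mulVec, Matrix.sub_mulVec, Matrix.one_mulVec, proj_sum_mulVec]
  simp [upb_dot h]

lemma dot_upbState_mulVec (h : IsUPB a b) (j : Fin 5) (w : Fin 3 × Fin 3 → ℂ) :
    star (pvec (a j) (b j)) ⬝ᵥ (upbState a b *ᵥ w) = 0 := by
  rw [dotProduct_mulVec]
  have := congrArg star (upbState_mulVec_pvec h j)
  rw [star_mulVec, (upbState_isHermitian a b).eq, star_zero] at this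
  rw [this, zero_dotProduct]

lemma upbState_posSemidef (h : IsUPB a b) : (upbState a b).PosSemidef := by
  set Q := ∑ i, vecMulVec (pvec (a i) (b i)) (star (pvec (a i) (b i))) with hQ
  have hQQ : Q * Q = Q := by
    simp only [hQ, Matrix.mul_sum, Matrix.sum_mul, vecMulVec_mul_vecMulVec, upb_dot h]
    simp only [ite_smul, one_smul, zero_smul, apply_ite (vecMulVec _)]
    refine Finset.sum_congr rfl fun i _ => ?_
    simp [vecMulVec_zero]
  have hQh : Qᴴ = Q := by simp [hQ, Matrix.conjTranspose_sum, conjTranspose_vecMulVec]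
  have : (1 - Q : Matrix _ _ ℂ) = (1 - Q)ᴴ * (1 - Q) := by
    simp [Matrix.mul_sub, Matrix.sub_mul, hQh, hQQ]
  rw [upbState, ← hQ, this]
  exact (posSemidef_conjTranspose_mul_self _).smul (Complex.le_def.2 (by norm_num))

theorem upbState_isState (h : IsUPB a b) : IsState (upbState a b) := by
  refine ⟨upbState_posSemidef h, ?_⟩
  simp only [upbState, Matrix.trace_smul, Matrix.trace_sub, Matrix.trace_one, Matrix.trace_sum,
    Matrix.trace_vecMulVec, dotProduct_comm _ (star _), upb_dot h]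
  norm_num [Fintype.card_prod]

theorem upbState_isPPT (h : IsUPB a b) : IsPPT (upbState a b) := by
  have h' : IsUPB a (fun i => star (b i)) := by
    refine ⟨fun i => ⟨(h.1 i).1, ?_⟩, fun i j hij => ?_, fun x y hx hy => ?_⟩
    · rw [star_star, dotProduct_comm]; exact (h.1 i).2
    · have e : b i ⬝ᵥ star (b j) = star (star (b i) ⬝ᵥ b j) := by
        rw [← Matrix.star_dotProduct_star, star_star, dotProduct_comm]
      rw [star_star, e]
      rcases mul_eq_zero.1 (h.2.1 i j hij) with h0 | h0 <;> simp [h0]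
    · obtain ⟨i, hi⟩ := h.2.2 x (star y) hx (by simpa using hy)
      refine ⟨i, ?_⟩
      rw [star_star]
      intro h0
      apply hi
      rcases mul_eq_zero.1 h0 with h1 | h1
      · simp [h1]
      · have : star (b i) ⬝ᵥ star y = star (b i ⬝ᵥ y) := by
          rw [Matrix.star_dotProduct_star, dotProduct_comm]
        rw [this, h1, star_zero, mul_zero]
  have e : partialTranspose (upbState a b) = upbState a (fun i => star (b i)) := by
    ext p q
    simp only [partialTranspose, upbState, Matrix.smul_apply, Matrix.sub_apply, Matrix.sum_apply,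
      vecMulVec_apply, pvec, Pi.star_apply, star_mul', star_star, Matrix.one_apply]
    congr 2
    · exact if_congr (by simp [Prod.ext_iff, eq_comm]) rfl rfl
    · exact Finset.sum_congr rfl fun i _ => by ring
  exact show (partialTranspose (upbState a b)).PosSemidef from e ▸ upbState_posSemidef h'

theorem upbState_keyCriterion (h : IsUPB a b) : KeyCriterion (upbState a b) := by
  obtain ⟨k, l, hkl, hz, hrest⟩ := h.exists_pair
  obtain ⟨η, hη0, hηk, hηl⟩ := exists_orth_pair (b k) (b l)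
  set z := star (a l) ⬝ᵥ a k with hzdef
  have hz0 : z ≠ 0 := fun h0 => hz (orth_comm h0)
  have hz' : star (a k) ⬝ᵥ a l = star z := by
    rw [hzdef, Matrix.star_dotProduct, dotProduct_comm]
  set ρ := upbState a b with hρ
  set Pk := vecMulVec (b k) (star (b k)) with hPk
  set Pl := vecMulVec (b l) (star (b l)) with hPl
  set U := vecMulVec (a k) (star (a l)) with hU
  set U' := vecMulVec (a l) (star (a k)) with hU'
  set S := star z • U + z • U' with hS
  have hSh : S.IsHermitian := by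
    simp [hS, hU, hU', Matrix.IsHermitian, Matrix.conjTranspose_smul, conjTranspose_vecMulVec,
      add_comm]
  have hM : (Pk + Pl).PosSemidef :=
    (posSemidef_vecMulVec_self_star _).add (posSemidef_vecMulVec_self_star _)
  have hleft : ∀ j (x : Fin 3 × Fin 3 → ℂ), ρ * vecMulVec (pvec (a j) (b j)) x * ρ = 0 := by
    intro j x; rw [mul_vecMulVec, hρ, upbState_mulVec_pvec h]; simp
  have hright : ∀ j (x : Fin 3 × Fin 3 → ℂ),
      ρ * vecMulVec x (star (pvec (a j) (b j))) * ρ = 0 := by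
    intro j x
    rw [mul_vecMulVec, vecMulVec_mul]
    have := congrArg star (upbState_mulVec_pvec h j)
    rw [star_mulVec, (upbState_isHermitian a b).eq, star_zero] at this
    rw [hρ, this]; simp
  refine keyCriterion_of_kernel (upbState_posSemidef h) hSh hM η ?_ ?_ ?_
  · simp only [hS, hU, hU', hPk, hPl, Matrix.add_kronecker, Matrix.kronecker_add,
      Matrix.smul_kronecker, kron_vecMulVec, Matrix.mul_add, Matrix.add_mul, Matrix.mul_smul,
      Matrix.smul_mul, hleft, hright]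
    simp
  · intro w hw
    set u := ρ *ᵥ w with hu
    obtain ⟨m, n, q, hmn, hmq, hnq, hmk, hml, hnk, hnl, hqk, hql⟩ := three_others k l hkl
    have hb : ∀ m', m' ≠ k → m' ≠ l → star (b m') ⬝ᵥ η ≠ 0 := fun m' h1 h2 h0 =>
      hη0 (h.swap.eq_zero_of_three hkl (Ne.symm h1) (Ne.symm h2) hηk hηl h0)
    have hrow : ∀ i, (Pk + Pl) *ᵥ (fun j => u (i, j)) = 0 := by
      intro i; funext j
      have := congrFun hw (i, j)
      simpa [Matrix.mulVec, dotProduct, kroneckerMap_apply, Fintype.sum_prod_type,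
        Matrix.one_apply, ite_mul, Finset.sum_ite_eq] using this
    have hk0 : ∀ i, star (b k) ⬝ᵥ (fun j => u (i, j)) = 0 ∧
        star (b l) ⬝ᵥ (fun j => u (i, j)) = 0 := by
      intro i
      set r := fun j => u (i, j)
      have h0 : star r ⬝ᵥ ((Pk + Pl) *ᵥ r) = 0 := by rw [hrow i, dotProduct_zero]
      have e : ∀ x : Fin 3 → ℂ, star r ⬝ᵥ (vecMulVec x (star x) *ᵥ r) =
          ((Complex.normSq (star x ⬝ᵥ r) : ℝ) : ℂ) := by
        intro x
        rw [vecMulVec_mulVec, op_smul_eq_smul, dotProduct_smul, smul_eq_mul,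
          Matrix.star_dotProduct r x, dotProduct_comm (star x) r, Complex.star_def,
          Complex.mul_conj]
      rw [Matrix.add_mulVec, dotProduct_add, hPk, hPl, e, e, ← Complex.ofReal_add,
        Complex.ofReal_eq_zero, add_eq_zero_iff_of_nonneg (Complex.normSq_nonneg _)
          (Complex.normSq_nonneg _)] at h0
      exact ⟨Complex.normSq_eq_zero.1 h0.1, Complex.normSq_eq_zero.1 h0.2⟩
    set c : Fin 3 → ℂ := fun i => (star (b m) ⬝ᵥ fun j => u (i, j)) / (star (b m) ⬝ᵥ η)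
    have huc : u = pvec c η := by
      funext x
      have hd : (fun j => u (x.1, j)) - c x.1 • η = 0 := by
        refine h.swap.eq_zero_of_three hkl (Ne.symm hmk) (Ne.symm hml) ?_ ?_ ?_
        · rw [dotProduct_sub, (hk0 x.1).1, dotProduct_smul, hηk, smul_zero, sub_zero]
        · rw [dotProduct_sub, (hk0 x.1).2, dotProduct_smul, hηl, smul_zero, sub_zero]
        · rw [dotProduct_sub, dotProduct_smul, smul_eq_mul, div_mul_cancel₀ _ (hb m hmk hml),
            sub_self]
      have := congrFun (sub_eq_zero.1 hd) x.2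
      simpa [pvec] using this
    have hc : ∀ m', m' ≠ k → m' ≠ l → star (a m') ⬝ᵥ c = 0 := by
      intro m' h1 h2
      have := dot_upbState_mulVec h m' w
      rw [← hρ, ← hu, huc, dot_pvec] at this
      exact (mul_eq_zero.1 this).resolve_right (hb m' h1 h2)
    have hc0 : c = 0 := h.eq_zero_of_three hmn hmq hnq (hc m hmk hml) (hc n hnk hnl) (hc q hqk hql)
    rw [huc, hc0]; funext x; simp [pvec]
  · have hval : ∀ x y : Fin 3 → ℂ, (∀ i, (star x ⬝ᵥ a i) * (star (b i) ⬝ᵥ η) *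
          (star (a i) ⬝ᵥ y) = 0) →
        (ρ * (vecMulVec y (star x) ⊗ₖ vecMulVec η (star η))).trace =
          (4 : ℂ)⁻¹ * ((star x ⬝ᵥ y) * (star η ⬝ᵥ η)) := by
      intro x y hxy
      rw [kron_vecMulVec, mul_vecMulVec, Matrix.trace_vecMulVec, dotProduct_comm, hρ, upbState,
        Matrix.smul_mulVec, Matrix.sub_mulVec, Matrix.one_mulVec, proj_sum_mulVec,
        dotProduct_smul, dotProduct_sub, dot_pvec, dotProduct_sum, smul_eq_mul]
      rw [Finset.sum_eq_zero, sub_zero]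
      intro i _
      rw [dotProduct_smul, dot_pvec, dot_pvec, smul_eq_mul]
      linear_combination (star η ⬝ᵥ b i) * hxy i
    have hzero : ∀ i, (star (a l) ⬝ᵥ a i) * (star (b i) ⬝ᵥ η) * (star (a i) ⬝ᵥ a k) = 0 ∧
        (star (a k) ⬝ᵥ a i) * (star (b i) ⬝ᵥ η) * (star (a i) ⬝ᵥ a l) = 0 := by
      intro i
      by_cases hik : i = k
      · subst hik; simp [hηk]
      by_cases hil : i = l
      · subst hil; simp [hηl]
      rcases hrest i hik hil with h0 | h0 <;> simp [h0, orth_comm h0]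
    rw [hS, Matrix.add_kronecker, Matrix.smul_kronecker, Matrix.smul_kronecker, Matrix.mul_add,
      Matrix.mul_smul, Matrix.mul_smul, Matrix.trace_add, Matrix.trace_smul, Matrix.trace_smul,
      hU, hU', hval _ _ (fun i => (hzero i).1), hval _ _ (fun i => (hzero i).2), ← hzdef, hz',
      smul_eq_mul, smul_eq_mul]
    have hN : star η ⬝ᵥ η = ((∑ j, Complex.normSq (η j) : ℝ) : ℂ) := by
      simp [dotProduct, Complex.normSq_eq_conj_mul_self]
    have hpos : 0 < ∑ j, Complex.normSq (η j) := by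
      obtain ⟨j, hj⟩ := Function.ne_iff.1 hη0
      exact Finset.sum_pos' (fun j _ => Complex.normSq_nonneg _)
        ⟨j, Finset.mem_univ _, Complex.normSq_pos.2 hj⟩
    have hzz := Complex.normSq_pos.2 hz0
    rw [hN, show star z * ((4 : ℂ)⁻¹ * (z * ((∑ j, Complex.normSq (η j) : ℝ) : ℂ))) +
      z * ((4 : ℂ)⁻¹ * (star z * ((∑ j, Complex.normSq (η j) : ℝ) : ℂ))) =
      ((Complex.normSq z * (∑ j, Complex.normSq (η j)) / 2 : ℝ) : ℂ) by
        rw [Complex.ofReal_div, Complex.ofReal_mul, Complex.normSq_eq_conj_mul_self,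
          Complex.star_def]; push_cast; ring, Complex.ofReal_re]
    positivity

theorem upbState_not_separable (h : IsUPB a b) : ¬ IsSeparable (upbState a b) :=
  fun hs => not_keyCriterion_of_separable hs (upbState_keyCriterion h)

end State

end Vale.P372
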