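import Vale.Agent.P372.Defs
import Mathlib.Analysis.Real.Sqrt
import Mathlib.Algebra.Order.BigOperators.Ring.Finset

/-!
Eve operators of coefficient matrices and elementary trace-norm bounds.
-/

namespace Vale.P372

open Matrix Finset
open scoped ComplexOrder BigOperators

variable {J E : Type} [Fintype J] [Fintype E] [DecidableEq E]

/-- The state of Eve of a coefficient matrix, the row system being traced out. -/
noncomputable def gam (v : Matrix J E ℂ) : Matrix E E ℂ := (vᴴ * v)ᵀ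

/-- Inner product of coefficient matrices. -/
noncomputable def ip (a b : Matrix J E ℂ) : ℂ := ∑ j, ∑ e, star (a j e) * b j e

/-- Squared norm of a coefficient matrix. -/
noncomputable def nsq (a : Matrix J E ℂ) : ℝ := ∑ j, ∑ e, ‖a j e‖ ^ 2

lemma gam_apply (v : Matrix J E ℂ) (x y : E) :
    gam v x y = ∑ j, star (v j y) * v j x := by
  simp [gam, Matrix.mul_apply, Matrix.conjTranspose_apply]

lemma gam_posSemidef (v : Matrix J E ℂ) : (gam v).PosSemidef :=
  (posSemidef_conjTranspose_mul_self v).transpose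

lemma nsq_nonneg (a : Matrix J E ℂ) : 0 ≤ nsq a :=
  sum_nonneg fun _ _ => sum_nonneg fun _ _ => sq_nonneg _

lemma ip_self (a : Matrix J E ℂ) : ip a a = (nsq a : ℂ) := by
  unfold ip nsq
  push_cast
  refine sum_congr rfl fun j _ => sum_congr rfl fun e _ => ?_
  exact Complex.conj_mul' (a j e)

lemma gam_trace (v : Matrix J E ℂ) : (gam v).trace = (nsq v : ℂ) := by
  rw [← ip_self]
  simp only [Matrix.trace, Matrix.diag_apply, gam_apply, ip]
  exact sum_comm

lemma norm_ip_le (a b : Matrix J E ℂ) : ‖ip a b‖ ≤ √(nsq a) * √(nsq b) := by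
  unfold ip nsq
  rw [← sum_product' (f := fun j e => star (a j e) * b j e),
    ← sum_product' (f := fun j e => ‖a j e‖ ^ 2), ← sum_product' (f := fun j e => ‖b j e‖ ^ 2)]
  refine (norm_sum_le _ _).trans ?_
  have h := Real.sum_mul_le_sqrt_mul_sqrt (univ ×ˢ univ : Finset (J × E))
    (fun p => ‖a p.1 p.2‖) (fun p => ‖b p.1 p.2‖)
  simpa [norm_mul] using h

lemma nsq_mul_unitary (b : Matrix J E ℂ) (U : Matrix E E ℂ) (hU : U * Uᴴ = 1) :
    nsq (b * U) = nsq b := by
  have key : ∀ c : Matrix J E ℂ, (nsq c : ℂ) = (c * cᴴ).trace := by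
    intro c
    rw [← ip_self]
    simp only [Matrix.trace, Matrix.diag_apply, Matrix.mul_apply, Matrix.conjTranspose_apply, ip]
    exact sum_congr rfl fun j _ => sum_congr rfl fun e _ => mul_comm _ _
  have : (nsq (b * U) : ℂ) = (nsq b : ℂ) := by
    rw [key, key, Matrix.conjTranspose_mul, Matrix.mul_assoc b U, ← Matrix.mul_assoc U, hU,
      Matrix.one_mul]
  exact_mod_cast this

lemma trace_mul_cross (U : Matrix E E ℂ) (a b : Matrix J E ℂ) :
    (U * (aᴴ * b)ᵀ).trace = ip a (b * Uᵀ) := by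
  simp only [Matrix.trace, Matrix.diag_apply, Matrix.mul_apply, Matrix.conjTranspose_apply,
    Matrix.transpose_apply, ip, mul_sum, sum_mul]
  conv_rhs => rw [sum_comm]
  refine sum_congr rfl fun e _ => ?_
  rw [sum_comm]
  exact sum_congr rfl fun j _ => sum_congr rfl fun f _ => by ring

lemma norm_trace_cross_le (U : Matrix.unitaryGroup E ℂ) (a b : Matrix J E ℂ) :
    ‖((U : Matrix E E ℂ) * (aᴴ * b)ᵀ).trace‖ ≤ √(nsq a) * √(nsq b) := by
  rw [trace_mul_cross]
  refine (norm_ip_le _ _).trans (le_of_eq ?_)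
  congr 2
  refine nsq_mul_unitary _ _ ?_
  rw [show ((U : Matrix E E ℂ)ᵀ)ᴴ = ((U : Matrix E E ℂ)ᴴ)ᵀ from rfl, ← Matrix.transpose_mul,
    show (U : Matrix E E ℂ)ᴴ * (U : Matrix E E ℂ) = 1 from Unitary.star_mul_self_of_mem U.2,
    Matrix.transpose_one]

lemma bddAbove_traceNorm (X : Matrix E E ℂ) :
    BddAbove (Set.range fun U : Matrix.unitaryGroup E ℂ => ‖((U : Matrix E E ℂ) * X).trace‖) := by
  refine ⟨∑ i, ∑ j, ‖X j i‖, ?_⟩
  rintro _ ⟨U, rfl⟩
  refine (norm_sum_le _ _).trans (sum_le_sum fun i _ => ?_)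
  simp only [Matrix.diag_apply, Matrix.mul_apply]
  refine (norm_sum_le _ _).trans (sum_le_sum fun j _ => ?_)
  rw [norm_mul]
  exact mul_le_of_le_one_left (norm_nonneg _) (entry_norm_bound_of_unitary U.2 i j)

lemma traceNorm_le {X : Matrix E E ℂ} {c : ℝ}
    (h : ∀ U : Matrix.unitaryGroup E ℂ, ‖((U : Matrix E E ℂ) * X).trace‖ ≤ c) :
    traceNorm X ≤ c := ciSup_le h

lemma traceNorm_nonneg (X : Matrix E E ℂ) : 0 ≤ traceNorm X :=
  (norm_nonneg _).trans (le_ciSup (bddAbove_traceNorm X) 1)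

lemma le_traceNorm (X : Matrix E E ℂ) (U : Matrix.unitaryGroup E ℂ) :
    ‖((U : Matrix E E ℂ) * X).trace‖ ≤ traceNorm X := le_ciSup (bddAbove_traceNorm X) U

lemma traceNorm_zero : traceNorm (0 : Matrix E E ℂ) = 0 :=
  le_antisymm (traceNorm_le fun U => by simp) (traceNorm_nonneg _)

lemma traceNorm_add_le (X Y : Matrix E E ℂ) : traceNorm (X + Y) ≤ traceNorm X + traceNorm Y := by
  refine traceNorm_le fun U => ?_
  rw [Matrix.mul_add, Matrix.trace_add]
  exact (norm_add_le _ _).trans (add_le_add (le_traceNorm X U) (le_traceNorm Y U))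

lemma traceNorm_neg (X : Matrix E E ℂ) : traceNorm (-X) = traceNorm X := by
  simp [traceNorm]

lemma traceNorm_sub_le (X Y : Matrix E E ℂ) : traceNorm (X - Y) ≤ traceNorm X + traceNorm Y := by
  simpa [sub_eq_add_neg, traceNorm_neg] using traceNorm_add_le X (-Y)

lemma traceNorm_sum_le {ι : Type*} (s : Finset ι) (f : ι → Matrix E E ℂ) :
    traceNorm (∑ i ∈ s, f i) ≤ ∑ i ∈ s, traceNorm (f i) :=
  Finset.le_sum_of_subadditive _ traceNorm_zero.le traceNorm_add_le s f

lemma traceNorm_smul (c : ℂ) (X : Matrix E E ℂ) : traceNorm (c • X) = ‖c‖ * traceNorm X := by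
  simp only [traceNorm, Matrix.mul_smul, Matrix.trace_smul, norm_smul]
  exact (Real.mul_iSup_of_nonneg (norm_nonneg c) _).symm

lemma traceNorm_gam_le (v : Matrix J E ℂ) : traceNorm (gam v) ≤ nsq v :=
  traceNorm_le fun U => (norm_trace_cross_le U v v).trans
    (le_of_eq (Real.mul_self_sqrt (nsq_nonneg v)))

lemma traceNorm_gam_sub_le (v w : Matrix J E ℂ) :
    traceNorm (gam v - gam w) ≤ √(nsq (v - w)) * (√(nsq v) + √(nsq w)) := by
  have e : gam v - gam w = ((v - w)ᴴ * v)ᵀ + (wᴴ * (v - w))ᵀ := by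
    simp only [gam, ← Matrix.transpose_add, ← Matrix.transpose_sub]
    congr 1
    rw [Matrix.conjTranspose_sub, Matrix.sub_mul, Matrix.mul_sub]
    abel
  rw [e]
  refine (traceNorm_add_le _ _).trans ?_
  have h1 : traceNorm (((v - w)ᴴ * v)ᵀ) ≤ √(nsq (v - w)) * √(nsq v) :=
    traceNorm_le fun U => norm_trace_cross_le U _ _
  have h2 : traceNorm ((wᴴ * (v - w))ᵀ) ≤ √(nsq w) * √(nsq (v - w)) :=
    traceNorm_le fun U => norm_trace_cross_le U _ _
  linarith

end Vale.P372
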